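import Vale.Agent.P165.Kernel

/-!
# Cheeger's inequality: isoperimetry gives a form bound below the degree
-/

namespace Vale.Agent.P165

variable {V : Type*} [DecidableEq V] {G : SimpleGraph V} {nb : V → Finset V} {d : ℕ}

theorem coarea {h : ℝ} (hh : NB G nb d)
    (hiso : ∀ A : Finset V, h * A.card ≤ ∑ a ∈ A, ((nb a).filter (· ∉ A)).card) (T : Finset V) :
    ∀ (n : ℕ) (g : V → ℝ) (A : Finset V), A.card = n → (∀ x, 0 ≤ g x) → (∀ x ∈ A, 0 < g x) →
      (∀ x ∉ A, g x = 0) → nbhd nb A ⊆ T →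
      2 * h * ∑ x ∈ A, g x ≤ ∑ x ∈ T, ∑ y ∈ nb x, |g x - g y| := by
  intro n
  induction n using Nat.strong_induction_on with
  | _ n ih =>
  intro g A hn h0 hpos hz hT
  rcases A.eq_empty_or_nonempty with rfl | hA
  · simpa using Finset.sum_nonneg fun x _ => Finset.sum_nonneg fun y _ => abs_nonneg _
  obtain ⟨a, haA, hmin⟩ := Finset.exists_min_image A g hA
  set m := g a
  set g' : V → ℝ := fun x => if x ∈ A then g x - m else 0 with hg'
  set A' := A.filter fun x => m < g x
  have hlt : A'.card < n := hn ▸ Finset.card_lt_card (Finset.filter_ssubset.2 ⟨a, haA, by simp [m]⟩)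
  have hrec := ih _ hlt g' A' rfl
    (fun x => by simp only [hg']; split_ifs with hx; exacts [sub_nonneg.2 (hmin x hx), le_rfl])
    (fun x hx => by
      obtain ⟨hx, hx'⟩ := Finset.mem_filter.1 hx
      simp only [hg', if_pos hx]; linarith)
    (fun x hx => by
      simp only [hg']
      split_ifs with hxA
      · have : ¬ m < g x := fun hm => hx (Finset.mem_filter.2 ⟨hxA, hm⟩)
        linarith [hmin x hxA, not_lt.1 this]
      · rfl)
    (Finset.Subset.trans (Finset.union_subset_union (Finset.filter_subset _ _)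
      (Finset.biUnion_subset_biUnion_of_subset_left _ (Finset.filter_subset _ _))) hT)
  have hsum : ∑ x ∈ A, g x = m * A.card + ∑ x ∈ A', g' x := by
    have e : ∑ x ∈ A', g' x = ∑ x ∈ A, g' x :=
      Finset.sum_subset (Finset.filter_subset _ _) fun x hxA hx => by
        have : ¬ m < g x := fun hm => hx (Finset.mem_filter.2 ⟨hxA, hm⟩)
        simp only [hg', if_pos hxA]; linarith [hmin x hxA, not_lt.1 this]
    rw [e, Finset.sum_congr rfl fun x (hx : x ∈ A) => show g' x = g x - m from if_pos hx]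
    simp [Finset.sum_sub_distrib]; ring
  have hpt : ∀ x y, |g x - g y| =
      |g' x - g' y| + m * |(if x ∈ A then (1 : ℝ) else 0) - if y ∈ A then 1 else 0| := by
    intro x y
    have hm0 : 0 ≤ m := h0 a
    by_cases hx : x ∈ A <;> by_cases hy : y ∈ A <;> simp [hg', hx, hy]
    · have := hmin x hx
      rw [hz y hy, sub_zero, abs_of_nonneg (h0 x), abs_of_nonneg (by linarith)]; ring
    · have := hmin y hy
      rw [hz x hx, zero_sub, abs_neg, abs_of_nonneg (h0 y),
        show m - g y = -(g y - m) by ring, abs_neg, abs_of_nonneg (by linarith)]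
      ring
    · simp [hz x hx, hz y hy]
  have hcut : 2 * (∑ a ∈ A, (((nb a).filter (· ∉ A)).card : ℝ)) ≤
      ∑ x ∈ T, ∑ y ∈ nb x, |(if x ∈ A then (1 : ℝ) else 0) - if y ∈ A then 1 else 0| := by
    have hout : ∀ x, ∑ y ∈ nb x, |(if x ∈ A then (1 : ℝ) else 0) - if y ∈ A then 1 else 0| =
        if x ∈ A then (((nb x).filter (· ∉ A)).card : ℝ)
        else (((nb x).filter (· ∈ A)).card : ℝ) := by
      intro x
      by_cases hx : x ∈ A <;> simp only [hx, if_true, if_false, Finset.natCast_card_filter] <;>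
        refine Finset.sum_congr rfl fun y _ => ?_ <;> by_cases hy : y ∈ A <;> simp [hy]
    simp only [hout]
    have hAT : A ⊆ T := Finset.subset_union_left.trans hT
    rw [two_mul, ← Finset.sum_sdiff hAT, Finset.sum_congr rfl fun x (hx : x ∈ T \ A) =>
      if_neg (Finset.mem_sdiff.1 hx).2, Finset.sum_congr rfl fun x (hx : x ∈ A) => if_pos hx]
    refine add_le_add_left (le_of_eq ?_) _
    norm_cast
    simp only [Finset.card_filter]
    have l : ∀ x ∈ A, (∑ y ∈ nb x, if y ∉ A then 1 else 0) =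
        ∑ y ∈ T \ A, if y ∈ nb x then 1 else 0 := fun x hx => by
      rw [← Finset.card_filter, ← Finset.card_filter]
      congr 1
      ext y
      simp only [Finset.mem_filter, Finset.mem_sdiff]
      exact ⟨fun ⟨hy, hA'⟩ => ⟨⟨hT (Finset.mem_union_right _
        (Finset.mem_biUnion.2 ⟨x, hx, hy⟩)), hA'⟩, hy⟩, fun ⟨⟨_, hA'⟩, hy⟩ => ⟨hy, hA'⟩⟩
    have r : ∀ x : V, (∑ y ∈ nb x, if y ∈ A then 1 else 0) =
        ∑ y ∈ A, if x ∈ nb y then 1 else 0 := fun x => by
      rw [← Finset.card_filter, ← Finset.card_filter]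
      congr 1
      ext y
      simp only [Finset.mem_filter, hh.symm (x := x) (y := y), and_comm]
    rw [Finset.sum_congr rfl l, Finset.sum_congr rfl fun x (_ : x ∈ T \ A) => r x, Finset.sum_comm]
  rw [Finset.sum_congr rfl fun x _ => Finset.sum_congr rfl fun y _ => hpt x y]
  simp only [Finset.sum_add_distrib, ← Finset.mul_sum]
  have h2 := mul_le_mul_of_nonneg_left hcut (h0 a)
  have h3 := mul_le_mul_of_nonneg_left (hiso A) (h0 a)
  push_cast at h3
  rw [hsum]
  nlinarith [hrec, h2, h3]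

/-- Isoperimetry gives the form bound. -/
theorem formBound_of_iso {h : ℝ} (hpos : 0 < h) (hh : NB G nb d)
    (hiso : ∀ A : Finset V, h * A.card ≤ ∑ a ∈ A, ((nb a).filter (· ∉ A)).card) :
    FormBound nb (Real.sqrt ((d : ℝ) ^ 2 - h ^ 2)) := by
  intro S f h0 hf
  set A := S.filter fun x => 0 < f x
  set T := nbhd nb (nbhd nb S) with hT
  have hST : S ⊆ T := Finset.subset_union_left.trans Finset.subset_union_left
  have hAT : nbhd nb A ⊆ T :=
    Finset.Subset.trans (Finset.union_subset_union (Finset.filter_subset _ _)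
      (Finset.biUnion_subset_biUnion_of_subset_left _ (Finset.filter_subset _ _)))
      Finset.subset_union_left
  have hfT : ∀ x ∉ T, f x = 0 := fun x hx => hf x fun hS => hx (hST hS)
  have hfA : ∀ x ∉ A, f x = 0 := fun x hx => by
    by_cases hS : x ∈ S
    · exact le_antisymm (not_lt.1 fun hp => hx (Finset.mem_filter.2 ⟨hS, hp⟩)) (h0 x)
    · exact hf x hS
  set N := ∑ x ∈ S, f x ^ 2 with hN
  set Q := ∑ x ∈ S, f x * adjOp nb f x with hQ
  have hN0 : 0 ≤ N := Finset.sum_nonneg fun _ _ => sq_nonneg _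
  have eN : ∑ x ∈ T, f x ^ 2 = N :=
    (Finset.sum_subset hST fun x _ hx => by simp [hf x hx]).symm
  have eQ : ∑ x ∈ T, f x * adjOp nb f x = Q :=
    (Finset.sum_subset hST fun x _ hx => by simp [hf x hx]).symm
  have e1 : ∑ x ∈ T, ∑ y ∈ nb x, f x ^ 2 = d * N := by
    simp only [Finset.sum_const, hh.card, nsmul_eq_mul]
    rw [← Finset.mul_sum, eN]
  have e2 : ∑ x ∈ T, ∑ y ∈ nb x, f y ^ 2 = d * N := by
    rw [Finset.sum_comm' (t' := nbhd nb T) (s' := fun y => T ∩ nb y)]
    · rw [← eN, Finset.mul_sum]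
      refine (Finset.sum_subset Finset.subset_union_left fun y _ hy => by
        simp [hfT y hy]).symm.trans (Finset.sum_congr rfl fun y _ => ?_)
      by_cases hyS : y ∈ S
      · have : T ∩ nb y = nb y := Finset.inter_eq_right.2 fun z hz =>
          Finset.mem_union_left _ (Finset.mem_union_right _ (Finset.mem_biUnion.2 ⟨y, hyS, hz⟩))
        simp [this, hh.card]
      · simp [hf y hyS]
    · intro x y
      simp only [Finset.mem_inter, nbhd, Finset.mem_union, Finset.mem_biUnion]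
      exact ⟨fun ⟨hx, hy⟩ => ⟨⟨hx, hh.symm.1 hy⟩, Or.inr ⟨x, hx, hy⟩⟩,
        fun ⟨⟨hx, hy⟩, _⟩ => ⟨hx, hh.symm.2 hy⟩⟩
  have e3 : ∑ x ∈ T, ∑ y ∈ nb x, f x * f y = Q := by
    rw [← eQ]; simp only [adjOp, Finset.mul_sum]
  have e3' : ∑ x ∈ T, f x * ∑ y ∈ nb x, f y = Q := eQ
  have em : ∑ x ∈ T, ∑ y ∈ nb x, (f x - f y) ^ 2 = 2 * d * N - 2 * Q := by
    simp only [sub_sq, Finset.sum_add_distrib, Finset.sum_sub_distrib, mul_assoc, ← Finset.mul_sum,
      e1, e2, e3, e3']
    ring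
  have ep : ∑ x ∈ T, ∑ y ∈ nb x, (f x + f y) ^ 2 = 2 * d * N + 2 * Q := by
    simp only [add_sq, Finset.sum_add_distrib, mul_assoc, ← Finset.mul_sum, e1, e2, e3, e3']
    ring
  have hc := coarea hh hiso T A.card (fun x => f x ^ 2) A rfl (fun _ => sq_nonneg _)
    (fun x hx => pow_pos (Finset.mem_filter.1 hx).2 2) (fun x hx => by simp [hfA x hx]) hAT
  have eA : ∑ x ∈ A, f x ^ 2 = N :=
    Finset.sum_subset (Finset.filter_subset _ _) fun x _ hx => by simp [hfA x hx]
  rw [eA] at hc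
  have hcs := Finset.sum_mul_sq_le_sq_mul_sq (T.sigma nb)
    (fun z => |f z.1 - f z.2|) (fun z => |f z.1 + f z.2|)
  simp only [sq_abs, Finset.sum_sigma, ← abs_mul] at hcs
  rw [em, ep] at hcs
  have e4 : ∑ x ∈ T, ∑ y ∈ nb x, |f x ^ 2 - f y ^ 2| =
      ∑ x ∈ T, ∑ y ∈ nb x, |(f x - f y) * (f x + f y)| :=
    Finset.sum_congr rfl fun x _ => Finset.sum_congr rfl fun y _ => by congr 1; ring
  rw [← e4] at hcs
  have h2 : (2 * h * N) ^ 2 ≤ (2 * d * N - 2 * Q) * (2 * d * N + 2 * Q) :=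
    le_trans (pow_le_pow_left₀ (by positivity) hc 2) hcs
  have h3 : Q ^ 2 ≤ ((d : ℝ) ^ 2 - h ^ 2) * N ^ 2 := by nlinarith
  refine (le_abs_self Q).trans ?_
  rw [← Real.sqrt_sq_eq_abs]
  calc Real.sqrt (Q ^ 2) ≤ Real.sqrt (((d : ℝ) ^ 2 - h ^ 2) * N ^ 2) := Real.sqrt_le_sqrt h3
    _ = Real.sqrt ((d : ℝ) ^ 2 - h ^ 2) * N := by
      rw [Real.sqrt_mul' _ (sq_nonneg _), Real.sqrt_sq hN0]

/-- A nonamenable regular graph has a form bound strictly below its degree. -/
theorem exists_formBound (hh : NB G nb d) (hne : Nonempty V) (hn : Nonamenable G) :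
    ∃ r : ℝ, 0 < r ∧ r < d ∧ FormBound nb r := by
  obtain ⟨c, hc, hA⟩ := hn
  have hiso : ∀ A : Finset V, c * A.card ≤ ∑ a ∈ A, ((nb a).filter (· ∉ A)).card := by
    intro A
    refine (hA A).trans ?_
    norm_cast
    rw [show ({v | v ∉ A ∧ ∃ a ∈ A, G.Adj a v} : Set V) =
      ↑(A.biUnion fun a => (nb a).filter (· ∉ A)) by
        ext v; simp [hh.mem]; tauto, Set.ncard_coe_finset]
    exact Finset.card_biUnion_le
  have hd : (0 : ℝ) < d := by
    obtain ⟨v⟩ := hne
    have h1 := hiso {v}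
    have h2 : ((nb v).filter (· ∉ ({v} : Finset V))).card ≤ d :=
      (Finset.card_filter_le _ _).trans_eq (hh.card v)
    simp only [Finset.card_singleton, Nat.cast_one, mul_one, Finset.sum_singleton] at h1
    exact hc.trans_le (h1.trans (by exact_mod_cast h2))
  refine ⟨max (Real.sqrt ((d : ℝ) ^ 2 - c ^ 2)) (d / 2), by positivity, max_lt ?_ (by linarith),
    fun S f h0 hf => (formBound_of_iso hc hh hiso S f h0 hf).trans
      (mul_le_mul_of_nonneg_right (le_max_left _ _) (Finset.sum_nonneg fun _ _ => sq_nonneg _))⟩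
  calc Real.sqrt ((d : ℝ) ^ 2 - c ^ 2) < Real.sqrt ((d : ℝ) ^ 2) :=
        (Real.sqrt_lt_sqrt_iff_of_pos (by positivity)).2 (by nlinarith)
    _ = d := Real.sqrt_sq hd.le

end Vale.Agent.P165
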