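import Vale.Agent.P165.Unique
import Vale.Agent.P165.Cheeger

/-!
# A spectral radius below one and small return probabilities give nonuniqueness
-/

namespace Vale.Agent.P165

open MeasureTheory ProbabilityTheory

universe u

variable {V : Type u} {G : SimpleGraph V} {nb : V → Finset V}

theorem ncard_walks [DecidableEq V] (h : LF G nb) (k : ℕ) (x y : V) :
    {w : G.Walk x y | w.length = k}.ncard = W nb k x y := by
  classical
  letI : G.LocallyFinite := fun v => Fintype.ofFinset (nb v) fun w => by simp [h.mem]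
  rw [← G.coe_finsetWalkLength_eq, Set.ncard_coe_finset]
  induction k generalizing x with
  | zero => obtain rfl | hne := eq_or_ne x y <;> simp [SimpleGraph.finsetWalkLength, W, *]
  | succ k ih =>
    simp only [SimpleGraph.finsetWalkLength, W]
    rw [Finset.card_biUnion]
    · simp only [Finset.card_map]
      rw [Finset.sum_subtype (nb x) (p := fun z => z ∈ G.neighborSet x) (by simp [h.mem])]
      exact Finset.sum_congr rfl fun z _ => ih z
    · rintro ⟨z, hz⟩ _ ⟨z', hz'⟩ _ hne
      rw [Function.onFun, Finset.disjoint_left]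
      intro w hw hw'
      simp only [Finset.mem_map, Function.Embedding.coeFn_mk] at hw hw'
      obtain ⟨q, -, rfl⟩ := hw
      obtain ⟨q', -, he⟩ := hw'
      injection he with h1 h2 h3
      exact hne (Subtype.ext h2.symm)

theorem bubble_mono [DecidableEq V] {p q : ℝ} (hp : 0 ≤ p) (hpq : p ≤ q) (n : ℕ) (w : V) :
    bubble nb p n w ≤ bubble nb q n w :=
  Finset.sum_le_sum fun _ _ => Finset.sum_le_sum fun _ _ =>
    mul_le_mul_of_nonneg_right (pow_le_pow_left₀ hp hpq _) (Nat.cast_nonneg _)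

/-- The gap at a parameter where the weighted return count is small. -/
theorem gap_of_bubble [DecidableEq V] [Countable V] [Infinite V] (h : LF G nb)
    (hc : G.Connected) (hq : QuasiTransitive G) {R : ℝ} (hR : 0 < R)
    (hW : ∀ k x y, (W nb k x y : ℝ) ≤ R ^ k) {f : V → ℝ} {lam K : ℝ} (hf1 : ∀ x, 1 ≤ f x)
    (hfK : ∀ x, f x ≤ K) (hlam : ∀ x, lam * f x ≤ ∑ z ∈ nb x, f z) {a a' δ : ℝ} (h1a : 1 < a')
    (haa : a' < a) (had : a < lam) (haR : a / lam * R < 1) (hδ : 0 ≤ δ) (hδa : 1 + K * δ ≤ a')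
    (hb : ∀ n w, bubble nb (a / lam) n w ≤ δ) : pc G < pu G := by
  classical
  have hd : (0 : ℝ) < lam := by linarith
  have hp2 : a / lam ∈ Set.Icc (0 : ℝ) 1 :=
    ⟨div_nonneg (by linarith) hd.le, (div_le_one hd).2 had.le⟩
  set p2 : unitInterval := ⟨a / lam, hp2⟩
  obtain ⟨o⟩ : Nonempty V := inferInstance
  have hK : 0 < K := lt_of_lt_of_le one_pos ((hf1 o).trans (hfK o))
  have hK1 : 1 ≤ K := (hf1 o).trans (hfK o)
  have hp1 : 0 < a' / lam := div_pos (by linarith) hd
  have h12 : a' / lam < a / lam := div_lt_div_of_pos_right haa hd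
  have h21 : a / lam < 1 := (div_lt_one hd).2 had
  have hφ : ∀ p ∈ Set.Icc (a' / lam) (p2 : ℝ), ∀ S : Finset V, o ∈ S →
      1 / K ≤ phi nb S p o := by
    intro p hp S hS
    obtain ⟨hlo, hhi⟩ := hp
    rw [div_le_iff₀' hK]
    exact le_phi h (hp1.le.trans hlo) (hhi.trans hp2.2) hf1 hfK hlam hδ
      (fun n w => (bubble_mono (hp1.le.trans hlo) hhi n w).trans (hb n w))
      (hδa.trans ((div_le_iff₀ hd).1 hlo)) hS
  have hθ := theta_ge (p2 := p2) h hp1 h12.le h21 (η := 1 / K) (by positivity)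
    ((div_le_one hK).2 hK1) hφ
  have hpos : 0 < perc G p2 {ω | HasInfinite G ω} := by
    refine lt_of_lt_of_le ?_ (hθ.trans (measure_mono fun ω hω => ⟨o, hω⟩))
    refine ENNReal.ofReal_pos.2 (sub_pos.2 (Real.exp_lt_one_iff.2 ?_))
    have h2 : 1 / K * (a' / lam) < 1 / K * (p2 : ℝ) :=
      mul_lt_mul_of_pos_left h12 (by positivity)
    linarith
  have hpc : pc G ≤ a / lam := csInf_le ⟨0, fun t ⟨ht, _⟩ => ht.1⟩ ⟨hp2, hpos⟩
  have hpu : 1 / R ≤ pu G := by
    refine le_csInf ⟨1, ⟨zero_le_one, le_rfl⟩, ?_⟩ ?_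
    · rw [show (⟨(1 : ℝ), ⟨zero_le_one, le_rfl⟩⟩ : unitInterval) = 1 from rfl, perc,
        setBernoulli_one]
      refine Measure.dirac_apply_of_mem ?_
      have e : openGraph G G.edgeSet = G := by simp [openGraph]
      have eu : ∀ x : V, {z | (openGraph G G.edgeSet).Reachable x z} = Set.univ := fun x => by
        ext z
        simp [e, hc.preconnected x z]
      refine ⟨⟨o, by rw [eu]; exact Set.infinite_univ⟩, fun x y _ _ => ?_⟩
      rw [e]
      exact hc.preconnected x y
    · rintro t ⟨ht, h1⟩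
      by_contra hlt
      exact not_unique h hc hq hR.le hW (p := ⟨t, ht⟩)
        ((lt_div_iff₀ hR).1 (not_le.1 hlt)) h1
  calc pc G ≤ a / lam := hpc
    _ < 1 / R := (lt_div_iff₀ hR).2 haR
    _ ≤ pu G := hpu

/-- For every bound below one on the spectral radius, relative to the growth of a bounded weight,
there is a bound on return numbers under which a quasi-transitive graph has a nonuniqueness
phase. -/
theorem gap_of_returns {ρ : ℝ} (hρ : ρ < 1) {K : ℝ} (hK : 1 ≤ K) : ∃ ε : ℝ, 0 < ε ∧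
    ∀ (V : Type u) [DecidableEq V] [Countable V] [Infinite V] (G : SimpleGraph V)
      (nb : V → Finset V), LF G nb → G.Connected → QuasiTransitive G →
      ∀ (f : V → ℝ) (lam : ℝ), 0 < lam → (∀ x, 1 ≤ f x) → (∀ x, f x ≤ K) →
      (∀ x, lam * f x ≤ ∑ z ∈ nb x, f z) →
      (∀ (k : ℕ) (x y : V), (W nb k x y : ℝ) ≤ (ρ * lam) ^ k) →
      (∀ (k : ℕ) (x : V), 1 ≤ k → (W nb k x x : ℝ) ≤ ε * lam ^ k) →
      pc G < pu G := by
  set σ := max |ρ| (1 / 2)
  have hσ0 : 0 < σ := lt_of_lt_of_le (by norm_num) (le_max_right _ _)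
  have hK0 : 0 < K := lt_of_lt_of_le one_pos hK
  by_cases hneg : ρ ≤ -1
  · refine ⟨1 / 2, by norm_num, fun V _ _ _ G nb h hc _ f lam hl hf1 _ _ hW _ => ?_⟩
    exfalso
    obtain ⟨x⟩ : Nonempty V := inferInstance
    obtain ⟨y, hy⟩ := hc.preconnected.exists_adj_of_nontrivial x
    have h1 := hW 1 x y
    rw [pow_one] at h1
    nlinarith [Nat.cast_nonneg (α := ℝ) (W nb 1 x y)]
  have hσ1 : σ < 1 := max_lt (abs_lt.2 ⟨not_le.1 hneg, hρ⟩) (by norm_num)
  set a := (1 + 1 / σ) / 2 with ha
  have hs : 1 < 1 / σ := (one_lt_div hσ0).2 hσ1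
  have h1a : 1 < a := by rw [ha]; linarith
  have ha0 : 0 ≤ a := by linarith
  set q := a * σ with hqd
  have hq0 : 0 ≤ q := mul_nonneg ha0 hσ0.le
  have hq1 : q < 1 := by
    have : q = (σ + 1) / 2 := by rw [hqd, ha]; field_simp
    rw [this]; linarith
  set b := Real.sqrt q
  have hb0 : 0 ≤ b := Real.sqrt_nonneg _
  have hbb : b * b = q := Real.mul_self_sqrt hq0
  have hb1 : b < 1 := by nlinarith
  set δ := ((1 + a) / 2 - 1) / K with hδd
  have hδ : 0 < δ := div_pos (by linarith) hK0
  have hg : 0 < δ / 2 * (1 - b) ^ 2 := mul_pos (by linarith) (pow_pos (by linarith) 2)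
  obtain ⟨M, hM⟩ := exists_pow_lt_of_lt_one hg hb1
  set L := (M : ℝ) * M * a ^ M + 1
  have hL : 0 < L := by positivity
  set ε := min (1 / (2 * a * K)) (δ / 2 / L)
  have hε : 0 < ε := lt_min (by positivity) (by positivity)
  refine ⟨ε, hε, fun V _ _ _ G nb h hc hqt f lam hl hf1 hfK hlam hW hret => ?_⟩
  obtain ⟨o⟩ : Nonempty V := inferInstance
  have hWσ : ∀ k x y, (W nb k x y : ℝ) ≤ (σ * lam) ^ k := fun k x y => by
    refine (hW k x y).trans ((le_abs_self _).trans ?_)
    rw [abs_pow, abs_mul, abs_of_pos hl]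
    exact pow_le_pow_left₀ (by positivity)
      (mul_le_mul_of_nonneg_right (le_max_left _ _) hl.le) _
  have hda : a < lam := by
    have h2 := hret 2 o (by norm_num)
    have e : W nb 2 o o = (nb o).card := by
      have e1 : ∀ z ∈ nb o, W nb 1 z o = 1 := fun z hz => by
        simp only [W, Finset.sum_ite_eq', h.symm.1 hz, if_true]
      rw [W, Finset.sum_congr rfl e1, Finset.sum_const, smul_eq_mul, mul_one]
    rw [e] at h2
    have h3 : lam ≤ (nb o).card * K := by
      refine le_trans (le_mul_of_one_le_right hl.le (hf1 o)) ((hlam o).trans ?_)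
      refine (Finset.sum_le_sum fun z _ => hfK z).trans_eq ?_
      rw [Finset.sum_const, nsmul_eq_mul]
    have h4 : lam ≤ 1 / (2 * a * K) * lam ^ 2 * K :=
      h3.trans (mul_le_mul_of_nonneg_right
        (h2.trans (mul_le_mul_of_nonneg_right (min_le_left _ _) (by positivity))) hK0.le)
    rw [show 1 / (2 * a * K) * lam ^ 2 * K = lam ^ 2 / (2 * a) by field_simp,
      le_div_iff₀ (by positivity)] at h4
    nlinarith
  refine gap_of_bubble (a := a) (a' := (1 + a) / 2) (δ := δ) (R := σ * lam) h hc hqt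
    (mul_pos hσ0 hl) hWσ hf1 hfK hlam (by linarith) (by linarith) hda ?_ hδ.le ?_ fun n w => ?_
  · rw [show a / lam * (σ * lam) = q by rw [hqd]; field_simp]
    exact hq1
  · rw [hδd, mul_div_cancel₀ _ hK0.ne']; linarith
  · have hterm : ∀ j k : ℕ, (a / lam) ^ (j + k + 1) * (W nb (j + k + 1) w w : ℝ) ≤
        (if j < M ∧ k < M then a ^ M * ε else 0) + b ^ M * (b ^ j * b ^ k) := by
      intro j k
      have hif : 0 ≤ (if j < M ∧ k < M then a ^ M * ε else 0) := by
        split_ifs <;> positivity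
      have htail : 0 ≤ b ^ M * (b ^ j * b ^ k) := by positivity
      by_cases hm : j + k + 1 ≤ M
      · refine le_trans (mul_le_mul_of_nonneg_left (hret _ w (by omega)) (by positivity)) ?_
        rw [if_pos ⟨by omega, by omega⟩, div_pow, mul_comm ε, ← mul_assoc,
          div_mul_cancel₀ _ (by positivity)]
        have : a ^ (j + k + 1) * ε ≤ a ^ M * ε := mul_le_mul_of_nonneg_right
          (pow_le_pow_right₀ h1a.le hm) hε.le
        linarith
      · refine le_trans (mul_le_mul_of_nonneg_left (hWσ _ w w) (by positivity)) ?_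
        rw [← mul_pow, show a / lam * (σ * lam) = b * b by rw [hbb, hqd]; field_simp, mul_pow]
        refine le_add_of_nonneg_of_le hif ?_
        rw [← pow_add b j k]
        exact mul_le_mul (pow_le_pow_of_le_one hb0 hb1.le (by omega))
          (pow_le_pow_of_le_one hb0 hb1.le (by omega)) (by positivity) (by positivity)
    unfold bubble
    refine (Finset.sum_le_sum fun j _ => Finset.sum_le_sum fun k _ => hterm j k).trans ?_
    simp only [Finset.sum_add_distrib, ← Finset.mul_sum, ← Finset.sum_mul]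
    have hgeo : ∀ N : ℕ, ∑ j ∈ Finset.range N, b ^ j ≤ (1 - b)⁻¹ := fun N => by
      rw [← tsum_geometric_of_lt_one hb0 hb1]
      exact (summable_geometric_of_lt_one hb0 hb1).sum_le_tsum _ fun _ _ => pow_nonneg hb0 _
    have hA : (∑ j ∈ Finset.range n, ∑ k ∈ Finset.range n,
        if j < M ∧ k < M then a ^ M * ε else 0) ≤ δ / 2 := by
      rw [← Finset.sum_product', ← Finset.sum_filter, Finset.sum_const, nsmul_eq_mul]
      have hcard : ((Finset.range n ×ˢ Finset.range n).filter
          fun x => x.1 < M ∧ x.2 < M).card ≤ M * M := by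
        refine (Finset.card_le_card (t := Finset.range M ×ˢ Finset.range M) fun x hx => ?_).trans
          (by simp)
        simpa using (Finset.mem_filter.1 hx).2
      have he : ε * L ≤ δ / 2 := (le_div_iff₀ hL).1 (min_le_right _ _)
      calc _ ≤ ((M * M : ℕ) : ℝ) * (a ^ M * ε) :=
            mul_le_mul_of_nonneg_right (Nat.cast_le.2 hcard) (by positivity)
        _ = ε * (L - 1) := by simp only [L]; push_cast; ring
        _ ≤ δ / 2 := by nlinarith
    have hB : b ^ M * ((∑ j ∈ Finset.range n, b ^ j) * ∑ k ∈ Finset.range n, b ^ k) ≤ δ / 2 := by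
      have hpos : 0 < (1 - b) := by linarith
      calc _ ≤ b ^ M * ((1 - b)⁻¹ * (1 - b)⁻¹) := mul_le_mul_of_nonneg_left
            (mul_le_mul (hgeo n) (hgeo n) (Finset.sum_nonneg fun _ _ => pow_nonneg hb0 _)
              (inv_nonneg.2 hpos.le)) (pow_nonneg hb0 _)
        _ ≤ δ / 2 := by
          rw [← mul_inv, ← div_eq_mul_inv, div_le_iff₀ (by positivity), ← pow_two]
          exact hM.le
    linarith

end Vale.Agent.P165
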