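import Vale.Agent.P165.Tree

/-!
# Percolation above the threshold: the differential inequality and the product measure
-/

namespace Vale.Agent.P165

open MeasureTheory ProbabilityTheory

variable {V : Type*} [DecidableEq V] {G : SimpleGraph V} {nb : V → Finset V}

/-- The edges touching `Λ`. -/
def edgesTouch (nb : V → Finset V) (Λ : Finset V) : Finset (Sym2 V) :=
  Λ.biUnion fun x => (nb x).image fun y => s(x, y)

/-- A vertex is joined to the outside of `Λ`. -/
def ReachOut (Λ : Finset V) (o : V) (s : Finset (Sym2 V)) : Prop := ∃ v, v ∉ Λ ∧ Conn o v s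

theorem reachOut_mono (Λ : Finset V) (o : V) : Monotone (ReachOut Λ o) :=
  fun _ _ hs ⟨v, hv, h⟩ => ⟨v, hv, conn_mono o v hs h⟩

open Classical in
/-- The vertices of `Λ` not joined to its outside. -/
noncomputable def trapped (Λ : Finset V) (s : Finset (Sym2 V)) : Finset V :=
  Λ.filter fun y => ¬ ReachOut Λ y s

theorem trapped_closed {Λ : Finset V} {s : Finset (Sym2 V)} {x z : V} (hx : x ∈ trapped Λ s)
    (he : (edgeGraph s).Adj x z) : z ∈ trapped Λ s := by
  classical
  simp only [trapped, Finset.mem_filter] at hx ⊢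
  exact ⟨by_contra fun hz => hx.2 ⟨z, hz, he.reachable⟩,
    fun ⟨v, hv, h⟩ => hx.2 ⟨v, hv, he.reachable.trans h⟩⟩

theorem conn_closed {s : Finset (Sym2 V)} {P : V → Prop}
    (hP : ∀ a b, P a → (edgeGraph s).Adj a b → P b) {x y : V} (h : Conn x y s) (hx : P x) : P y := by
  obtain ⟨p⟩ := h
  induction p with
  | nil => exact hx
  | cons hu _ ih => exact ih (hP _ _ hx hu)

/-- The trapped set does not depend on the edges inside it. -/
theorem trapped_congr (h : LF G nb) {Λ S : Finset V} {t u : Finset (Sym2 V)}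
    (he : ∀ e, e ∉ edgesIn nb S → (e ∈ t ↔ e ∈ u)) (ht : trapped Λ t = S) :
    trapped Λ u = S := by
  classical
  have hclt : ∀ a b, a ∈ S → (edgeGraph t).Adj a b → b ∈ S := fun a b ha hab =>
    ht ▸ trapped_closed (ht.symm ▸ ha) hab
  have hclu : ∀ a b, a ∈ S → (edgeGraph u).Adj a b → b ∈ S := fun a b ha hab => by
    by_cases hI : s(a, b) ∈ edgesIn nb S
    · exact ((mem_edgesIn h).1 hI).2.2
    · exact hclt a b ha (edgeGraph_adj.2
        ⟨(he _ hI).2 (edgeGraph_adj.1 hab).1, (edgeGraph_adj.1 hab).2⟩)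
  have hSΛ : ∀ y ∈ S, y ∈ Λ := fun y hy => Finset.filter_subset _ _ (ht.symm ▸ hy)
  ext y
  simp only [trapped, Finset.mem_filter]
  constructor
  · rintro ⟨hy, hno⟩
    by_contra hyS
    have hr : ReachOut Λ y t := by
      by_contra hr
      exact hyS (ht ▸ Finset.mem_filter.2 ⟨hy, hr⟩)
    obtain ⟨v, hv, ⟨p⟩⟩ := hr
    refine hno ⟨v, hv, conn_of_edges p fun e hmem => (he e ?_).1
      (walk_edges_subset p (List.mem_toFinset.2 hmem))⟩
    intro hI
    induction e using Sym2.ind with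
    | _ a b =>
      have ha := ((mem_edgesIn h).1 hI).2.1
      have hsup := p.fst_mem_support_of_mem_edges hmem
      exact hv (hSΛ v (conn_closed hclt ⟨p.dropUntil a hsup⟩ ha))
  · intro hy
    exact ⟨hSΛ y hy, fun ⟨v, hv, hc⟩ => hv (hSΛ v (conn_closed hclu hc hy))⟩

/-- The differential inequality. -/
theorem pivSum_ge (h : LF G nb) {p c : ℝ} (h0 : 0 ≤ p) (h1 : p ≤ 1) {o : V}
    (hc1 : c ≤ 1) (hφ : ∀ S : Finset V, o ∈ S → c ≤ phi nb S p o) (Λ : Finset V) :
    c * (1 - Pr (edgesTouch nb Λ) p (ReachOut Λ o)) ≤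
      p * ((1 - p) * pivSum (edgesTouch nb Λ) p (ReachOut Λ o)) := by
  classical
  set E := edgesTouch nb Λ
  set A := ReachOut Λ o
  by_cases hoΛ : o ∈ Λ
  swap
  · have hA : ∀ s, A s := fun s => ⟨o, hoΛ, SimpleGraph.Reachable.refl _⟩
    rw [pivSum_eq (reachOut_mono Λ o), Pr_congr (B := fun _ => True) (fun s _ => iff_true_intro (hA s)),
      Pr_true, sub_self, mul_zero]
    exact mul_nonneg h0 (Finset.sum_nonneg fun e _ => Pr_nonneg h0 h1 _)
  set 𝒮 := Λ.powerset.filter fun S => o ∈ S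
  have hnot : Pr E p (fun s => ¬ A s) ≤ ∑ S ∈ 𝒮, Pr E p (fun s => trapped Λ s = S) := by
    refine (Pr_mono h0 h1 fun s _ hs => ?_).trans (Pr_exists h0 h1 _ _)
    exact ⟨trapped Λ s, Finset.mem_filter.2 ⟨Finset.mem_powerset.2 (Finset.filter_subset _ _),
      Finset.mem_filter.2 ⟨hoΛ, hs⟩⟩, rfl⟩
  -- independence of the trapped set and the connections inside it
  have hind : ∀ S ∈ 𝒮, ∀ x, Pr E p (fun s => trapped Λ s = S) *
      Pr (edgesIn nb S) p (Conn o x) =
      Pr E p (fun s => trapped Λ s = S ∧ Conn o x (s ∩ edgesIn nb S)) := by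
    intro S hS x
    have hIE : edgesIn nb S ⊆ E := by
      intro e he
      induction e using Sym2.ind with
      | _ a b =>
        obtain ⟨hab, ha, -⟩ := (mem_edgesIn h).1 he
        exact Finset.mem_biUnion.2 ⟨a, Finset.mem_powerset.1 (Finset.mem_filter.1 hS).1 ha,
          Finset.mem_image.2 ⟨b, h.mem.2 hab, rfl⟩⟩
    set I := edgesIn nb S
    have hdep : ∀ s ⊆ (E \ I) ∪ I, (trapped Λ s = S ↔ trapped Λ (s ∩ (E \ I)) = S) := by
      intro s hs
      rw [Finset.sdiff_union_of_subset hIE] at hs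
      have key : ∀ e, e ∉ I → (e ∈ s ↔ e ∈ s ∩ (E \ I)) := fun e he => by
        simp only [Finset.mem_inter, Finset.mem_sdiff]
        exact ⟨fun hh => ⟨hh, hs hh, he⟩, And.left⟩
      exact ⟨trapped_congr h key, trapped_congr h fun e he => (key e he).symm⟩
    have e1 := Pr_union (p := p) I (E \ I) Finset.sdiff_disjoint (fun s => trapped Λ s = S)
      (fun s => Conn o x (s ∩ I)) hdep (fun s _ => by rw [Finset.inter_assoc, Finset.inter_self])
    have e2 := Pr_union (p := p) I (E \ I) Finset.sdiff_disjoint (fun s => trapped Λ s = S)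
      (fun _ => True) hdep (fun _ _ => Iff.rfl)
    rw [Finset.sdiff_union_of_subset hIE] at e1 e2
    rw [Pr_true, mul_one] at e2
    simp only [and_true] at e2
    rw [e1, e2]
    congr 1
    exact Pr_congr fun s hs => by rw [Finset.inter_eq_left.2 hs]
  -- closed pivotal edges
  have hpiv : ∑ S ∈ 𝒮, Pr E p (fun s => trapped Λ s = S) *
      (∑ x ∈ S, Pr (edgesIn nb S) p (Conn o x) * (((nb x).filter (· ∉ S)).card : ℝ)) ≤
      (1 - p) * pivSum E p A := by
    rw [pivSum_eq (reachOut_mono Λ o)]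
    simp only [Finset.mul_sum, ← mul_assoc]
    rw [Finset.sum_congr rfl fun S hS => Finset.sum_congr rfl fun x _ => by rw [hind S hS x]]
    simp only [Pr, Finset.sum_mul, ite_mul, zero_mul]
    rw [Finset.sum_congr rfl fun S (_ : S ∈ 𝒮) => Finset.sum_comm, Finset.sum_comm,
      Finset.sum_comm (s := E)]
    refine Finset.sum_le_sum fun s hs => ?_
    have hs' := Finset.mem_powerset.1 hs
    set w := p ^ s.card * (1 - p) ^ (E.card - s.card)
    have hw : 0 ≤ w := mul_nonneg (pow_nonneg h0 _) (pow_nonneg (by linarith) _)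
    have hR : (∑ e ∈ E, if e ∉ s ∧ A (insert e s) ∧ ¬ A s then w else 0) =
        ((E.filter fun e => e ∉ s ∧ A (insert e s) ∧ ¬ A s).card : ℝ) * w := by
      rw [← nsmul_eq_mul, ← Finset.sum_const, Finset.sum_filter]
    refine le_of_le_of_eq ?_ (hR.symm.trans (Finset.sum_congr rfl fun e _ => by congr))
    have hdoms : ∀ S ∈ 𝒮, (∑ x ∈ S, if trapped Λ s = S ∧ Conn o x (s ∩ edgesIn nb S) then
        w * (((nb x).filter (· ∉ S)).card : ℝ) else 0) =
        if S = trapped Λ s then (∑ x ∈ trapped Λ s,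
          if Conn o x (s ∩ edgesIn nb (trapped Λ s)) then
            w * (((nb x).filter (· ∉ trapped Λ s)).card : ℝ) else 0) else 0 := by
      intro S _
      by_cases hh : S = trapped Λ s
      · subst hh; simp
      · simp [hh, Ne.symm hh]
    rw [Finset.sum_congr rfl hdoms, Finset.sum_ite_eq']
    split_ifs with hmem
    swap
    · positivity
    have hoS : o ∈ trapped Λ s := (Finset.mem_filter.1 hmem).2
    have hTΛ : ∀ y ∈ trapped Λ s, y ∈ Λ := fun y hy => Finset.filter_subset _ _ hy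
    set S := trapped Λ s with hSdef
    rw [← Finset.sum_filter, ← Finset.mul_sum, mul_comm]
    refine mul_le_mul_of_nonneg_right ?_ hw
    rw [← Nat.cast_sum, Nat.cast_le, ← Finset.card_sigma]
    refine Finset.card_le_card_of_injOn (fun q => s(q.1, q.2)) ?_ ?_
    · rintro ⟨x, z⟩ hq
      obtain ⟨hx, hz⟩ := Finset.mem_sigma.1 hq
      obtain ⟨hxS, hconn⟩ := Finset.mem_filter.1 hx
      obtain ⟨hadj, hzS⟩ := Finset.mem_filter.1 hz
      have hne := (h.mem.1 hadj).ne
      refine Finset.mem_filter.2 ⟨Finset.mem_biUnion.2 ⟨x, hTΛ x hxS,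
        Finset.mem_image.2 ⟨z, hadj, rfl⟩⟩, fun hin => hzS
          (trapped_closed hxS (edgeGraph_adj.2 ⟨hin, hne⟩)), ?_, (Finset.mem_filter.1 hoS).2⟩
      have c1 : Conn o z (insert s(x, z) s) :=
        (conn_mono o x (Finset.inter_subset_left.trans (Finset.subset_insert _ _)) hconn).trans
          (SimpleGraph.Adj.reachable (edgeGraph_adj.2 ⟨Finset.mem_insert_self _ _, hne⟩))
      by_cases hzΛ : z ∈ Λ
      · have : ReachOut Λ z s := by
          by_contra hr
          exact hzS (Finset.mem_filter.2 ⟨hzΛ, hr⟩)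
        obtain ⟨v, hv, hc⟩ := this
        exact ⟨v, hv, c1.trans (conn_mono z v (Finset.subset_insert _ _) hc)⟩
      · exact ⟨z, hzΛ, c1⟩
    · rintro ⟨x, z⟩ hq ⟨x', z'⟩ hq' (heq : s(x, z) = s(x', z'))
      rcases Sym2.eq_iff.1 heq with ⟨rfl, rfl⟩ | ⟨rfl, rfl⟩
      · rfl
      · exact absurd (Finset.mem_filter.1 (Finset.mem_sigma.1 hq').1).1
          (Finset.mem_filter.1 (Finset.mem_sigma.1 hq).2).2
  rw [← Pr_not]
  refine (le_total 0 c).elim (fun hc0 => ?_) fun hc0 =>
    le_trans (mul_nonpos_of_nonpos_of_nonneg hc0 (Pr_nonneg h0 h1 _))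
      (by
        rw [pivSum_eq (reachOut_mono Λ o)]
        exact mul_nonneg h0 (Finset.sum_nonneg fun e _ => Pr_nonneg h0 h1 _))
  refine (mul_le_mul_of_nonneg_left hnot hc0).trans (le_trans (le_trans (b := ∑ S ∈ 𝒮, Pr E p (fun s => trapped Λ s = S) *
    phi nb S p o) ?_ (le_of_eq ?_)) (mul_le_mul_of_nonneg_left hpiv h0))
  · rw [Finset.mul_sum]
    refine Finset.sum_le_sum fun S hS => ?_
    rw [mul_comm]
    exact mul_le_mul_of_nonneg_left (hφ S (Finset.mem_filter.1 hS).2) (Pr_nonneg h0 h1 _)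
  · rw [Finset.mul_sum]; exact Finset.sum_congr rfl fun S _ => by rw [phi]; ring

/-- A uniform lower bound on the probability of leaving any finite set. -/
theorem reachOut_ge (h : LF G nb) {p1 p2 c : ℝ} (hp1 : 0 < p1) (h12 : p1 ≤ p2) (h21 : p2 < 1)
    {o : V} (hc0 : 0 ≤ c) (hc1 : c ≤ 1)
    (hφ : ∀ p ∈ Set.Icc p1 p2, ∀ S : Finset V, o ∈ S → c ≤ phi nb S p o) (Λ : Finset V) :
    1 - Real.exp (c * p1 - c * p2) ≤ Pr (edgesTouch nb Λ) p2 (ReachOut Λ o) := by
  set f := fun q => Pr (edgesTouch nb Λ) q (ReachOut Λ o)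
  set g := fun q : ℝ => (1 - f q) * Real.exp (c * q)
  have hg : ∀ q, HasDerivAt g
      (-(pivSum (edgesTouch nb Λ) q (ReachOut Λ o)) * Real.exp (c * q) +
        (1 - f q) * (Real.exp (c * q) * (c * 1))) q := fun q =>
    ((hasDerivAt_Pr _ _ q).const_sub 1).mul (((hasDerivAt_id q).const_mul c).exp)
  have hanti : AntitoneOn g (Set.Icc p1 p2) := by
    refine antitoneOn_of_deriv_nonpos (convex_Icc _ _)
      (fun q _ => (hg q).continuousAt.continuousWithinAt)
      (fun q _ => (hg q).differentiableAt.differentiableWithinAt) fun q hq => ?_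
    have hq' := interior_subset hq
    rw [(hg q).deriv]
    have h0 : 0 ≤ q := by linarith [hq'.1]
    have h1 : q ≤ 1 := by linarith [hq'.2]
    have hk := pivSum_ge h h0 h1 hc1 (hφ q hq') Λ
    have hP : 0 ≤ pivSum (edgesTouch nb Λ) q (ReachOut Λ o) := by
      refine nonneg_of_mul_nonneg_right ?_ (by linarith [hq'.2] : (0 : ℝ) < 1 - q)
      rw [pivSum_eq (reachOut_mono Λ o)]
      exact Finset.sum_nonneg fun e _ => Pr_nonneg h0 h1 _
    have h5 : (1 - f q) * c ≤ pivSum (edgesTouch nb Λ) q (ReachOut Λ o) := by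
      rw [← mul_assoc] at hk
      rw [mul_comm]
      exact hk.trans (mul_le_of_le_one_left hP (by nlinarith))
    nlinarith [mul_nonneg (sub_nonneg.2 h5) (Real.exp_pos (c * q)).le]
  have h' := hanti (Set.left_mem_Icc.2 h12) (Set.right_mem_Icc.2 h12) h12
  simp only [g] at h'
  have hf1 : 0 ≤ f p1 := Pr_nonneg hp1.le (by linarith) _
  have h2 : (1 - f p2) * Real.exp (c * p2) ≤ 1 * Real.exp (c * p1) :=
    h'.trans (mul_le_mul_of_nonneg_right (by linarith) (Real.exp_pos _).le)
  show _ ≤ f p2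
  rw [Real.exp_sub, sub_le_comm, le_div_iff₀ (Real.exp_pos _)]
  linarith

/-! ### The product measure -/

variable [Countable V]

theorem perc_cylinder (p : unitInterval) {F : Finset (Sym2 V)} (hF : ∀ e ∈ F, e ∈ G.edgeSet)
    {t : Finset (Sym2 V)} (ht : t ⊆ F) :
    perc G p {ω | ∀ e ∈ F, e ∈ ω ↔ e ∈ t} =
      ENNReal.ofReal ((p : ℝ) ^ t.card * (1 - (p : ℝ)) ^ (F.card - t.card)) := by
  classical
  rw [perc, setBernoulli_apply']
  rw [show (fun q : Sym2 V → Prop => {i | q i}) ⁻¹' {ω | ∀ e ∈ F, e ∈ ω ↔ e ∈ t} =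
    Set.pi F (fun e => if e ∈ t then {True} else {False}) by
      ext q
      simp only [Set.mem_preimage, Set.mem_ofPred_eq, Set.mem_pi, Finset.mem_coe]
      refine forall₂_congr fun e _ => ?_
      by_cases he : e ∈ t <;> simp [he]]
  have : ∀ e : Sym2 V, IsProbabilityMeasure (unitInterval.toNNReal p • Measure.dirac (e ∈ G.edgeSet) +
      unitInterval.toNNReal (unitInterval.symm p) • Measure.dirac False) := fun e => ⟨by
    simp [← ENNReal.coe_add]⟩
  rw [Measure.infinitePi_pi _ fun e _ => MeasurableSet.of_discrete]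
  rw [Finset.prod_congr rfl (g := fun e => if e ∈ t then ENNReal.ofReal (p : ℝ)
    else ENNReal.ofReal (1 - (p : ℝ))) fun e he => by
      rw [Measure.add_apply, Measure.smul_apply, Measure.smul_apply, ENNReal.smul_def,
        ENNReal.smul_def, smul_eq_mul, smul_eq_mul]
      by_cases het : e ∈ t <;>
        simp [het, hF e he, ENNReal.ofReal_eq_coe_nnreal p.2.1,
          ENNReal.ofReal_eq_coe_nnreal (sub_nonneg.2 p.2.2), unitInterval.toNNReal, Measure.dirac_apply, Set.indicator] <;> rfl]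
  rw [Finset.prod_ite, Finset.prod_const, Finset.prod_const, Finset.filter_mem_eq_inter,
    Finset.inter_eq_right.2 ht, Finset.filter_not, Finset.filter_mem_eq_inter,
    Finset.inter_eq_right.2 ht, Finset.card_sdiff_of_subset ht, ← ENNReal.ofReal_pow p.2.1,
    ← ENNReal.ofReal_pow (by linarith [p.2.2]), ← ENNReal.ofReal_mul (pow_nonneg p.2.1 _)]

open Classical in
/-- An event of finitely many edges has the finite-sum probability. -/
theorem perc_finite (p : unitInterval) {F : Finset (Sym2 V)} (hF : ∀ e ∈ F, e ∈ G.edgeSet)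
    (A : Finset (Sym2 V) → Prop) :
    perc G p {ω | A (F.filter (· ∈ ω))} = ENNReal.ofReal (Pr F (p : ℝ) A) := by
  have e : {ω : Set (Sym2 V) | A (F.filter (· ∈ ω))} =
      ⋃ t ∈ F.powerset.filter A, {ω | ∀ e ∈ F, e ∈ ω ↔ e ∈ t} := by
    ext ω
    simp only [Set.mem_iUnion, Finset.mem_filter, Finset.mem_powerset, exists_prop,
      Set.mem_ofPred_eq]
    refine ⟨fun hA => ⟨_, ⟨Finset.filter_subset _ _, hA⟩, fun e he => by simp [he]⟩, ?_⟩
    rintro ⟨t, ⟨ht, hA⟩, hω⟩
    convert hA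
    ext e
    simp only [Finset.mem_filter]
    exact ⟨fun ⟨he, h'⟩ => (hω e he).1 h', fun he => ⟨ht he, (hω e (ht he)).2 he⟩⟩
  rw [e, measure_biUnion_finset]
  · rw [Finset.sum_congr rfl fun t ht =>
      perc_cylinder p hF (Finset.mem_powerset.1 (Finset.mem_filter.1 ht).1),
      ← ENNReal.ofReal_sum_of_nonneg fun t _ =>
        mul_nonneg (pow_nonneg p.2.1 _) (pow_nonneg (by linarith [p.2.2]) _)]
    rw [Pr, Finset.sum_filter]
  · intro t ht t' ht' hne
    rw [Function.onFun, Set.disjoint_left]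
    intro ω h1 h2
    refine hne (Finset.ext fun e => ⟨fun he => ?_, fun he => ?_⟩)
    · have := Finset.mem_powerset.1 (Finset.mem_filter.1 ht).1 he
      exact (h2 e this).1 ((h1 e this).2 he)
    · have := Finset.mem_powerset.1 (Finset.mem_filter.1 ht').1 he
      exact (h1 e this).1 ((h2 e this).2 he)
  · intro t _
    rw [show {ω : Set (Sym2 V) | ∀ e ∈ F, e ∈ ω ↔ e ∈ t} =
      ⋂ e ∈ F, {ω | e ∈ ω ↔ e ∈ t} by ext ω; simp]
    refine Finset.measurableSet_biInter _ fun e _ => ?_
    by_cases he : e ∈ t <;> simp only [he, iff_true, iff_false]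
    · exact measurableSet_mem _
    · exact (measurableSet_mem _).compl

/-- Above the threshold every vertex lies in an infinite cluster with probability bounded below. -/
theorem theta_ge (h : LF G nb) {p1 η : ℝ} {p2 : unitInterval} (hp1 : 0 < p1) (h12 : p1 ≤ p2)
    (h21 : (p2 : ℝ) < 1) {o : V} (hη0 : 0 ≤ η) (hη1 : η ≤ 1)
    (hφ : ∀ p ∈ Set.Icc p1 (p2 : ℝ), ∀ S : Finset V, o ∈ S → η ≤ phi nb S p o) :
    ENNReal.ofReal (1 - Real.exp (η * p1 - η * p2)) ≤
      perc G p2 {ω | {y | (openGraph G ω).Reachable o y}.Infinite} := by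
  classical
  set c := 1 - Real.exp (η * p1 - η * p2)
  obtain ⟨f, hf⟩ := exists_surjective_nat (Option V)
  set B : ℕ → Finset V := fun n => ((Finset.range n).image f).eraseNone
  have hBm : Monotone B := fun a b hab v hv => by
    simp only [B, Finset.mem_eraseNone, Finset.mem_image, Finset.mem_range] at hv ⊢
    obtain ⟨i, hi, hiv⟩ := hv
    exact ⟨i, by omega, hiv⟩
  set U : ℕ → Set (Set (Sym2 V)) := fun n =>
    {ω | ∀ y, (openGraph G ω).Reachable o y → y ∈ B n}
  have hU : ∀ n, perc G p2 (U n) ≤ ENNReal.ofReal (1 - c) := by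
    intro n
    set F := edgesTouch nb (B n)
    have hF : ∀ e ∈ F, e ∈ G.edgeSet := fun e he => by
      obtain ⟨x, -, he⟩ := Finset.mem_biUnion.1 he
      obtain ⟨y, hy, rfl⟩ := Finset.mem_image.1 he
      exact h.mem.1 hy
    refine le_trans (measure_mono (t := {ω | ¬ ReachOut (B n) o (F.filter (· ∈ ω))}) ?_) ?_
    · rintro ω hω ⟨v, hv, hc⟩
      refine hv (hω v (SimpleGraph.Reachable.mono ?_ hc))
      intro a b hab
      obtain ⟨hab, hne⟩ := edgeGraph_adj.1 hab
      obtain ⟨hF', hω'⟩ := Finset.mem_filter.1 hab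
      exact ⟨hF _ hF', hω', hne⟩
    · rw [perc_finite p2 hF (fun t => ¬ ReachOut (B n) o t), Pr_not]
      exact ENNReal.ofReal_le_ofReal (by linarith [reachOut_ge h hp1 h12 h21 hη0 hη1 hφ (B n)])
  have hcov : Set.univ ⊆ {ω | {y | (openGraph G ω).Reachable o y}.Infinite} ∪ ⋃ n, U n := by
    intro ω _
    by_cases hi : {y | (openGraph G ω).Reachable o y}.Infinite
    · exact Or.inl hi
    · obtain ⟨T, hT⟩ := (Set.not_infinite.1 hi).exists_finset_coe
      choose g hg using fun v => hf (some v)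
      refine Or.inr (Set.mem_iUnion.2 ⟨T.sup g + 1, fun y hy => ?_⟩)
      have hyT : y ∈ T := Finset.mem_coe.1 (hT.symm ▸ hy)
      simp only [B, Finset.mem_eraseNone, Finset.mem_image, Finset.mem_range]
      exact ⟨g y, Nat.lt_succ_of_le (Finset.le_sup hyT), hg y⟩
  have hUm : Monotone U := fun a b hab ω hω y hy => hBm hab (hω y hy)
  have hsum : perc G p2 (⋃ n, U n) ≤ ENNReal.ofReal (1 - c) := by
    rw [hUm.measure_iUnion]; exact iSup_le hU
  have h1 : (1 : ENNReal) ≤ perc G p2 {ω | {y | (openGraph G ω).Reachable o y}.Infinite} +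
      ENNReal.ofReal (1 - c) := by
    have hm := (measure_mono (μ := perc G p2) hcov).trans (measure_union_le _ _)
    rw [perc, measure_univ] at hm
    exact hm.trans (add_le_add le_rfl hsum)
  have hc1 : c ≤ 1 := sub_le_self _ (Real.exp_pos _).le
  have hc0 : 0 ≤ c := sub_nonneg.2 (Real.exp_le_one_iff.2 (by nlinarith))
  rw [show (1 : ENNReal) = ENNReal.ofReal c + ENNReal.ofReal (1 - c) by
    rw [← ENNReal.ofReal_add hc0 (by linarith)]; simp] at h1
  exact (ENNReal.add_le_add_iff_right ENNReal.ofReal_ne_top).1 h1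

end Vale.Agent.P165
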