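import Mathlib

/-!
# Bernoulli bond percolation on a graph, and the vocabulary of nonuniqueness
-/

namespace Vale.Agent.P165

open MeasureTheory ProbabilityTheory

variable {V : Type*}

/-- The open subgraph of a configuration of edges. -/
def openGraph (G : SimpleGraph V) (ω : Set (Sym2 V)) : SimpleGraph V :=
  G ⊓ SimpleGraph.fromEdgeSet ω

/-- Some open cluster is infinite. -/
def HasInfinite (G : SimpleGraph V) (ω : Set (Sym2 V)) : Prop :=
  ∃ x, {y | (openGraph G ω).Reachable x y}.Infinite

/-- Exactly one open cluster is infinite. -/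
def UniqueInfinite (G : SimpleGraph V) (ω : Set (Sym2 V)) : Prop :=
  HasInfinite G ω ∧ ∀ x y, {z | (openGraph G ω).Reachable x z}.Infinite →
    {z | (openGraph G ω).Reachable y z}.Infinite → (openGraph G ω).Reachable x y

/-- Bernoulli bond percolation: each edge of `G` is open independently with probability `p`. -/
noncomputable def perc (G : SimpleGraph V) (p : unitInterval) : Measure (Set (Sym2 V)) :=
  setBer(G.edgeSet, p)

/-- The critical value. -/
noncomputable def pc (G : SimpleGraph V) : ℝ :=
  sInf {t : ℝ | ∃ h : t ∈ Set.Icc (0 : ℝ) 1, 0 < perc G ⟨t, h⟩ {ω | HasInfinite G ω}}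

/-- The uniqueness value. -/
noncomputable def pu (G : SimpleGraph V) : ℝ :=
  sInf {t : ℝ | ∃ h : t ∈ Set.Icc (0 : ℝ) 1, perc G ⟨t, h⟩ {ω | UniqueInfinite G ω} = 1}

/-- Finitely many orbits of vertices under the automorphisms. -/
def QuasiTransitive (G : SimpleGraph V) : Prop :=
  ∃ F : Finset V, ∀ v, ∃ f ∈ F, ∃ φ : G ≃g G, φ f = v

/-- A finite set together with its outer vertex boundary is linearly larger than the set. -/
def Nonamenable (G : SimpleGraph V) : Prop :=
  ∃ h : ℝ, 0 < h ∧ ∀ A : Finset V, h * A.card ≤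
    ({v | v ∉ A ∧ ∃ a ∈ A, G.Adj a v} : Set V).ncard

/-- Every vertex has exactly `d` neighbours. -/
def Regular (G : SimpleGraph V) (d : ℕ) : Prop :=
  ∀ v, (G.neighborSet v).Finite ∧ (G.neighborSet v).ncard = d

/-- The Cartesian power: two tuples are adjacent when they differ in exactly one coordinate, by an
edge of `G`. -/
def powGraph (G : SimpleGraph V) (n : ℕ) : SimpleGraph (Fin n → V) where
  Adj x y := ∃ i, G.Adj (x i) (y i) ∧ ∀ j, j ≠ i → x j = y j
  symm := ⟨fun _ _ ⟨i, h, h'⟩ => ⟨i, h.symm, fun j hj => (h' j hj).symm⟩⟩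
  loopless := ⟨fun _ ⟨i, h, _⟩ => G.irrefl h⟩

/-- The blow-up: each vertex becomes `n` vertices, and each edge all `n * n` edges. -/
def blowUp (G : SimpleGraph V) (n : ℕ) : SimpleGraph (V × Fin n) :=
  G.comap Prod.fst

end Vale.Agent.P165
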