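import Vale.Agent.P165.Criterion

/-!
# Cartesian powers and blow-ups
-/

namespace Vale.Agent.P165

variable {V : Type*} [DecidableEq V] {G : SimpleGraph V} {nb : V → Finset V} {d : ℕ}

/-- The neighbours in a Cartesian power. -/
def nbP (nb : V → Finset V) (n : ℕ) (x : Fin n → V) : Finset (Fin n → V) :=
  Finset.univ.biUnion fun i => (nb (x i)).image fun y => Function.update x i y

theorem nbP_disjoint (h : NB G nb d) {n : ℕ} (x : Fin n → V) :
    ((Finset.univ : Finset (Fin n)) : Set (Fin n)).PairwiseDisjoint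
      fun i => (nb (x i)).image fun y => Function.update x i y := by
  intro i _ j _ hne
  rw [Function.onFun, Finset.disjoint_left]
  intro z hz hz'
  obtain ⟨y, hy, rfl⟩ := Finset.mem_image.1 hz
  obtain ⟨y', -, he⟩ := Finset.mem_image.1 hz'
  have := congrFun he i
  rw [Function.update_of_ne hne, Function.update_self] at this
  exact (h.mem.1 hy).ne this

theorem sum_nbP (h : NB G nb d) {n : ℕ} {M : Type*} [AddCommMonoid M] (x : Fin n → V)
    (f : (Fin n → V) → M) :
    ∑ z ∈ nbP nb n x, f z = ∑ i, ∑ y ∈ nb (x i), f (Function.update x i y) := by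
  rw [nbP, Finset.sum_biUnion (nbP_disjoint h x)]
  exact Finset.sum_congr rfl fun i _ =>
    Finset.sum_image fun a _ b _ e => Function.update_injective x i e

theorem NB.pow (h : NB G nb d) (n : ℕ) : NB (powGraph G n) (nbP nb n) (n * d) where
  mem {x z} := by
    simp only [nbP, Finset.mem_biUnion, Finset.mem_univ, true_and, Finset.mem_image, powGraph]
    refine exists_congr fun i => ⟨?_, fun ⟨ha, he⟩ => ⟨z i, h.mem.2 ha, ?_⟩⟩
    · rintro ⟨y, hy, rfl⟩
      exact ⟨by simpa using h.mem.1 hy, fun j hj => (Function.update_of_ne hj y x).symm⟩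
    · ext j
      by_cases hj : j = i
      · subst hj; simp
      · rw [Function.update_of_ne hj, he j hj]
  card x := by
    rw [nbP, Finset.card_biUnion (nbP_disjoint h x)]
    simp [Finset.card_image_of_injective _ (Function.update_injective x _), h.card]

theorem FormBound.pow {r : ℝ} (hb : FormBound nb r) (h : NB G nb d) (n : ℕ) :
    FormBound (nbP nb n) (n * r) := by
  classical
  intro S f h0 hS
  by_cases hne : S.Nonempty
  swap
  · simp [Finset.not_nonempty_iff_eq_empty.1 hne]
  obtain ⟨x0, -⟩ := hne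
  have key : ∀ i : Fin n, ∑ x ∈ S, f x * ∑ y ∈ nb (x i), f (Function.update x i y) ≤
      r * ∑ x ∈ S, f x ^ 2 := by
    intro i
    set S' := S.image fun x => Function.update x i (x0 i)
    set U := S.image fun x => x i
    set T := (S' ×ˢ U).image fun q => Function.update q.1 i q.2
    have hzi : ∀ z ∈ S', z i = x0 i := fun z hz => by
      obtain ⟨x, -, rfl⟩ := Finset.mem_image.1 hz; simp
    have hST : S ⊆ T := fun x hx => Finset.mem_image.2
      ⟨(Function.update x i (x0 i), x i), Finset.mem_product.2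
        ⟨Finset.mem_image_of_mem _ hx, Finset.mem_image_of_mem _ hx⟩, by simp⟩
    have hinj : Set.InjOn (fun q : (Fin n → V) × V => Function.update q.1 i q.2)
        ↑(S' ×ˢ U) := by
      rintro ⟨z, v⟩ hz ⟨z', v'⟩ hz' he
      simp only [Finset.mem_coe, Finset.mem_product] at hz hz'
      simp only at he
      have hv : v = v' := by simpa using congrFun he i
      refine Prod.ext (funext fun j => ?_) hv
      by_cases hj : j = i
      · subst hj; exact (hzi z hz.1).trans (hzi z' hz'.1).symm
      · simpa [hj] using congrFun he j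
    rw [Finset.sum_subset hST fun x _ hx => by simp [hS x hx],
      Finset.sum_subset (f := fun x => f x ^ 2) hST fun x _ hx => by simp [hS x hx],
      Finset.sum_image hinj, Finset.sum_image hinj, Finset.sum_product, Finset.sum_product,
      Finset.mul_sum]
    refine Finset.sum_le_sum fun z hz => ?_
    have hg : ∀ v ∉ U, f (Function.update z i v) = 0 := fun v hv => hS _ fun hm => hv
      (Finset.mem_image.2 ⟨_, hm, by simp⟩)
    simpa [adjOp] using hb U (fun v => f (Function.update z i v)) (fun v => h0 _) hg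
  simp only [adjOp, sum_nbP h, Finset.mul_sum (s := (Finset.univ : Finset (Fin n)))]
  rw [Finset.sum_comm]
  refine (Finset.sum_le_sum fun i _ => key i).trans_eq ?_
  simp [mul_assoc]

theorem W_le_degree (h : NB G nb d) : ∀ (k : ℕ) (x y : V), W nb k x y ≤ d ^ k
  | 0, x, y => by simp only [W]; split_ifs <;> simp
  | k + 1, x, y => by
    rw [W, pow_succ']
    refine (Finset.sum_le_sum fun z _ => W_le_degree h k z y).trans_eq ?_
    simp [h.card]

/-- A walk that must change one coordinate does so in one of its steps. -/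
theorem W_pow_coord (h : NB G nb d) {n : ℕ} (i : Fin n) : ∀ (k : ℕ) (z y : Fin n → V),
    z i ≠ y i → W (nbP nb n) k z y * n ≤ k * (n * d) ^ k
  | 0, z, y, hne => by
    have : z ≠ y := fun e => hne (by rw [e])
    simp [W, this]
  | k + 1, z, y, hne => by
    classical
    rw [W, sum_nbP h, Finset.sum_mul, ← Finset.add_sum_erase _ _ (Finset.mem_univ i)]
    have h1 : (∑ v ∈ nb (z i), W (nbP nb n) k (Function.update z i v) y) * n ≤
        (n * d) ^ (k + 1) := by
      calc (∑ v ∈ nb (z i), W (nbP nb n) k (Function.update z i v) y) * n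
          ≤ (∑ v ∈ nb (z i), (n * d) ^ k) * n :=
            Nat.mul_le_mul_right _ (Finset.sum_le_sum fun v _ => W_le_degree (h.pow n) k _ y)
        _ = (n * d) ^ (k + 1) := by simp [h.card, pow_succ]; ring
    have h2 : ∑ j ∈ Finset.univ.erase i,
        (∑ v ∈ nb (z j), W (nbP nb n) k (Function.update z j v) y) * n ≤
          k * (n * d) ^ (k + 1) := by
      calc _ ≤ ∑ _j ∈ Finset.univ.erase i, d * (k * (n * d) ^ k) := by
            refine Finset.sum_le_sum fun j hj => ?_
            rw [Finset.sum_mul]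
            refine (Finset.sum_le_sum fun v _ => W_pow_coord h i k _ y (by
              rw [Function.update_of_ne (Finset.ne_of_mem_erase hj).symm]; exact hne)).trans_eq ?_
            simp [h.card]
        _ ≤ n * (d * (k * (n * d) ^ k)) := by
            rw [Finset.sum_const, smul_eq_mul]
            exact Nat.mul_le_mul_right _
              ((Finset.card_le_univ _).trans_eq (Fintype.card_fin n))
        _ = k * (n * d) ^ (k + 1) := by ring
    rw [add_one_mul, add_comm (k * (n * d) ^ (k + 1))]
    exact Nat.add_le_add h1 h2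

theorem W_pow_return (h : NB G nb d) {n : ℕ} (k : ℕ) (x : Fin n → V) :
    W (nbP nb n) (k + 1) x x * n ≤ k * (n * d) ^ (k + 1) := by
  rw [W, sum_nbP h, Finset.sum_mul]
  calc _ ≤ ∑ _i : Fin n, d * (k * (n * d) ^ k) := by
        refine Finset.sum_le_sum fun i _ => ?_
        rw [Finset.sum_mul]
        refine (Finset.sum_le_sum fun v hv => W_pow_coord h i k _ x (by
          simpa using (h.mem.1 hv).ne.symm)).trans_eq ?_
        simp [h.card]
    _ = k * (n * d) ^ (k + 1) := by simp; ring

omit [DecidableEq V] in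
theorem connected_pow (hc : G.Connected) (n : ℕ) : (powGraph G n).Connected := by
  classical
  have : Nonempty V := hc.nonempty
  refine ⟨fun x y => ?_⟩
  have key : ∀ s : Finset (Fin n), (powGraph G n).Reachable x (s.piecewise y x) := by
    intro s
    induction s using Finset.induction_on with
    | empty => simp
    | insert i s hi ih =>
      refine ih.trans ?_
      rw [Finset.piecewise_insert]
      set z := s.piecewise y x
      let φ : G →g powGraph G n :=
        ⟨fun v => Function.update z i v, fun {a b} hab =>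
          ⟨i, by simpa using hab, fun j hj => by simp [Function.update_of_ne hj]⟩⟩
      have hr : (powGraph G n).Reachable (Function.update z i (z i))
          (Function.update z i (y i)) := (hc.preconnected (z i) (y i)).map φ
      rwa [Function.update_eq_self] at hr
  simpa using key Finset.univ

omit [DecidableEq V] in
theorem quasiTransitive_pow (hq : QuasiTransitive G) (n : ℕ) :
    QuasiTransitive (powGraph G n) := by
  classical
  obtain ⟨F, hF⟩ := hq
  refine ⟨Fintype.piFinset fun _ => F, fun x => ?_⟩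
  choose g hg φ hφ using fun i => hF (x i)
  refine ⟨g, Fintype.mem_piFinset.2 hg,
    ⟨Equiv.piCongrRight fun i => (φ i).toEquiv, fun {a b} => ?_⟩, funext hφ⟩
  constructor <;> rintro ⟨i, hi, he⟩
  · exact ⟨i, (φ i).map_adj_iff.1 hi, fun j hj => (φ j).injective (he j hj)⟩
  · exact ⟨i, (φ i).map_adj_iff.2 hi, fun j hj => congrArg (φ j) (he j hj)⟩

/-- The neighbours in a blow-up. -/
def nbB (nb : V → Finset V) (n : ℕ) (x : V × Fin n) : Finset (V × Fin n) :=
  nb x.1 ×ˢ Finset.univ

omit [DecidableEq V] in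
theorem NB.blowUp (h : NB G nb d) (n : ℕ) : NB (P165.blowUp G n) (nbB nb n) (n * d) where
  mem {x z} := by simp [nbB, P165.blowUp, h.mem]
  card x := by simp [nbB, h.card, mul_comm]

theorem W_blowUp {n : ℕ} : ∀ (k : ℕ) (x y : V × Fin n),
    W (nbB nb n) (k + 1) x y = n ^ k * W nb (k + 1) x.1 y.1
  | 0, x, y => by
    obtain ⟨v, j⟩ := y
    simp only [W, nbB, Finset.sum_ite_eq', Finset.mem_product, Finset.mem_univ, and_true,
      pow_zero, one_mul]
  | k + 1, x, y => by
    rw [W, nbB, Finset.sum_product, Finset.sum_congr rfl fun z _ =>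
      Finset.sum_congr rfl fun i (_ : i ∈ Finset.univ) => W_blowUp k (z, i) y]
    simp only [Finset.sum_const, Finset.card_univ, Fintype.card_fin, smul_eq_mul, ← Finset.mul_sum]
    rw [show W nb (k + 1 + 1) x.1 y.1 = ∑ z ∈ nb x.1, W nb (k + 1) z y.1 from rfl]
    ring

omit [DecidableEq V] in
theorem connected_blowUp [Infinite V] (hc : G.Connected) {n : ℕ} (hn : 0 < n) :
    (P165.blowUp G n).Connected := by
  have : Nonempty (V × Fin n) := ⟨Classical.arbitrary V, ⟨0, hn⟩⟩
  refine ⟨fun x y => ?_⟩
  have hadj : ∀ {a b : V} (i j : Fin n), G.Adj a b → (P165.blowUp G n).Adj (a, i) (b, j) :=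
    fun i j hab => hab
  have key : ∀ {a b : V} (_ : G.Walk a b) (i : Fin n),
      (P165.blowUp G n).Reachable (a, i) (b, i) := by
    intro a b w i
    induction w with
    | nil => rfl
    | cons hu _ ih => exact (hadj i i hu).reachable.trans ih
  obtain ⟨w⟩ := hc.preconnected x.1 y.1
  obtain ⟨c, hc'⟩ := hc.preconnected.exists_adj_of_nontrivial y.1
  exact (key w x.2).trans
    ((hadj x.2 x.2 hc').reachable.trans (hadj x.2 y.2 hc'.symm).reachable)

omit [DecidableEq V] in
theorem quasiTransitive_blowUp (hq : QuasiTransitive G) (n : ℕ) :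
    QuasiTransitive (P165.blowUp G n) := by
  obtain ⟨F, hF⟩ := hq
  refine ⟨F ×ˢ Finset.univ, fun x => ?_⟩
  obtain ⟨f, hf, φ, hφ⟩ := hF x.1
  refine ⟨(f, x.2), Finset.mem_product.2 ⟨hf, Finset.mem_univ _⟩,
    ⟨Equiv.prodCongr φ.toEquiv (Equiv.refl _), fun {a b} => ?_⟩, Prod.ext hφ rfl⟩
  exact φ.map_adj_iff

omit [DecidableEq V] in
/-- Large Cartesian powers and large blow-ups have a nonuniqueness phase. -/
theorem powers_gap [Countable V] [Infinite V] (hd : Regular G d) (hc : G.Connected)
    (hq : QuasiTransitive G) (hn : Nonamenable G) :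
    ∃ N : ℕ, ∀ n ≥ N, pc (powGraph G n) < pu (powGraph G n) ∧
      pc (P165.blowUp G n) < pu (P165.blowUp G n) := by
  classical
  have h := hd.nb
  set nb := fun x => (hd x).1.toFinset
  obtain ⟨r, hr, hrd, hb⟩ := exists_formBound h inferInstance hn
  have hd0 : (0 : ℝ) < d := hr.trans hrd
  set ρ := r / d with hρd
  have hρ0 : 0 < ρ := div_pos hr hd0
  have hρ : ρ < 1 := (div_lt_one hd0).2 hrd
  obtain ⟨ε, hε, gap⟩ := gap_of_returns hρ le_rfl (K := (1 : ℝ))
  obtain ⟨M, hM⟩ := exists_pow_lt_of_lt_one hε hρ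
  obtain ⟨N, hN⟩ := exists_nat_ge (((M : ℝ) + 1) / ε)
  refine ⟨N + 1, fun n hn' => ?_⟩
  have hn0 : 0 < n := by omega
  have hnp : (0 : ℝ) < n := Nat.cast_pos.2 hn0
  have hMn : (M : ℝ) + 1 ≤ ε * n := by
    rw [div_le_iff₀ hε] at hN
    have : (N : ℝ) ≤ n := Nat.cast_le.2 (by omega)
    nlinarith
  have : Nonempty (Fin n) := ⟨⟨0, hn0⟩⟩
  have hR : ρ * ((n * d : ℕ) : ℝ) = n * r := by
    rw [hρd]; push_cast; field_simp
  have hfin : ∀ (D : ℝ) (k : ℕ) (w : ℕ), 0 ≤ D → (w : ℝ) * n ≤ k * D ^ k →
      (w : ℝ) ≤ (ρ * D) ^ k → (w : ℝ) ≤ ε * D ^ k := by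
    intro D k w hD h1 h2
    by_cases hk : k ≤ M
    · have : (k : ℝ) * D ^ k ≤ ε * D ^ k * n := by
        have : (k : ℝ) ≤ M := Nat.cast_le.2 hk
        nlinarith [pow_nonneg hD k]
      exact le_of_mul_le_mul_right (h1.trans this) hnp
    · refine h2.trans ?_
      rw [mul_pow]
      exact mul_le_mul_of_nonneg_right
        ((pow_le_pow_of_le_one hρ0.le hρ.le (by omega)).trans hM.le) (pow_nonneg hD k)
  constructor
  · refine gap (Fin n → V) (powGraph G n) (nbP nb n) (h.pow n).toLF (connected_pow hc n)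
      (quasiTransitive_pow hq n) (fun _ => 1) ((n * d : ℕ) : ℝ)
      (by push_cast; positivity) (fun _ => le_rfl) (fun _ => le_rfl)
      (fun x => by simp [(h.pow n).card]) (fun k x y => ?_) fun k x hk => ?_
    · rw [hR]
      exact W_le_pow (hb.pow h n) (h.pow n).toLF (by positivity) k x y
    · refine hfin ((n * d : ℕ) : ℝ) k _ (Nat.cast_nonneg _) ?_ ?_
      · obtain ⟨m, rfl⟩ : ∃ m, k = m + 1 := ⟨k - 1, by omega⟩
        have h2 : ((W (nbP nb n) (m + 1) x x * n : ℕ) : ℝ) ≤
            ((m * (n * d) ^ (m + 1) : ℕ) : ℝ) := Nat.cast_le.2 (W_pow_return h m x)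
        push_cast at h2 ⊢
        refine h2.trans (mul_le_mul_of_nonneg_right ?_ (by positivity))
        linarith
      · rw [hR]
        exact W_le_pow (hb.pow h n) (h.pow n).toLF (by positivity) k x x
  · have hW : ∀ k x y, (W (nbB nb n) k x y : ℝ) ≤ (n * r) ^ k := by
      intro k x y
      rcases k with _ | k
      · simp only [W, pow_zero]; split_ifs <;> simp
      · rw [W_blowUp, mul_pow]
        push_cast
        exact mul_le_mul (pow_le_pow_right₀ (Nat.one_le_cast.2 hn0) (Nat.le_succ k))
          (W_le_pow hb h.toLF hr _ _ _) (Nat.cast_nonneg _) (by positivity)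
    refine gap (V × Fin n) (P165.blowUp G n) (nbB nb n) (h.blowUp n).toLF (connected_blowUp hc hn0)
      (quasiTransitive_blowUp hq n) (fun _ => 1) ((n * d : ℕ) : ℝ)
      (by push_cast; positivity) (fun _ => le_rfl) (fun _ => le_rfl)
      (fun x => by simp [(h.blowUp n).card]) (fun k x y => ?_) fun k x hk => ?_
    · rw [hR]; exact hW k x y
    · obtain ⟨m, rfl⟩ : ∃ m, k = m + 1 := ⟨k - 1, by omega⟩
      rw [W_blowUp]
      refine le_of_mul_le_mul_right ?_ hnp
      push_cast
      have h1 : ((W nb (m + 1) x.1 x.1 : ℕ) : ℝ) ≤ (d : ℝ) ^ (m + 1) := by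
        exact_mod_cast W_le_degree h (m + 1) x.1 x.1
      calc (n : ℝ) ^ m * (W nb (m + 1) x.1 x.1 : ℝ) * n
          ≤ (n : ℝ) ^ m * (d : ℝ) ^ (m + 1) * n := by gcongr
        _ = 1 * ((n : ℝ) * d) ^ (m + 1) := by ring
        _ ≤ ε * n * ((n : ℝ) * d) ^ (m + 1) := mul_le_mul_of_nonneg_right
            (by linarith [Nat.cast_nonneg (α := ℝ) M]) (by positivity)
        _ = _ := by ring

end Vale.Agent.P165
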