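import Mathlib

/-!
# Product measures on the subsets of a finite set, as finite sums
-/

namespace Vale.Agent.P165

open Classical in
/-- The probability of an event for a random subset of `E` containing each element independently
with probability `p`. -/
noncomputable def Pr {α : Type*} (E : Finset α) (p : ℝ) (A : Finset α → Prop) : ℝ :=
  ∑ s ∈ E.powerset, if A s then p ^ s.card * (1 - p) ^ (E.card - s.card) else 0

variable {α : Type*} {E : Finset α} {p : ℝ} {A B : Finset α → Prop}

open Classical in
theorem Pr_congr (h : ∀ s ⊆ E, (A s ↔ B s)) : Pr E p A = Pr E p B :=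
  Finset.sum_congr rfl fun s hs => by simp only [h s (Finset.mem_powerset.1 hs)]

open Classical in
theorem Pr_nonneg (h0 : 0 ≤ p) (h1 : p ≤ 1) (A : Finset α → Prop) : 0 ≤ Pr E p A :=
  Finset.sum_nonneg fun s _ => by
    split_ifs
    · exact mul_nonneg (pow_nonneg h0 _) (pow_nonneg (sub_nonneg.2 h1) _)
    · exact le_rfl

open Classical in
theorem Pr_mono (h0 : 0 ≤ p) (h1 : p ≤ 1) (h : ∀ s ⊆ E, A s → B s) : Pr E p A ≤ Pr E p B :=
  Finset.sum_le_sum fun s hs => by
    by_cases hA : A s
    · simp [hA, h s (Finset.mem_powerset.1 hs) hA]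
    · simp only [hA, if_false]
      split_ifs
      · exact mul_nonneg (pow_nonneg h0 _) (pow_nonneg (sub_nonneg.2 h1) _)
      · exact le_rfl

theorem Pr_false : Pr E p (fun _ => False) = 0 := by simp [Pr]

theorem Pr_true : Pr E p (fun _ => True) = 1 := by
  simp only [Pr, if_true]
  rw [Finset.sum_pow_mul_eq_add_pow, add_sub_cancel, one_pow]

open Classical in
theorem Pr_split (B : Finset α → Prop) :
    Pr E p A = Pr E p (fun s => A s ∧ B s) + Pr E p (fun s => A s ∧ ¬ B s) := by
  simp only [Pr, ← Finset.sum_add_distrib]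
  exact Finset.sum_congr rfl fun s _ => by by_cases hA : A s <;> by_cases hB : B s <;> simp [hA, hB]

theorem Pr_not : Pr E p (fun s => ¬ A s) = 1 - Pr E p A := by
  have h := Pr_split (E := E) (p := p) (A := fun _ => True) A
  rw [Pr_true] at h
  simp only [true_and] at h
  linarith

open Classical in
theorem Pr_exists {ι : Type*} (h0 : 0 ≤ p) (h1 : p ≤ 1) (I : Finset ι)
    (A : ι → Finset α → Prop) :
    Pr E p (fun s => ∃ i ∈ I, A i s) ≤ ∑ i ∈ I, Pr E p (A i) := by
  simp only [Pr]
  rw [Finset.sum_comm]
  refine Finset.sum_le_sum fun s _ => ?_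
  set w := p ^ s.card * (1 - p) ^ (E.card - s.card)
  have hw : 0 ≤ w := mul_nonneg (pow_nonneg h0 _) (pow_nonneg (sub_nonneg.2 h1) _)
  split_ifs with h
  · obtain ⟨i, hi, hA⟩ := h
    exact (le_of_eq (by simp [hA])).trans (Finset.single_le_sum
      (f := fun i => if A i s then w else 0) (fun j _ => by split_ifs <;> simp [hw]) hi)
  · exact Finset.sum_nonneg fun j _ => by split_ifs <;> simp [hw]

open Classical in
theorem Pr_sum_eq {ι : Type*} (I : Finset ι) (c : ι → ℝ) (A : ι → Finset α → Prop) :
    ∑ i ∈ I, c i * Pr E p (A i) =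
      ∑ s ∈ E.powerset, p ^ s.card * (1 - p) ^ (E.card - s.card) *
        ∑ i ∈ I, if A i s then c i else 0 := by
  simp only [Pr, Finset.mul_sum]
  rw [Finset.sum_comm]
  exact Finset.sum_congr rfl fun s _ => Finset.sum_congr rfl fun i _ => by split_ifs <;> ring

variable [DecidableEq α]

open Classical in
theorem Pr_insert {e : α} (he : e ∉ E) (A : Finset α → Prop) :
    Pr (insert e E) p A =
      (1 - p) * Pr E p A + p * Pr E p (fun s => A (insert e s)) := by
  simp only [Pr, Finset.sum_powerset_insert he, Finset.mul_sum]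
  congr 1 <;> refine Finset.sum_congr rfl fun s hs => ?_ <;>
    have hse := Finset.mem_powerset.1 hs <;> have := Finset.card_le_card hse
  · rw [Finset.card_insert_of_notMem he, show E.card + 1 - s.card = (E.card - s.card) + 1 by omega]
    split_ifs <;> simp [pow_succ] <;> ring
  · rw [Finset.card_insert_of_notMem he, Finset.card_insert_of_notMem fun h => he (hse h),
      Nat.add_sub_add_right]
    split_ifs <;> simp [pow_succ] <;> ring

/-- Independence of two disjoint parts of the ground set. -/
theorem Pr_union (F : Finset α) : ∀ (E : Finset α), Disjoint E F → ∀ (A B : Finset α → Prop),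
    (∀ s ⊆ E ∪ F, (A s ↔ A (s ∩ E))) → (∀ s ⊆ E ∪ F, (B s ↔ B (s ∩ F))) →
    Pr (E ∪ F) p (fun s => A s ∧ B s) = Pr E p A * Pr F p B := by
  intro E
  induction E using Finset.induction with
  | empty =>
    intro _ A B hA hB
    rw [Finset.empty_union]
    by_cases h : A ∅
    · have e : Pr (∅ : Finset α) p A = 1 := by simp [Pr, h]
      rw [e, one_mul]
      exact Pr_congr fun s hs => by
        simp [hA s (by simpa using hs), Finset.inter_empty, h]
    · have e : Pr (∅ : Finset α) p A = 0 := by simp [Pr, h]
      rw [e, zero_mul, ← Pr_false (E := F) (p := p)]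
      exact Pr_congr fun s hs => by simp [hA s (by simpa using hs), Finset.inter_empty, h]
  | @insert e E he ih =>
    intro hd A B hA hB
    rw [Finset.disjoint_insert_left] at hd
    have heU : e ∉ E ∪ F := by simp [he, hd.1]
    rw [Finset.insert_union, Pr_insert heU, Pr_insert he, add_mul]
    have hsub : ∀ s, s ⊆ E ∪ F → s ⊆ insert e E ∪ F := fun s hs => by
      rw [Finset.insert_union]; exact hs.trans (Finset.subset_insert _ _)
    have hsub' : ∀ s, s ⊆ E ∪ F → insert e s ⊆ insert e E ∪ F := fun s hs => by
      rw [Finset.insert_union]; exact Finset.insert_subset_insert _ hs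
    have hB1 : ∀ s ⊆ E ∪ F, (B s ↔ B (s ∩ F)) := fun s hs => hB s (hsub s hs)
    have hA1 : ∀ s ⊆ E ∪ F, (A s ↔ A (s ∩ E)) := fun s hs => by
      rw [hA s (hsub s hs), Finset.inter_insert_of_notMem fun h => heU (hs h)]
    have hA2 : ∀ s ⊆ E ∪ F, (A (insert e s) ↔ A (insert e (s ∩ E))) := fun s hs => by
      rw [hA _ (hsub' s hs), Finset.insert_inter_of_mem (Finset.mem_insert_self _ _),
        Finset.inter_insert_of_notMem fun h => heU (hs h)]
    have h1 := ih hd.2 A B hA1 hB1
    have h2 := ih hd.2 (fun s => A (insert e s)) B hA2 hB1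
    have h3 : Pr (E ∪ F) p (fun s => A (insert e s) ∧ B (insert e s)) =
        Pr (E ∪ F) p (fun s => A (insert e s) ∧ B s) := Pr_congr fun s hs => by
      rw [hB _ (hsub' s hs), Finset.insert_inter_of_notMem hd.1, ← hB1 s hs]
    rw [h3, h1, h2]; ring

open Classical in
theorem Pr_subset_eq {F : Finset α} : Pr F p (fun s => F ⊆ s) = p ^ F.card := by
  simp only [Pr]
  rw [Finset.sum_eq_single F]
  · simp
  · intro s hs hne
    rw [if_neg fun h => hne (Finset.Subset.antisymm (Finset.mem_powerset.1 hs) h)]
  · simp

/-- Prescribed elements are present with probability `p ^ card`, independently of the rest. -/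
theorem Pr_subset_and {F : Finset α} (hF : F ⊆ E) (B : Finset α → Prop)
    (hB : ∀ s ⊆ E, (B s ↔ B (s \ F))) :
    Pr E p (fun s => F ⊆ s ∧ B s) = p ^ F.card * Pr (E \ F) p B := by
  have h := Pr_union (p := p) (E \ F) F Finset.disjoint_sdiff (fun s => F ⊆ s) B
    (fun s _ => by simp [Finset.subset_inter_iff]) (fun s hs => by
      rw [Finset.union_sdiff_of_subset hF] at hs
      rw [hB s hs, ← Finset.inter_sdiff_assoc, Finset.inter_eq_left.2 hs])
  rw [Finset.union_sdiff_of_subset hF] at h
  rw [h, Pr_subset_eq]

/-- An increasing event is at least as likely on a larger ground set. -/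
theorem Pr_sdiff_le {F : Finset α} (hF : F ⊆ E) (h0 : 0 ≤ p) (h1 : p ≤ 1) (hm : Monotone A) :
    Pr (E \ F) p A ≤ Pr E p A := by
  have h := Pr_union (p := p) (E \ F) F Finset.disjoint_sdiff (fun _ => True)
    (fun s => A (s ∩ (E \ F))) (fun _ _ => Iff.rfl) (fun s _ => by simp [Finset.inter_assoc])
  rw [Finset.union_sdiff_of_subset hF, Pr_true, one_mul] at h
  rw [Pr_congr (B := fun s => A (s ∩ (E \ F))) fun s hs => by rw [Finset.inter_eq_left.2 hs], ← h]
  exact Pr_mono h0 h1 fun s _ hs => hm Finset.inter_subset_left hs.2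

/-- The change when one element is added, summed over the elements. -/
noncomputable def pivSum (E : Finset α) (p : ℝ) (A : Finset α → Prop) : ℝ :=
  ∑ e ∈ E, (Pr (E.erase e) p (fun s => A (insert e s)) - Pr (E.erase e) p A)

theorem hasDerivAt_Pr : ∀ (E : Finset α) (A : Finset α → Prop) (p : ℝ),
    HasDerivAt (fun q => Pr E q A) (pivSum E p A) p := by
  intro E
  induction E using Finset.induction with
  | empty =>
    intro A p
    simp only [pivSum, Finset.sum_empty]
    by_cases h : A ∅
    · simpa [Pr, h] using hasDerivAt_const p (1 : ℝ)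
    · simpa [Pr, h] using hasDerivAt_const p (0 : ℝ)
  | @insert e E he ih =>
    intro A p
    have e1 : (fun q => Pr (insert e E) q A) =
        fun q => (1 - q) * Pr E q A + q * Pr E q (fun s => A (insert e s)) :=
      funext fun q => Pr_insert he A
    rw [e1]
    have h := (((hasDerivAt_id p).const_sub 1).mul (ih A p)).add
      ((hasDerivAt_id p).mul (ih (fun s => A (insert e s)) p))
    refine h.congr_deriv ?_
    simp only [pivSum, Finset.sum_insert he, Finset.erase_insert he, id]
    have e2 : ∀ f ∈ E, (insert e E).erase f = insert e (E.erase f) := fun f hf =>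
      Finset.erase_insert_of_ne fun h => he (h ▸ hf)
    rw [Finset.sum_congr rfl fun f hf => show
      (Pr ((insert e E).erase f) p (fun s => A (insert f s)) - Pr ((insert e E).erase f) p A) =
        (1 - p) * (Pr (E.erase f) p (fun s => A (insert f s)) - Pr (E.erase f) p A) +
          p * (Pr (E.erase f) p (fun s => A (insert e (insert f s))) -
            Pr (E.erase f) p (fun s => A (insert e s))) by
      rw [e2 f hf, Pr_insert (fun h => he (Finset.mem_of_mem_erase h)),
        Pr_insert (fun h => he (Finset.mem_of_mem_erase h))]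
      rw [Pr_congr (A := fun s => A (insert f (insert e s)))
        (B := fun s => A (insert e (insert f s))) fun s _ => by rw [Finset.insert_comm]]
      ring]
    rw [Finset.sum_add_distrib, ← Finset.mul_sum, ← Finset.mul_sum]
    ring

/-- For an increasing event the derivative counts closed pivotal elements. -/
theorem pivSum_eq (hm : Monotone A) :
    (1 - p) * pivSum E p A = ∑ e ∈ E, Pr E p (fun s => e ∉ s ∧ A (insert e s) ∧ ¬ A s) := by
  rw [pivSum, Finset.mul_sum]
  refine Finset.sum_congr rfl fun e he => ?_
  have hins : E = insert e (E.erase e) := (Finset.insert_erase he).symm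
  conv_rhs => rw [hins, Pr_insert (Finset.notMem_erase e E)]
  have z : Pr (E.erase e) p
      (fun s => e ∉ insert e s ∧ A (insert e (insert e s)) ∧ ¬ A (insert e s)) = 0 :=
    (Pr_congr fun s _ => by simp).trans Pr_false
  rw [z, mul_zero, add_zero]
  congr 1
  rw [Pr_split (A := fun s => A (insert e s)) A,
    Pr_congr (A := fun s => A (insert e s) ∧ A s) (B := A) fun s _ =>
      ⟨And.right, fun h => ⟨hm (Finset.subset_insert _ _) h, h⟩⟩, add_sub_cancel_left]
  exact Pr_congr fun s hs => by
    have : e ∉ s := fun h => Finset.notMem_erase e E (hs h)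
    simp [this]

end Vale.Agent.P165
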