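import Vale.Agent.P165.Defs

/-!
# Numbers of walks, and the quadratic-form bound that controls them
-/

namespace Vale.Agent.P165

variable {V : Type*} [DecidableEq V]

/-- The neighbour sets `nb` describe `G`. -/
structure LF (G : SimpleGraph V) (nb : V → Finset V) : Prop where
  mem : ∀ {x y}, y ∈ nb x ↔ G.Adj x y

/-- The neighbour sets `nb` describe `G`, which is `d`-regular. -/
structure NB (G : SimpleGraph V) (nb : V → Finset V) (d : ℕ) : Prop extends LF G nb where
  card : ∀ x, (nb x).card = d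

theorem Regular.nb {G : SimpleGraph V} {d : ℕ} (h : Regular G d) :
    NB G (fun x => (h x).1.toFinset) d :=
  ⟨⟨by simp⟩, fun x => by rw [← Set.ncard_eq_toFinset_card _ (h x).1, (h x).2]⟩

/-- The number of walks of length `k` from `x` to `y`. -/
def W (nb : V → Finset V) : ℕ → V → V → ℕ
  | 0, x, y => if x = y then 1 else 0
  | k + 1, x, y => ∑ z ∈ nb x, W nb k z y

/-- Applying the adjacency operator. -/
def adjOp (nb : V → Finset V) (f : V → ℝ) (x : V) : ℝ := ∑ y ∈ nb x, f y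

/-- The adjacency form of nonnegative finitely supported functions is at most `r` times the square
norm. -/
def FormBound (nb : V → Finset V) (r : ℝ) : Prop :=
  ∀ (S : Finset V) (f : V → ℝ), (∀ x, 0 ≤ f x) → (∀ x ∉ S, f x = 0) →
    ∑ x ∈ S, f x * adjOp nb f x ≤ r * ∑ x ∈ S, f x ^ 2

/-- Closed neighbourhood of a finite set. -/
def nbhd (nb : V → Finset V) (S : Finset V) : Finset V := S ∪ S.biUnion nb

variable {G : SimpleGraph V} {nb : V → Finset V}

theorem LF.symm (h : LF G nb) {x y : V} : y ∈ nb x ↔ x ∈ nb y := by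
  rw [h.mem, h.mem, G.adj_comm]

theorem LF.sum_comm (h : LF G nb) {T : Finset V} (f : V → ℝ) (g : V → ℝ)
    (hf : ∀ x ∉ T, f x = 0) (hg : ∀ x ∉ T, g x = 0) :
    ∑ x ∈ T, f x * adjOp nb g x = ∑ x ∈ T, g x * adjOp nb f x := by
  have e : ∀ u v : V → ℝ, (∀ x ∉ T, v x = 0) → ∑ x ∈ T, u x * adjOp nb v x =
      ∑ x ∈ T, ∑ y ∈ T, if y ∈ nb x then u x * v y else 0 := by
    intro u v hv
    refine Finset.sum_congr rfl fun x _ => ?_
    rw [adjOp, Finset.mul_sum, ← Finset.sum_filter]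
    refine (Finset.sum_subset (fun y hy => (Finset.mem_filter.1 hy).2) fun y hy hy' => ?_).symm
    have : y ∉ T := fun hT => hy' (Finset.mem_filter.2 ⟨hT, hy⟩)
    simp [hv y this]
  rw [e f g hg, e g f hf, Finset.sum_comm]
  exact Finset.sum_congr rfl fun y _ => Finset.sum_congr rfl fun x _ => by
    simp only [h.symm (x := x) (y := y), mul_comm]

theorem adjOp_eq_zero {S : Finset V} {f : V → ℝ} (h : LF G nb) (hf : ∀ x ∉ S, f x = 0)
    {x : V} (hx : x ∉ nbhd nb S) : adjOp nb f x = 0 := by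
  refine Finset.sum_eq_zero fun y hy => hf y fun hS => hx ?_
  exact Finset.mem_union_right _ (Finset.mem_biUnion.2 ⟨y, hS, h.symm.1 hy⟩)

theorem FormBound.sum_le {r : ℝ} (hb : FormBound nb r) {S T : Finset V} (hST : S ⊆ T)
    {f : V → ℝ} (h0 : ∀ x, 0 ≤ f x) (hf : ∀ x ∉ S, f x = 0) :
    ∑ x ∈ T, f x * adjOp nb f x ≤ r * ∑ x ∈ T, f x ^ 2 :=
  hb T f h0 fun x hx => hf x fun hS => hx (hST hS)

theorem FormBound.norm_adjOp {r : ℝ} (hb : FormBound nb r) (h : LF G nb) (hr : 0 < r)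
    {S : Finset V} {f : V → ℝ} (h0 : ∀ x, 0 ≤ f x) (hf : ∀ x ∉ S, f x = 0) :
    ∑ x ∈ nbhd nb S, adjOp nb f x ^ 2 ≤ r ^ 2 * ∑ x ∈ nbhd nb S, f x ^ 2 := by
  set T := nbhd nb S
  have hfT : ∀ x ∉ T, f x = 0 := fun x hx => hf x fun hS => hx (Finset.mem_union_left _ hS)
  set g : V → ℝ := fun x => adjOp nb f x / r
  have hgT : ∀ x ∉ T, g x = 0 := fun x hx => by simp [g, adjOp_eq_zero h hf hx]
  have hg0 : ∀ x, 0 ≤ g x := fun x =>
    div_nonneg (Finset.sum_nonneg fun y _ => h0 y) hr.le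
  have habs : ∀ u : V → ℝ, (∀ x ∉ T, u x = 0) →
      -(r * ∑ x ∈ T, u x ^ 2) ≤ ∑ x ∈ T, u x * adjOp nb u x := by
    intro u hu
    have hb' := hb T (fun x => |u x|) (fun x => abs_nonneg _) (fun x hx => by simp [hu x hx])
    simp only [sq_abs] at hb'
    refine (neg_le_neg hb').trans ?_
    rw [← Finset.sum_neg_distrib]
    refine Finset.sum_le_sum fun x _ => ?_
    refine neg_le.1 ((neg_le_abs _).trans ?_)
    rw [abs_mul]
    exact mul_le_mul_of_nonneg_left (Finset.abs_sum_le_sum_abs _ _) (abs_nonneg _)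
  have hp := hb T (fun x => f x + g x) (fun x => add_nonneg (h0 x) (hg0 x))
    (fun x hx => by simp [hfT x hx, hgT x hx])
  have hm := habs (fun x => f x - g x) (fun x hx => by simp [hfT x hx, hgT x hx])
  have c := h.sum_comm f g hfT hgT
  have key : ∑ x ∈ T, g x * adjOp nb f x = (∑ x ∈ T, adjOp nb f x ^ 2) / r := by
    rw [Finset.sum_div]; exact Finset.sum_congr rfl fun x _ => by simp only [g]; ring
  have eg : ∑ x ∈ T, g x ^ 2 = (∑ x ∈ T, adjOp nb f x ^ 2) / r ^ 2 := by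
    rw [Finset.sum_div]; exact Finset.sum_congr rfl fun x _ => by simp only [g]; ring
  simp only [adjOp, Finset.sum_add_distrib, Finset.sum_sub_distrib, add_mul, mul_add, sub_mul,
    mul_sub, add_sq, sub_sq, ← Finset.mul_sum, mul_assoc] at hp hm
  simp only [adjOp] at c key eg ⊢
  rw [key] at c
  rw [key, c] at hp hm
  rw [eg] at hp hm
  set A := ∑ x ∈ T, (∑ y ∈ nb x, f y) ^ 2
  set B := ∑ x ∈ T, f x ^ 2
  have h4 : 4 * (A / r) ≤ 2 * r * (B + A / r ^ 2) := by linarith
  rw [show 4 * (A / r) = (4 * A * r) / r ^ 2 by field_simp,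
    show 2 * r * (B + A / r ^ 2) = (2 * r * (B * r ^ 2 + A)) / r ^ 2 by field_simp,
    div_le_div_iff_of_pos_right (by positivity)] at h4
  nlinarith

theorem W_sum (h : LF G nb) : ∀ (k : ℕ) (x y : V),
    W nb (k + 1) x y = ∑ z ∈ nb y, W nb k x z
  | 0, x, y => by
    simp only [W, Finset.sum_ite_eq', Finset.sum_ite_eq]
    simp only [h.symm]
  | k + 1, x, y => by
    rw [W, Finset.sum_congr rfl fun z _ => W_sum h k z y, Finset.sum_comm]
    exact Finset.sum_congr rfl fun z _ => by rw [W]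

theorem W_comm (h : LF G nb) : ∀ (k : ℕ) (x y : V), W nb k x y = W nb k y x
  | 0, x, y => by simp [W, eq_comm]
  | k + 1, x, y => by
    rw [W, W_sum h k y x]; exact Finset.sum_congr rfl fun z _ => W_comm h k z y

/-- The support of the walk counts. -/
def reach (nb : V → Finset V) : ℕ → V → Finset V
  | 0, y => {y}
  | k + 1, y => nbhd nb (reach nb k y)

theorem W_eq_zero (h : LF G nb) : ∀ (k : ℕ) (x y : V), x ∉ reach nb k y → W nb k x y = 0
  | 0, x, y, hx => by simpa [W, reach] using hx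
  | k + 1, x, y, hx => Finset.sum_eq_zero fun z hz => W_eq_zero h k z y fun hr => hx
      (Finset.mem_union_right _ (Finset.mem_biUnion.2 ⟨z, hr, h.symm.1 hz⟩))

theorem sum_W_sq_le {r : ℝ} (hb : FormBound nb r) (h : LF G nb) (hr : 0 < r) :
    ∀ (k : ℕ) (y : V), ∑ x ∈ reach nb k y, (W nb k x y : ℝ) ^ 2 ≤ r ^ (2 * k)
  | 0, y => by simp [reach, W]
  | k + 1, y => by
    have h1 := hb.norm_adjOp h hr (S := reach nb k y) (f := fun x => (W nb k x y : ℝ))
      (fun _ => Nat.cast_nonneg _) fun x hx => by simp [W_eq_zero h k x y hx]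
    have e : ∑ x ∈ nbhd nb (reach nb k y), (W nb k x y : ℝ) ^ 2 =
        ∑ x ∈ reach nb k y, (W nb k x y : ℝ) ^ 2 :=
      (Finset.sum_subset Finset.subset_union_left fun x _ hx => by
        simp [W_eq_zero h k x y hx]).symm
    rw [e] at h1
    simp only [adjOp] at h1
    calc ∑ x ∈ reach nb (k + 1) y, (W nb (k + 1) x y : ℝ) ^ 2
        = ∑ x ∈ nbhd nb (reach nb k y), (∑ z ∈ nb x, (W nb k z y : ℝ)) ^ 2 := by
          simp only [reach, W, Nat.cast_sum]
      _ ≤ r ^ 2 * r ^ (2 * k) :=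
          h1.trans (mul_le_mul_of_nonneg_left (sum_W_sq_le hb h hr k y) (sq_nonneg r))
      _ = r ^ (2 * (k + 1)) := by ring

theorem W_le_pow {r : ℝ} (hb : FormBound nb r) (h : LF G nb) (hr : 0 < r) (k : ℕ) (x y : V) :
    (W nb k x y : ℝ) ≤ r ^ k := by
  by_cases hx : x ∈ reach nb k y
  · have h1 := (Finset.single_le_sum (f := fun x => (W nb k x y : ℝ) ^ 2)
      (fun _ _ => sq_nonneg _) hx).trans (sum_W_sq_le hb h hr k y)
    rw [pow_mul', ← sq_le_sq₀ (Nat.cast_nonneg _) (pow_nonneg hr.le k)] at *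
    exact h1
  · simp [W_eq_zero h k x y hx, pow_nonneg hr.le]

end Vale.Agent.P165
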