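import Vale.Agent.P165.Criterion

/-!
# Large degree and a fixed relative gap; distance powers of transitive graphs
-/

namespace Vale.Agent.P165

universe u

variable {V : Type u} {G : SimpleGraph V} {nb : V → Finset V} {d : ℕ}

theorem sum_W_le [DecidableEq V] {Δ : ℝ} (hΔ : ∀ x, ((nb x).card : ℝ) ≤ Δ) :
    ∀ (k : ℕ) (s : Finset V) (x : V), ∑ z ∈ s, (W nb k x z : ℝ) ≤ Δ ^ k
  | 0, s, x => by simp only [W, Nat.cast_ite, Nat.cast_one, Nat.cast_zero, Finset.sum_ite_eq]; split_ifs <;> simp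
  | k + 1, s, x => by
    simp only [W, Nat.cast_sum]
    rw [Finset.sum_comm, pow_succ']
    refine (Finset.sum_le_sum fun w _ => sum_W_le hΔ k s w).trans ?_
    rw [Finset.sum_const, nsmul_eq_mul]
    exact mul_le_mul_of_nonneg_right (hΔ x) (pow_nonneg ((Nat.cast_nonneg _).trans (hΔ x)) k)

/-- In a simple graph a return of `k + 1` steps has at most `Δ ^ k` walks. -/
theorem W_return_le [DecidableEq V] (h : LF G nb) {Δ : ℝ} (hΔ : ∀ x, ((nb x).card : ℝ) ≤ Δ)
    (k : ℕ) (x : V) : (W nb (k + 1) x x : ℝ) ≤ Δ ^ k := by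
  rw [W, Finset.sum_congr rfl fun z _ => W_comm h k z x, Nat.cast_sum]
  exact sum_W_le hΔ k (nb x) x

/-- For every spectral radius below one, relative to the growth `lam` of a weight between `1` and
`K`, a large `lam` forces a nonuniqueness phase. -/
theorem gap_of_weight {ρ : ℝ} (hρ : ρ < 1) (K : ℝ) : ∃ D : ℝ,
    ∀ (V : Type u) [DecidableEq V] [Countable V] [Infinite V] (G : SimpleGraph V)
      (nb : V → Finset V), LF G nb → G.Connected → QuasiTransitive G →
      ∀ (f : V → ℝ) (lam : ℝ), D ≤ lam → (∀ x, 1 ≤ f x) → (∀ x, f x ≤ K) →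
      (∀ x, ((nb x).card : ℝ) ≤ K * lam) → (∀ x, lam * f x ≤ ∑ z ∈ nb x, f z) →
      (∀ (k : ℕ) (x y : V), (W nb k x y : ℝ) ≤ (ρ * lam) ^ k) →
      pc G < pu G := by
  by_cases hK : 1 ≤ K
  swap
  · refine ⟨0, fun V _ _ _ G nb _ _ _ f lam _ hf1 hfK => ?_⟩
    obtain ⟨o⟩ : Nonempty V := inferInstance
    exact absurd ((hf1 o).trans (hfK o)) hK
  set σ := max ρ (1 / 2)
  have hσ : σ < 1 := max_lt hρ (by norm_num)
  obtain ⟨ε, hε, gap⟩ := gap_of_returns hρ hK
  obtain ⟨M, hM⟩ := exists_pow_lt_of_lt_one hε (max_lt (abs_lt.2 ⟨by linarith [le_max_right ρ (1/2)],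
    hσ⟩) (by norm_num : (1 / 2 : ℝ) < 1))
  refine ⟨max 1 (K ^ M / ε), fun V _ _ _ G nb h hc hq f lam hD hf1 hfK hdeg hlam hW => ?_⟩
  have hl : 0 < lam := lt_of_lt_of_le one_pos ((le_max_left _ _).trans hD)
  refine gap V G nb h hc hq f lam hl hf1 hfK hlam hW fun k x hk => ?_
  by_cases hkM : k ≤ M
  · obtain ⟨m, rfl⟩ : ∃ m, k = m + 1 := ⟨k - 1, by omega⟩
    refine (W_return_le h hdeg m x).trans ?_
    have h1 : K ^ m ≤ ε * lam := by
      have h2 := (le_max_right _ _).trans hD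
      rw [div_le_iff₀' hε] at h2
      exact (pow_le_pow_right₀ hK (by omega)).trans h2
    rw [mul_pow, pow_succ' lam, ← mul_assoc]
    exact mul_le_mul_of_nonneg_right h1 (pow_nonneg hl.le _)
  · have hρ0 : 0 ≤ ρ := by
      obtain ⟨y, hy⟩ := hc.preconnected.exists_adj_of_nontrivial x
      have h1 := hW 1 x y
      rw [pow_one] at h1
      nlinarith [Nat.cast_nonneg (α := ℝ) (W nb 1 x y)]
    refine (hW k x x).trans ?_
    rw [mul_pow]
    refine mul_le_mul_of_nonneg_right (le_trans ?_ hM.le) (pow_nonneg hl.le _)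
    refine le_trans (pow_le_pow_left₀ hρ0 ?_ k) (pow_le_pow_of_le_one ?_ ?_ (by omega))
    · exact (le_max_left ρ _).trans ((le_abs_self _).trans (le_max_left _ _))
    · exact le_trans (abs_nonneg _) (le_max_left _ _)
    · exact max_le (abs_le.2 ⟨by linarith [le_max_right ρ (1/2)], hσ.le⟩) (by norm_num)

theorem finsum_nb (h : LF G nb) (f : V → ℝ) (x : V) :
    ∑ᶠ y ∈ G.neighborSet x, f y = ∑ z ∈ nb x, f z := by
  rw [show G.neighborSet x = ↑(nb x) by ext y; simp [h.mem], finsum_mem_coe_finset]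

/-- For every relative edge-isoperimetric constant, large degree forces a nonuniqueness phase. -/
theorem gap_of_isoperimetry {c : ℝ} (hc0 : 0 < c) : ∃ D : ℕ,
    ∀ (V : Type u) [Countable V] [Infinite V] (G : SimpleGraph V) (d : ℕ), D ≤ d → Regular G d →
      G.Connected → QuasiTransitive G →
      (∀ A : Finset V, c * d * A.card ≤ ∑ a ∈ A, ((G.neighborSet a \ ↑A).ncard : ℝ)) →
      pc G < pu G := by
  set ρ := Real.sqrt (max (1 - c ^ 2) (1 / 4)) with hρd
  have hρ : ρ < 1 := by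
    rw [hρd, Real.sqrt_lt' one_pos, one_pow]
    exact max_lt (by nlinarith) (by norm_num)
  have hρ0 : 0 < ρ := Real.sqrt_pos.2 (lt_of_lt_of_le (by norm_num) (le_max_right _ _))
  obtain ⟨D, gap⟩ := gap_of_weight hρ 1
  obtain ⟨N, hN⟩ := exists_nat_ge D
  refine ⟨max N 1, fun V _ _ G d hDd hd hc hq hiso => ?_⟩
  classical
  have hdp : (0 : ℝ) < d := Nat.cast_pos.2 (by omega)
  have h := hd.nb
  set nb := fun x => (hd x).1.toFinset
  have hiso' : ∀ A : Finset V, c * d * A.card ≤ ∑ a ∈ A, ((nb a).filter (· ∉ A)).card := by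
    intro A
    refine (hiso A).trans_eq ?_
    push_cast
    refine Finset.sum_congr rfl fun a _ => ?_
    rw [show G.neighborSet a \ ↑A = ↑((nb a).filter (· ∉ A)) by ext v; simp [h.mem],
      Set.ncard_coe_finset]
  have hb : FormBound nb (ρ * d) := by
    intro S f h0 hf
    refine (formBound_of_iso (by positivity) h hiso' S f h0 hf).trans
      (mul_le_mul_of_nonneg_right ?_ (Finset.sum_nonneg fun _ _ => sq_nonneg _))
    rw [hρd, show (d : ℝ) ^ 2 - (c * d) ^ 2 = (1 - c ^ 2) * (d : ℝ) ^ 2 by ring,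
      Real.sqrt_mul' _ (sq_nonneg _), Real.sqrt_sq hdp.le]
    exact mul_le_mul_of_nonneg_right (Real.sqrt_le_sqrt (le_max_left _ _)) hdp.le
  refine gap V G nb h.toLF hc hq (fun _ => 1) d ?_ (fun _ => le_rfl) (fun _ => le_rfl)
    (fun x => by simp [h.card]) (fun x => by simp [h.card])
    fun k x y => W_le_pow hb h.toLF (mul_pos hρ0 hdp) k x y
  exact hN.trans (Nat.cast_le.2 (le_trans (le_max_left _ _) hDd))

/-- Some automorphism takes any vertex to any other. -/
def Transitive (G : SimpleGraph V) : Prop := ∀ x y : V, ∃ φ : G ≃g G, φ x = y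

/-- The distance power: distinct vertices joined by a walk of length at most `k` are adjacent. -/
def distPow (G : SimpleGraph V) (k : ℕ) : SimpleGraph V where
  Adj x y := x ≠ y ∧ ∃ w : G.Walk x y, w.length ≤ k
  symm := ⟨fun _ _ ⟨hne, w, hw⟩ => ⟨hne.symm, w.reverse, by simpa using hw⟩⟩
  loopless := ⟨fun _ h => h.1 rfl⟩

theorem mem_reach [DecidableEq V] (h : NB G nb d) : ∀ {k : ℕ} {x y : V},
    x ∈ reach nb k y ↔ ∃ w : G.Walk y x, w.length ≤ k
  | 0, x, y => by
    simp only [reach, Finset.mem_singleton, Nat.le_zero]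
    exact ⟨fun e => e ▸ ⟨.nil, rfl⟩, fun ⟨w, hw⟩ =>
      (SimpleGraph.Walk.eq_of_length_eq_zero hw).symm⟩
  | k + 1, x, y => by
    simp only [reach, nbhd, Finset.mem_union, Finset.mem_biUnion, mem_reach h, h.mem]
    constructor
    · rintro (⟨w, hw⟩ | ⟨z, ⟨w, hw⟩, hzx⟩)
      · exact ⟨w, by omega⟩
      · exact ⟨w.concat hzx, by rw [SimpleGraph.Walk.length_concat]; omega⟩
    · rintro ⟨w, hw⟩
      induction w using SimpleGraph.Walk.concatRec with
      | Hnil => exact Or.inl ⟨.nil, Nat.zero_le _⟩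
      | Hconcat p hzx ih =>
        rw [SimpleGraph.Walk.length_concat] at hw
        exact Or.inr ⟨_, ⟨p, by omega⟩, hzx⟩

theorem card_reach_succ [DecidableEq V] (h : NB G nb d) (k : ℕ) (x : V) :
    (reach nb (k + 1) x).card ≤ (d + 1) * (reach nb k x).card := by
  refine (Finset.card_union_le _ _).trans ?_
  have := (Finset.card_biUnion_le (s := reach nb k x) (t := nb)).trans_eq
    (by simp [h.card] : ∑ z ∈ reach nb k x, (nb z).card = (reach nb k x).card * d)
  linarith

theorem succ_le_card_reach [DecidableEq V] [Infinite V] (h : NB G nb d) (hc : G.Connected) (x : V) :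
    ∀ k : ℕ, k + 1 ≤ (reach nb k x).card
  | 0 => by simp [reach]
  | k + 1 => by
    have ih := succ_le_card_reach h hc x k
    suffices hss : reach nb k x ⊂ reach nb (k + 1) x from
      Nat.succ_le_of_lt (lt_of_le_of_lt ih (Finset.card_lt_card hss))
    refine Finset.ssubset_iff_subset_ne.2 ⟨Finset.subset_union_left, fun heq => ?_⟩
    refine Set.infinite_univ ((reach nb k x).finite_toSet.subset fun y _ => ?_)
    obtain ⟨w⟩ := hc.preconnected x y
    have key : ∀ {a b : V}, G.Walk a b → a ∈ reach nb k x → b ∈ reach nb k x := by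
      intro a b w
      induction w with
      | nil => exact id
      | cons hu _ ih' =>
        intro ha
        refine ih' ?_
        rw [heq]
        exact Finset.mem_union_right _ (Finset.mem_biUnion.2 ⟨_, ha, h.mem.2 hu⟩)
    exact key w ((mem_reach h).2 ⟨.nil, Nat.zero_le _⟩)

theorem card_reach_eq [DecidableEq V] (h : NB G nb d) (ht : Transitive G) (k : ℕ) (x y : V) :
    (reach nb k x).card = (reach nb k y).card := by
  obtain ⟨φ, rfl⟩ := ht x y
  rw [← Finset.card_image_of_injective (reach nb k x) φ.injective]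
  congr 1
  ext v
  obtain ⟨u, rfl⟩ := φ.surjective v
  simp only [Finset.mem_image, φ.injective.eq_iff, exists_eq_right, mem_reach h]
  constructor
  · rintro ⟨w, hw⟩
    exact ⟨w.map φ.toHom, (SimpleGraph.Walk.length_map _ _).trans_le hw⟩
  · rintro ⟨w, hw⟩
    refine ⟨(w.map φ.symm.toHom).copy (φ.symm_apply_apply x) (φ.symm_apply_apply u), ?_⟩
    rw [SimpleGraph.Walk.length_copy]
    exact (SimpleGraph.Walk.length_map _ _).trans_le hw

/-- Each boundary edge of `A` gives boundary pairs at distance at most `k + 1` in the ball of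
radius `k` around its inner end. -/
theorem boundary_reach [DecidableEq V] (h : NB G nb d) (k : ℕ) (A : Finset V) {N : ℕ}
    (hN : ∀ a ∈ A, N ≤ (reach nb k a).card) :
    N * ∑ a ∈ A, (nb a \ A).card ≤ 2 * d * ∑ a ∈ A, (reach nb (k + 1) a \ A).card := by
  classical
  set P := A.sigma fun a => (nb a \ A) ×ˢ reach nb k a
  set B := A.sigma fun a => reach nb (k + 1) a \ A
  have hP : N * ∑ a ∈ A, (nb a \ A).card ≤ P.card := by
    rw [Finset.card_sigma, Finset.mul_sum]
    refine Finset.sum_le_sum fun a ha => ?_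
    rw [Finset.card_product, mul_comm]
    exact Nat.mul_le_mul_left _ (hN a ha)
  set F : (Σ _ : V, V × V) → (Σ _ : V, V) := fun q =>
    if q.2.2 ∈ A then ⟨q.2.2, q.2.1⟩ else ⟨q.1, q.2.2⟩
  have hmap : ∀ q ∈ P, F q ∈ B := by
    rintro ⟨a, b, z⟩ hq
    simp only [P, Finset.mem_sigma, Finset.mem_product, Finset.mem_sdiff] at hq
    obtain ⟨ha, ⟨hb, hbA⟩, hz⟩ := hq
    obtain ⟨w, hw⟩ := (mem_reach h).1 hz
    by_cases hzA : z ∈ A
    · simp only [F, if_pos hzA, B, Finset.mem_sigma, Finset.mem_sdiff]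
      exact ⟨hzA, (mem_reach h).2 ⟨w.reverse.concat (h.mem.1 hb),
        by rw [SimpleGraph.Walk.length_concat, SimpleGraph.Walk.length_reverse]; omega⟩, hbA⟩
    · simp only [F, if_neg hzA, B, Finset.mem_sigma, Finset.mem_sdiff]
      exact ⟨ha, (mem_reach h).2 ⟨w, by omega⟩, hzA⟩
  refine hP.trans ((Finset.card_le_mul_card_image_of_maps_to hmap (2 * d) ?_).trans_eq
    (by rw [Finset.card_sigma]))
  rintro ⟨u, v⟩ hb
  refine (Finset.card_le_card (t := (nb u).image (fun b => (⟨u, b, v⟩ : Σ _ : V, V × V)) ∪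
    (nb v).image fun a => ⟨a, v, u⟩) ?_).trans ((Finset.card_union_le _ _).trans ?_)
  · rintro ⟨a, b, z⟩ hq
    simp only [Finset.mem_filter, P, Finset.mem_sigma, Finset.mem_product, Finset.mem_sdiff] at hq
    obtain ⟨⟨-, ⟨hb', -⟩, -⟩, he⟩ := hq
    by_cases hzA : z ∈ A
    · simp only [F, if_pos hzA] at he
      injection he with h1 h2
      obtain rfl := h1
      obtain rfl := h2
      exact Finset.mem_union_right _ (Finset.mem_image.2 ⟨a, h.symm.1 hb', rfl⟩)
    · simp only [F, if_neg hzA] at he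
      injection he with h1 h2
      obtain rfl := h1
      obtain rfl := h2
      exact Finset.mem_union_left _ (Finset.mem_image.2 ⟨b, hb', rfl⟩)
  · refine (Nat.add_le_add Finset.card_image_le Finset.card_image_le).trans_eq ?_
    rw [h.card, h.card, two_mul]

/-- Every large distance power of a nonamenable vertex-transitive graph has a nonuniqueness
phase. -/
theorem distPow_gap [Countable V] [Infinite V] (hd : Regular G d) (hc : G.Connected)
    (ht : Transitive G) (hn : Nonamenable G) :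
    ∃ K : ℕ, ∀ k ≥ K, pc (distPow G k) < pu (distPow G k) := by
  classical
  have h := hd.nb
  set nb := fun x => (hd x).1.toFinset
  obtain ⟨o⟩ : Nonempty V := inferInstance
  obtain ⟨η, hη, hA⟩ := hn
  set c := η / (2 * d * (d + 1)) with hcd
  have hd0 : (0 : ℝ) < d := by
    obtain ⟨y, hy⟩ := hc.preconnected.exists_adj_of_nontrivial o
    exact Nat.cast_pos.2 ((h.card o) ▸ Finset.card_pos.2 ⟨y, h.mem.2 hy⟩)
  obtain ⟨D, gap⟩ := gap_of_isoperimetry (c := c) (by positivity)
  refine ⟨D + 1, fun k hk => ?_⟩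
  obtain ⟨m, rfl⟩ : ∃ m, k = m + 1 := ⟨k - 1, by omega⟩
  set n := (reach nb (m + 1) o).card - 1
  have hnb : ∀ x, (distPow G (m + 1)).neighborSet x = ↑((reach nb (m + 1) x).erase x) := by
    intro x; ext y
    simp [distPow, mem_reach h, eq_comm, and_comm]
  have hself : ∀ x, x ∈ reach nb (m + 1) x := fun x => (mem_reach h).2 ⟨.nil, Nat.zero_le _⟩
  have hreg : Regular (distPow G (m + 1)) n := fun x => by
    rw [hnb]
    exact ⟨Finset.finite_toSet _, by
      rw [Set.ncard_coe_finset, Finset.card_erase_of_mem (hself x), card_reach_eq h ht _ x o]⟩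
  have hle : G ≤ distPow G (m + 1) := fun x y hxy =>
    ⟨hxy.ne, .cons hxy .nil, by simp⟩
  have hqt : QuasiTransitive (distPow G (m + 1)) := by
    refine ⟨{o}, fun v => ⟨o, Finset.mem_singleton_self _, ?_⟩⟩
    obtain ⟨φ, hφ⟩ := ht o v
    refine ⟨⟨φ.toEquiv, fun {a b} => ?_⟩, hφ⟩
    simp only [distPow, ne_eq, EmbeddingLike.apply_eq_iff_eq]
    refine and_congr_right fun _ => ⟨fun ⟨w, hw⟩ => ?_, fun ⟨w, hw⟩ => ?_⟩
    · refine ⟨(w.map φ.symm.toHom).copy (φ.symm_apply_apply a) (φ.symm_apply_apply b), ?_⟩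
      rw [SimpleGraph.Walk.length_copy]
      exact (SimpleGraph.Walk.length_map _ _).trans_le hw
    · exact ⟨w.map φ.toHom, (SimpleGraph.Walk.length_map _ _).trans_le hw⟩
  refine gap V (distPow G (m + 1)) n ?_ hreg (hc.mono hle) hqt fun A => ?_
  · have := succ_le_card_reach h hc o (m + 1)
    omega
  set S := ∑ a ∈ A, (reach nb (m + 1) a \ A).card
  have e1 : ∑ a ∈ A, (((distPow G (m + 1)).neighborSet a \ ↑A).ncard : ℝ) = (S : ℝ) := by
    rw [Nat.cast_sum]
    refine Finset.sum_congr rfl fun a ha => ?_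
    rw [hnb, ← Finset.coe_sdiff, Set.ncard_coe_finset]
    congr 2
    ext v
    simp only [Finset.mem_sdiff, Finset.mem_erase]
    exact ⟨fun ⟨⟨_, hv⟩, hv'⟩ => ⟨hv, hv'⟩, fun ⟨hv, hv'⟩ =>
      ⟨⟨fun e => hv' (e ▸ ha), hv⟩, hv'⟩⟩
  rw [e1]
  set N := (reach nb m o).card
  have h1 : N * ∑ a ∈ A, (nb a \ A).card ≤ 2 * d * S :=
    boundary_reach h m A fun a _ => (card_reach_eq h ht m o a).le
  have h2 : η * A.card ≤ ((∑ a ∈ A, (nb a \ A).card : ℕ) : ℝ) := by
    refine (hA A).trans (Nat.cast_le.2 ?_)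
    rw [show ({v | v ∉ A ∧ ∃ a ∈ A, G.Adj a v} : Set V) = ↑(A.biUnion fun a => nb a \ A) by
      ext v; simp [h.mem]; tauto, Set.ncard_coe_finset]
    exact Finset.card_biUnion_le
  have h3 : (n : ℝ) ≤ (d + 1) * N := by
    have : n ≤ (d + 1) * N := (Nat.sub_le _ _).trans (card_reach_succ h m o)
    exact_mod_cast this
  have h1' : (N : ℝ) * ((∑ a ∈ A, (nb a \ A).card : ℕ) : ℝ) ≤ 2 * d * (S : ℝ) := by
    exact_mod_cast h1
  rw [hcd, div_mul_eq_mul_div, div_mul_eq_mul_div, div_le_iff₀ (by positivity)]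
  calc η * n * A.card ≤ η * ((d + 1) * N) * A.card := by gcongr
    _ = (d + 1) * (N * (η * A.card)) := by ring
    _ ≤ (d + 1) * (2 * d * S) :=
      mul_le_mul_of_nonneg_left ((mul_le_mul_of_nonneg_left h2 (Nat.cast_nonneg N)).trans h1')
        (by positivity)
    _ = S * (2 * d * (d + 1)) := by ring

end Vale.Agent.P165
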