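import Vale.Agent.P165.Sparse

/-!
# An absolute spectral gap and small short returns give a nonuniqueness phase
-/

namespace Vale.Agent.P165

open MeasureTheory ProbabilityTheory

open scoped ENNReal

variable {V : Type*} [DecidableEq V] {G : SimpleGraph V} {nb : V → Finset V}

theorem double_sum_le (f : ℕ → ℝ) (hf : ∀ L, 0 ≤ f L) (n : ℕ) :
    ∑ j ∈ Finset.range n, ∑ k ∈ Finset.range n, f (j + k + 1) ≤
      ∑ L ∈ Finset.range (2 * n), (L : ℝ) * f L := by
  calc ∑ j ∈ Finset.range n, ∑ k ∈ Finset.range n, f (j + k + 1)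
      ≤ ∑ j ∈ Finset.range n, ∑ L ∈ Finset.Ico (j + 1) (2 * n), f L := by
        refine Finset.sum_le_sum fun j hj => ?_
        rw [← Finset.sum_image (g := fun k => j + k + 1) fun a _ b _ e => by simpa using e]
        refine Finset.sum_le_sum_of_subset_of_nonneg ?_ fun L _ _ => hf L
        intro L hL
        obtain ⟨k, hk, rfl⟩ := Finset.mem_image.1 hL
        simp only [Finset.mem_range] at hk hj
        simp only [Finset.mem_Ico]
        omega
    _ = ∑ L ∈ Finset.range (2 * n), ∑ _j ∈ Finset.range n ∩ Finset.range L, f L := by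
        refine Finset.sum_comm' fun j L => ?_
        simp only [Finset.mem_range, Finset.mem_Ico, Finset.mem_inter]
        omega
    _ ≤ _ := by
        refine Finset.sum_le_sum fun L _ => ?_
        rw [Finset.sum_const, nsmul_eq_mul]
        refine mul_le_mul_of_nonneg_right (Nat.cast_le.2 ?_) (hf L)
        exact (Finset.card_le_card Finset.inter_subset_right).trans_eq (Finset.card_range L)

theorem trailsL_small (h : LF G nb) (w : V) : trailsL nb 1 w = ∅ ∧ trailsL nb 2 w = ∅ := by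
  refine ⟨Finset.eq_empty_of_forall_notMem fun l hl => ?_,
    Finset.eq_empty_of_forall_notMem fun l hl => ?_⟩
  · obtain ⟨hl, -⟩ := Finset.mem_filter.1 hl
    simp only [walksL, Finset.mem_biUnion, Finset.mem_image] at hl
    obtain ⟨z, hz, l', hl', -⟩ := hl
    split_ifs at hl' with he
    · exact (h.mem.1 hz).ne he.symm
    · simp at hl'
  · obtain ⟨hl, hc⟩ := Finset.mem_filter.1 hl
    simp only [walksL, Finset.mem_biUnion, Finset.mem_image] at hl
    obtain ⟨z, -, l', ⟨v, -, l'', hl'', rfl⟩, rfl⟩ := hl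
    split_ifs at hl'' with he
    · rw [Finset.mem_singleton] at hl''
      subst hl'' he
      simp [edgesL, Sym2.eq_swap] at hc
    · simp at hl''

theorem geometric_weighted {b : ℝ} (hb0 : 0 ≤ b) (hb : b < 1) :
    ∑' i : ℕ, ENNReal.ofReal (((i : ℝ) + 8) * b ^ i) ≤ ENNReal.ofReal (9 / (1 - b) ^ 2) := by
  have hn : ‖b‖ < 1 := by rwa [Real.norm_eq_abs, abs_of_nonneg hb0]
  have h2 := (hasSum_coe_mul_geometric_of_norm_lt_one hn).add
    ((hasSum_geometric_of_lt_one hb0 hb).mul_left 8)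
  have h3 : HasSum (fun i : ℕ => ((i : ℝ) + 8) * b ^ i) (b / (1 - b) ^ 2 + 8 * (1 - b)⁻¹) := by
    simpa [add_mul] using h2
  rw [← ENNReal.ofReal_tsum_of_nonneg (fun i => by positivity) h3.summable, h3.tsum_eq]
  refine ENNReal.ofReal_le_ofReal ?_
  have h1 : 0 < 1 - b := by linarith
  rw [show 8 * (1 - b)⁻¹ = 8 * (1 - b) / (1 - b) ^ 2 by field_simp, ← add_div]
  exact div_le_div_of_nonneg_right (by linarith) (sq_nonneg _)

/-- The bound on the closed trails. -/
theorem tbubble_le (h : LF G nb) {D δ ε p t s r τ : ℝ} (hD : ∀ x, D ≤ (nb x).card) (hD1 : 1 ≤ D)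
    (hε : 0 ≤ ε) (hδ : 0 < δ) (hr : 0 < r) (hrD : r ≤ D) (hτ : τ = δ / (4 * D)) (hτ1 : τ < 1)
    (hp0 : 0 ≤ p) (hpt : p ≤ t) (ht2 : t ≤ 2 / D) (hs0 : 0 ≤ s) (hs2 : s ≤ 2 / D)
    (hsr : s * r = 1 - τ) (hts : t * (1 - (D - 1) * s ^ 2) ≤ s)
    (hW : ∀ k x y, (W nb k x y : ℝ) ≤ r ^ k) (w : V)
    (h3 : (W nb 3 w w : ℝ) ≤ ε * δ * D ^ 2) (h4 : (W nb 4 w w : ℝ) ≤ ε * δ * D ^ 3)
    (h8 : (W nb 8 w w : ℝ) ≤ ε * δ ^ 3 * D ^ 5) (n : ℕ) :
    tbubble nb p n w ≤ 40000 * ε * δ / D := by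
  have hD0 : 0 < D := by linarith
  set f : ℕ → ℝ := fun L => p ^ L * ((trailsL nb L w).card : ℝ)
  have hf : ∀ L, 0 ≤ f L := fun L => mul_nonneg (pow_nonneg hp0 _) (Nat.cast_nonneg _)
  refine (double_sum_le f hf n).trans ?_
  have hsub : ∑ L ∈ Finset.range (2 * n), (L : ℝ) * f L ≤
      ∑ L ∈ Finset.range 8, (L : ℝ) * f L + ∑ L ∈ Finset.Ico 8 (8 + 2 * n), (L : ℝ) * f L := by
    rw [Finset.sum_range_add_sum_Ico _ (by omega)]
    exact Finset.sum_le_sum_of_subset_of_nonneg (Finset.range_mono (by omega))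
      fun L _ _ => mul_nonneg (Nat.cast_nonneg _) (hf L)
  have hTW : ∀ L, ((trailsL nb L w).card : ℝ) ≤ W nb L w w := fun L => Nat.cast_le.2
    ((Finset.card_filter_le _ _).trans (card_walksL_le L w w))
  have hhead : ∀ L c, (W nb L w w : ℝ) ≤ c → f L ≤ (2 / D) ^ L * c := fun L c hc =>
    mul_le_mul (pow_le_pow_left₀ hp0 (hpt.trans ht2) L) ((hTW L).trans hc) (Nat.cast_nonneg _)
      (by positivity)
  have g4 : ∀ i, (W nb (4 + i) w w : ℝ) ≤ D ^ i * (ε * δ * D ^ 3) := fun i =>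
    (W_return_growth h hr hW 2 w i).trans (mul_le_mul (pow_le_pow_left₀ hr.le hrD i) h4
      (Nat.cast_nonneg _) (by positivity))
  have hH : ∑ L ∈ Finset.range 8, (L : ℝ) * f L ≤ 1528 * ε * δ / D := by
    have e1 : f 1 = 0 := by simp [f, (trailsL_small h w).1]
    have e2 : f 2 = 0 := by simp [f, (trailsL_small h w).2]
    have a3 := hhead 3 _ h3
    have a4 := hhead 4 _ (g4 0)
    have a5 := hhead 5 _ (g4 1)
    have a6 := hhead 6 _ (g4 2)
    have a7 := hhead 7 _ (g4 3)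
    rw [show (2 / D) ^ 3 * (ε * δ * D ^ 2) = 8 * (ε * δ / D) by field_simp; ring] at a3
    rw [show (2 / D) ^ 4 * (D ^ 0 * (ε * δ * D ^ 3)) = 16 * (ε * δ / D) by field_simp; ring] at a4
    rw [show (2 / D) ^ 5 * (D ^ 1 * (ε * δ * D ^ 3)) = 32 * (ε * δ / D) by field_simp; ring] at a5
    rw [show (2 / D) ^ 6 * (D ^ 2 * (ε * δ * D ^ 3)) = 64 * (ε * δ / D) by field_simp; ring] at a6
    rw [show (2 / D) ^ 7 * (D ^ 3 * (ε * δ * D ^ 3)) = 128 * (ε * δ / D) by field_simp; ring] at a7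
    simp only [Finset.sum_range_succ, Finset.sum_range_zero, e1, e2]
    rw [show 1528 * ε * δ / D = 1528 * (ε * δ / D) by ring]
    push_cast
    linarith
  have hT : ∑ L ∈ Finset.Ico 8 (8 + 2 * n), (L : ℝ) * f L ≤ 36864 * ε * δ / D := by
    have hb0 : 0 ≤ 1 - τ := by linarith
    have hτ0 : 0 < τ := by rw [hτ]; positivity
    refine le_trans (b := s ^ 8 * (W nb 8 w w : ℝ) * (9 / τ ^ 2)) ?_ ?_
    · rw [← ENNReal.ofReal_le_ofReal_iff (by positivity),
        ENNReal.ofReal_sum_of_nonneg fun L _ => mul_nonneg (Nat.cast_nonneg _) (hf L)]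
      set ω : ℕ → ℝ≥0∞ := fun L => if 8 ≤ L then (L : ℝ≥0∞) else 0
      have hω : Monotone ω := fun a b hab => by
        simp only [ω]
        split_ifs <;> first | exact Nat.cast_le.2 hab | exact bot_le | omega
      calc ∑ L ∈ Finset.Ico 8 (8 + 2 * n), ENNReal.ofReal ((L : ℝ) * f L)
          ≤ ∑ L ∈ Finset.Ico 8 (8 + 2 * n),
              ((trailsL nb L w).card : ℝ≥0∞) * (ω L * ENNReal.ofReal (t ^ L)) := by
            refine Finset.sum_le_sum fun L hL => ?_
            simp only [f, ω, if_pos (Finset.mem_Ico.1 hL).1]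
            rw [← ENNReal.ofReal_natCast, ← ENNReal.ofReal_natCast,
              ← ENNReal.ofReal_mul (Nat.cast_nonneg _), ← ENNReal.ofReal_mul (Nat.cast_nonneg _)]
            refine ENNReal.ofReal_le_ofReal ?_
            calc (L : ℝ) * (p ^ L * ((trailsL nb L w).card : ℝ))
                ≤ (L : ℝ) * (t ^ L * ((trailsL nb L w).card : ℝ)) := by gcongr
              _ = _ := by ring
        _ ≤ ∑' i, ω i * (ENNReal.ofReal (s ^ i) * (W nb i w w : ℝ≥0∞)) :=
            sum_straight_le h hD hD1 hs0 (hp0.trans hpt) hts hω _ (fun L => trailsL nb L w)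
              fun L _ l hl => by
                obtain ⟨hl, hc⟩ := Finset.mem_filter.1 hl
                obtain ⟨r', rfl, hr'⟩ := head_walksL hl
                exact ⟨hl, straight_of_card (hc.trans hr'.symm)⟩
        _ = ∑' i, ω (i + 8) * (ENNReal.ofReal (s ^ (i + 8)) * (W nb (i + 8) w w : ℝ≥0∞)) := by
            rw [← ENNReal.summable.sum_add_tsum_nat_add' (k := 8)]
            rw [Finset.sum_eq_zero fun i hi => by
              simp [ω, not_le.2 (Finset.mem_range.1 hi)], zero_add]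
        _ ≤ ∑' i : ℕ, ENNReal.ofReal (s ^ 8 * (W nb 8 w w : ℝ)) *
              ENNReal.ofReal (((i : ℝ) + 8) * (1 - τ) ^ i) := by
            refine ENNReal.tsum_le_tsum fun i => ?_
            simp only [ω, if_pos (Nat.le_add_left 8 i)]
            rw [← ENNReal.ofReal_natCast, ← ENNReal.ofReal_natCast,
              ← ENNReal.ofReal_mul (pow_nonneg hs0 _), ← ENNReal.ofReal_mul (Nat.cast_nonneg _),
              ← ENNReal.ofReal_mul (by positivity)]
            refine ENNReal.ofReal_le_ofReal ?_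
            have hg := W_return_growth h hr hW 4 w i
            rw [show 4 + 4 + i = i + 8 by omega] at hg
            calc ((i + 8 : ℕ) : ℝ) * (s ^ (i + 8) * (W nb (i + 8) w w : ℝ))
                ≤ ((i + 8 : ℕ) : ℝ) * (s ^ (i + 8) * (r ^ i * W nb 8 w w)) := by gcongr
              _ = _ := by rw [← hsr, mul_pow]; push_cast; ring
        _ ≤ _ := by
            rw [ENNReal.tsum_mul_left, ENNReal.ofReal_mul (q := 9 / τ ^ 2) (by positivity)]
            refine mul_le_mul' le_rfl ((geometric_weighted hb0 (by linarith)).trans_eq ?_)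
            rw [sub_sub_cancel]
    · calc s ^ 8 * (W nb 8 w w : ℝ) * (9 / τ ^ 2)
          ≤ (2 / D) ^ 8 * (ε * δ ^ 3 * D ^ 5) * (9 / τ ^ 2) :=
            mul_le_mul_of_nonneg_right (mul_le_mul (pow_le_pow_left₀ hs0 hs2 8) h8
              (Nat.cast_nonneg _) (by positivity)) (by positivity)
        _ = _ := by rw [hτ]; field_simp; ring
  have : 0 ≤ ε * δ / D := by positivity
  rw [show 1528 * ε * δ / D = 1528 * (ε * δ / D) by ring] at hH
  rw [show 36864 * ε * δ / D = 36864 * (ε * δ / D) by ring] at hT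
  rw [show 40000 * ε * δ / D = 40000 * (ε * δ / D) by ring]
  linarith

/-- An absolute gap `δ` and small short returns give `pc < pu`. -/
theorem gap_of_absolute [Countable V] [Infinite V] (h : LF G nb) (hc : G.Connected)
    (hq : QuasiTransitive G) {D δ : ℝ} (hδ : 0 < δ) (hδ1 : δ ≤ 1)
    (hD : ∀ x, D ≤ (nb x).card) (hW : ∀ k x y, (W nb k x y : ℝ) ≤ (D - δ) ^ k)
    (hret : ∀ x, (W nb 3 x x : ℝ) ≤ 1 / 1000000 * δ * D ^ 2 ∧
      (W nb 4 x x : ℝ) ≤ 1 / 1000000 * δ * D ^ 3 ∧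
      (W nb 8 x x : ℝ) ≤ 1 / 1000000 * δ ^ 3 * D ^ 5) : pc G < pu G := by
  obtain ⟨o⟩ : Nonempty V := inferInstance
  obtain ⟨y, hy⟩ := hc.preconnected.exists_adj_of_nontrivial o
  set r := D - δ with hrd
  have hr1 : 1 ≤ r := by
    have h1 := hW 1 o y
    have e : W nb 1 o y = 1 := by simp [W, h.mem.2 hy]
    rw [e, pow_one] at h1
    exact_mod_cast h1
  have hr : 0 < r := by linarith
  have hD0 : 0 < D := by linarith
  have hbig : 1000000 ≤ δ * D := by
    have h1 := W_sq_le h 0 2 o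
    have e : W nb 2 o o = (nb o).card := by
      have e1 : ∀ z ∈ nb o, W nb 1 z o = 1 := fun z hz => by simp [W, h.symm.1 hz]
      rw [W, Finset.sum_congr rfl e1, Finset.sum_const, smul_eq_mul, mul_one]
    rw [show W nb (0 + 2) o o = W nb 2 o o from rfl, e, show W nb (0 + 0) o o = 1 by simp [W],
      Nat.cast_one, one_mul] at h1
    have h2 := (pow_le_pow_left₀ hD0.le (hD o) 2).trans (h1.trans (hret o).2.1)
    by_contra hlt
    nlinarith [mul_pos (pow_pos hD0 2) (sub_pos.2 (not_le.1 hlt))]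
  have hDbig : 1000000 ≤ D := by nlinarith
  set x := δ / D with hxd
  have hx0 : 0 < x := div_pos hδ hD0
  have hxD : x * D = δ := div_mul_cancel₀ _ hD0.ne'
  have hx1 : x ≤ 1 / 1000000 := by
    rw [hxd, div_le_div_iff₀ hD0 (by norm_num)]; linarith
  set τ := δ / (4 * D) with hτd
  have hτx : τ = x / 4 := by rw [hτd, hxd]; ring
  set s := (1 - τ) / r with hsd
  have hs0 : 0 ≤ s := div_nonneg (by linarith) hr.le
  have hsr : s * r = 1 - τ := div_mul_cancel₀ _ hr.ne'
  have hD1 : 0 < D - 1 := by linarith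
  set t := (1 + x / 8) / (D - 1) with htd
  have ht0 : 0 ≤ t := div_nonneg (by linarith) hD1.le
  have ht2 : t ≤ 2 / D := by rw [htd, div_le_div_iff₀ hD1 hD0]; nlinarith
  have hs2 : s ≤ 2 / D := by rw [hsd, div_le_div_iff₀ hr hD0]; nlinarith
  have hts : t * (1 - (D - 1) * s ^ 2) ≤ s := by
    set u := (D - 1) * s with hud
    have hu : D - 1 + 3 * δ / 4 - δ / D ≤ u * D := by
      have hr' : (D - 1) * (1 - τ) = u * r := by rw [hud, ← hsr]; ring
      have h2 : (D - 1) * (1 - τ) * (D + δ) ≤ u * D ^ 2 := by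
        rw [hr']
        have hu0 : 0 ≤ u := mul_nonneg hD1.le hs0
        nlinarith [mul_nonneg hu0 (sq_nonneg δ)]
      refine le_of_mul_le_mul_right ?_ hD0
      rw [hτx] at h2
      have : δ / D * D = δ := div_mul_cancel₀ _ hD0.ne'
      nlinarith
    have hus : 1 - 2 / D ≤ u * s * D := by
      have h1 : (1 - τ) ≤ s * D := by
        rw [← hsr]; exact mul_le_mul_of_nonneg_left (by linarith) hs0
      have h2 : u * s * D * D = (D - 1) * (s * D) ^ 2 := by rw [hud]; ring
      refine le_of_mul_le_mul_right ?_ hD0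
      rw [h2, sub_mul, div_mul_cancel₀ _ hD0.ne']
      have h3 : (1 - τ) ^ 2 ≤ (s * D) ^ 2 := pow_le_pow_left₀ (by linarith) h1 2
      rw [hτx] at h3
      nlinarith
    rw [htd, div_mul_eq_mul_div, div_le_iff₀ hD1, mul_comm s, ← hud,
      show (D - 1) * s ^ 2 = u * s by rw [hud]; ring]
    refine le_of_mul_le_mul_right ?_ hD0
    have h3 : 2 / D ≤ δ / 500000 := by
      rw [div_le_div_iff₀ hD0 (by norm_num)]; linarith
    have h4 : δ / D ≤ δ / 1000000 := div_le_div_of_nonneg_left hδ.le (by norm_num) hDbig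
    have h5 : x * (u * s * D) ≥ 0 :=
      mul_nonneg hx0.le (mul_nonneg (mul_nonneg (mul_nonneg hD1.le hs0) hs0) hD0.le)
    nlinarith
  set η := x / 16 with hηd
  set p1 := (1 + η) / (D - 1) with hp1d
  set pm := (1 + 3 / 2 * η) / (D - 1) with hpmd
  have hp1 : 0 < p1 := div_pos (by linarith) hD1
  have h1m : p1 < pm := div_lt_div_of_pos_right (by linarith) hD1
  have hmt : pm < t := div_lt_div_of_pos_right (by linarith) hD1
  have ht1 : t < 1 := by rw [htd, div_lt_one hD1]; linarith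
  have hm : pm ∈ Set.Icc (0 : ℝ) 1 := ⟨(hp1.trans h1m).le, (hmt.trans ht1).le⟩
  set p2 : unitInterval := ⟨pm, hm⟩
  have hφ : ∀ q ∈ Set.Icc p1 (p2 : ℝ), ∀ S : Finset V, o ∈ S → 1 ≤ phi nb S q o := by
    rintro q ⟨hlo, hhi⟩ S hS
    refine le_phi_trail h (hp1.le.trans hlo) (hhi.trans hm.2) hD (δ := η) (fun n w => ?_) ?_ hS
    · refine (tbubble_le h hD (by linarith) (by norm_num) hδ hr (by linarith) hτd (by linarith)
        (hp1.le.trans hlo) (hhi.trans hmt.le) ht2 hs0 hs2 hsr hts hW w (hret w).1 (hret w).2.1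
        (hret w).2.2 n).trans ?_
      rw [hηd, hxd]
      calc 40000 * (1 / 1000000) * δ / D = δ / D / 25 := by ring
        _ ≤ _ := by rw [← hxd]; linarith
    · refine le_trans (le_of_eq ?_) (mul_le_mul_of_nonneg_right hlo hD1.le)
      exact (div_mul_cancel₀ _ hD1.ne').symm
  have hθ := theta_ge (p2 := p2) h hp1 h1m.le (hmt.trans ht1) zero_le_one le_rfl hφ
  have hpos : 0 < perc G p2 {ω | HasInfinite G ω} := by
    refine lt_of_lt_of_le ?_ (hθ.trans (measure_mono fun ω hω => ⟨o, hω⟩))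
    refine ENNReal.ofReal_pos.2 (sub_pos.2 (Real.exp_lt_one_iff.2 ?_))
    simp only [one_mul]
    exact sub_neg.2 h1m
  have hpc : pc G ≤ pm := csInf_le ⟨0, fun t ⟨ht, _⟩ => ht.1⟩ ⟨hm, hpos⟩
  refine hpc.trans_lt (hmt.trans_le (le_csInf ⟨1, ⟨zero_le_one, le_rfl⟩, ?_⟩ ?_))
  · rw [show (⟨(1 : ℝ), ⟨zero_le_one, le_rfl⟩⟩ : unitInterval) = 1 from rfl, perc,
      setBernoulli_one]
    refine Measure.dirac_apply_of_mem ?_
    have e : openGraph G G.edgeSet = G := by simp [openGraph]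
    have eu : ∀ x : V, {z | (openGraph G G.edgeSet).Reachable x z} = Set.univ := fun x => by
      ext z
      simp [e, hc.preconnected x z]
    refine ⟨⟨o, by rw [eu]; exact Set.infinite_univ⟩, fun x y _ _ => ?_⟩
    rw [e]
    exact hc.preconnected x y
  · rintro q ⟨hq', h1⟩
    by_contra hlt
    refine not_unique_of_decay h hc hq (C := (1 - s * r)⁻¹) (mul_nonneg hs0 hr.le)
      (by rw [hsr]; linarith) (fun a b m hab => ?_) h1
    exact tau_le_straight h hD (by linarith) hs0 ht0 hts hr.le (by rw [hsr]; linarith) hW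
      (p := ⟨q, hq'⟩) (not_le.1 hlt).le hab

end Vale.Agent.P165
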