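import Vale.Agent.P165.Examples
import Vale.Agent.P165.WeakGap

/-!
# Products of a nonamenable graph with large powers
-/

namespace Vale.Agent.P165

variable {V : Type*} [DecidableEq V] {G : SimpleGraph V} {nb : V → Finset V} {d : ℕ}
variable {U : Type*} [DecidableEq U] {K : SimpleGraph U} {nbK : U → Finset U} {e : ℕ}

/-- The neighbours in a Cartesian product. -/
def nbX (nb : V → Finset V) (nbK : U → Finset U) (x : V × U) : Finset (V × U) :=
  (nb x.1).image (fun a => (a, x.2)) ∪ (nbK x.2).image (fun b => (x.1, b))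

theorem nbX_disjoint (h : LF G nb) (x : V × U) :
    Disjoint ((nb x.1).image fun a => (a, x.2)) ((nbK x.2).image fun b => (x.1, b)) := by
  rw [Finset.disjoint_left]
  intro z hz hz'
  obtain ⟨a, ha, rfl⟩ := Finset.mem_image.1 hz
  obtain ⟨b, -, he⟩ := Finset.mem_image.1 hz'
  exact (h.mem.1 ha).ne (Prod.mk.inj he).1

theorem sum_nbX (h : LF G nb) {M : Type*} [AddCommMonoid M] (x : V × U) (f : V × U → M) :
    ∑ z ∈ nbX nb nbK x, f z = ∑ a ∈ nb x.1, f (a, x.2) + ∑ b ∈ nbK x.2, f (x.1, b) := by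
  rw [nbX, Finset.sum_union (nbX_disjoint h x), Finset.sum_image, Finset.sum_image]
  · exact fun a _ b _ he => (Prod.mk.inj he).2
  · exact fun a _ b _ he => (Prod.mk.inj he).1

theorem NB.boxProd (h : NB G nb d) (hK : NB K nbK e) :
    NB (G.boxProd K) (nbX nb nbK) (d + e) where
  mem {x z} := by
    obtain ⟨a, b⟩ := x
    obtain ⟨a', b'⟩ := z
    simp only [nbX, Finset.mem_union, Finset.mem_image, h.mem, hK.mem, SimpleGraph.boxProd_adj,
      Prod.mk.injEq]
    constructor
    · rintro (⟨u, hu, rfl, rfl⟩ | ⟨u, hu, rfl, rfl⟩)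
      exacts [Or.inl ⟨hu, rfl⟩, Or.inr ⟨hu, rfl⟩]
    · rintro (⟨hu, rfl⟩ | ⟨hu, rfl⟩)
      exacts [Or.inl ⟨a', hu, rfl, rfl⟩, Or.inr ⟨b', hu, rfl, rfl⟩]
  card x := by
    rw [Finset.card_eq_sum_ones, sum_nbX h.toLF]
    simp [h.card, hK.card]

/-- The adjacency operator iterated. -/
def iterA (nb : V → Finset V) : ℕ → (V → ℝ) → V → ℝ
  | 0, f, a => f a
  | i + 1, f, a => ∑ z ∈ nb a, iterA nb i f z

theorem iterA_add : ∀ (i : ℕ) (f g : V → ℝ) (a : V),
    iterA nb i (fun z => f z + g z) a = iterA nb i f a + iterA nb i g a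
  | 0, f, g, a => rfl
  | i + 1, f, g, a => by
    simp only [iterA, ← Finset.sum_add_distrib]
    exact Finset.sum_congr rfl fun z _ => iterA_add i f g z

theorem iterA_sum {ι : Type*} (i : ℕ) (I : Finset ι) (f : ι → V → ℝ) (a : V) :
    iterA nb i (fun z => ∑ b ∈ I, f b z) a = ∑ b ∈ I, iterA nb i (f b) a := by
  induction i generalizing a with
  | zero => rfl
  | succ i ih =>
    simp only [iterA, ih]
    exact Finset.sum_comm

theorem iterA_adjOp : ∀ (i : ℕ) (f : V → ℝ) (a : V),
    iterA nb i (fun z => ∑ u ∈ nb z, f u) a = iterA nb (i + 1) f a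
  | 0, f, a => rfl
  | i + 1, f, a => Finset.sum_congr rfl fun z _ => iterA_adjOp i f z

theorem iterA_indicator : ∀ (i : ℕ) (a a' : V),
    iterA nb i (fun z => if z = a' then 1 else 0) a = (W nb i a a' : ℝ)
  | 0, a, a' => by simp [iterA, W]
  | i + 1, a, a' => by
    simp only [iterA, W, Nat.cast_sum]
    exact Finset.sum_congr rfl fun z _ => iterA_indicator i z a'

/-- Walk counts of a product. -/
theorem W_boxProd_le (h : NB G nb d) (hK : NB K nbK e) {r : ℝ} (hr : 0 ≤ r)
    (hW : ∀ k x y, (W nb k x y : ℝ) ≤ r ^ k) (y : V × U) :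
    ∀ (n i : ℕ) (a : V) (b : U),
      iterA nb i (fun z => (W (nbX nb nbK) n (z, b) y : ℝ)) a ≤ r ^ i * (r + e) ^ n
  | 0, i, a, b => by
    obtain ⟨a', b'⟩ := y
    by_cases hb : b = b'
    · subst hb
      have e1 : (fun z => (W (nbX nb nbK) 0 (z, b) (a', b) : ℝ)) =
          fun z => if z = a' then 1 else 0 := by
        funext z
        by_cases hz : z = a' <;> simp [W, hz]
      rw [e1, iterA_indicator, pow_zero, mul_one]
      exact hW i a a'
    · have e1 : (fun z => (W (nbX nb nbK) 0 (z, b) (a', b') : ℝ)) = fun _ => ∑ _j ∈ (∅ : Finset ℕ), 0 := by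
        funext z
        simp [W, hb]
      rw [e1, iterA_sum]
      simpa using pow_nonneg hr i
  | n + 1, i, a, b => by
    have e1 : (fun z => (W (nbX nb nbK) (n + 1) (z, b) y : ℝ)) =
        fun z => (∑ u ∈ nb z, (W (nbX nb nbK) n (u, b) y : ℝ)) +
          ∑ c ∈ nbK b, (W (nbX nb nbK) n (z, c) y : ℝ) := by
      funext z
      rw [show W (nbX nb nbK) (n + 1) (z, b) y =
        ∑ u ∈ nbX nb nbK (z, b), W (nbX nb nbK) n u y from rfl, sum_nbX h.toLF]
      push_cast
      rfl
    rw [e1, iterA_add, iterA_adjOp i (fun u => (W (nbX nb nbK) n (u, b) y : ℝ)),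
      iterA_sum i (nbK b) (fun c z => (W (nbX nb nbK) n (z, c) y : ℝ))]
    refine (add_le_add (W_boxProd_le h hK hr hW y n (i + 1) a b)
      (Finset.sum_le_sum fun c _ => W_boxProd_le h hK hr hW y n i a c)).trans (le_of_eq ?_)
    rw [Finset.sum_const, hK.card, nsmul_eq_mul]
    ring

/-- The coordinates in which two tuples differ. -/
def diffC {k : ℕ} (x y : Fin k → U) : Finset (Fin k) := Finset.univ.filter fun i => x i ≠ y i

theorem diffC_update {k : ℕ} (x y : Fin k → U) (i : Fin k) (v : U) :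
    (diffC x y).erase i ⊆ diffC (Function.update x i v) y := by
  intro j hj
  obtain ⟨hji, hj⟩ := Finset.mem_erase.1 hj
  simp only [diffC, Finset.mem_filter, Finset.mem_univ, true_and] at hj ⊢
  rwa [Function.update_of_ne hji]

theorem W_prod_eq_zero (h : LF G nb) (hK : NB K nbK e) {k : ℕ} (y : V × (Fin k → U)) :
    ∀ (n : ℕ) (x : V × (Fin k → U)), n < (diffC x.2 y.2).card →
      W (nbX nb (nbP nbK k)) n x y = 0
  | 0, x, hx => by
    have : x ≠ y := fun he => by simp [he, diffC] at hx
    simp [W, this]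
  | n + 1, x, hx => by
    rw [W, sum_nbX h, sum_nbP hK,
      Finset.sum_eq_zero fun a _ => W_prod_eq_zero h hK y n (a, x.2) (by simp only; omega),
      zero_add]
    refine Finset.sum_eq_zero fun i _ => Finset.sum_eq_zero fun v _ =>
      W_prod_eq_zero h hK y n (x.1, Function.update x.2 i v) ?_
    have h1 := Finset.card_le_card (diffC_update x.2 y.2 i v)
    have h2 := Finset.pred_card_le_card_erase (a := i) (s := diffC x.2 y.2)
    simp only
    omega

/-- The constant in the bound on short returns. -/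
def retC (d e : ℕ) : ℕ → ℝ
  | 0 => 1
  | n + 1 => (((n : ℝ) + 1) * e + 1 + d) * retC d e n

theorem retC_pos (d e : ℕ) : ∀ n, 0 < retC d e n
  | 0 => one_pos
  | n + 1 => mul_pos (by positivity) (retC_pos d e n)

/-- Short returns in a product with a large power. -/
theorem W_prod_return (h : NB G nb d) (hK : NB K nbK e) {k : ℕ} {u : ℝ} (hu : 1 ≤ u)
    (hu2 : (k : ℝ) * e ≤ u ^ 2) (y : V × (Fin k → U)) :
    ∀ (n : ℕ) (x : V × (Fin k → U)),
      (W (nbX nb (nbP nbK k)) n x y : ℝ) * u ^ (diffC x.2 y.2).card ≤ retC d e n * u ^ n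
  | 0, x => by
    by_cases hxy : x = y
    · subst hxy
      simp [W, diffC, retC]
    · simp [W, hxy, retC]
  | n + 1, x => by
    have hu0 : 0 ≤ u := by linarith
    set q := (diffC x.2 y.2).card with hq
    by_cases hnq : n + 1 < q
    · rw [W_prod_eq_zero h.toLF hK y (n + 1) x hnq, Nat.cast_zero, zero_mul]
      exact mul_nonneg (retC_pos d e _).le (pow_nonneg hu0 _)
    rw [not_lt] at hnq
    have hB : 0 ≤ retC d e n * u ^ n := mul_nonneg (retC_pos d e n).le (pow_nonneg hu0 n)
    rw [W, sum_nbX h.toLF, sum_nbP hK]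
    push_cast
    rw [add_mul, Finset.sum_mul, Finset.sum_mul]
    have h1 : ∑ a ∈ nb x.1, (W (nbX nb (nbP nbK k)) n (a, x.2) y : ℝ) * u ^ q ≤
        d * (u * (retC d e n * u ^ n)) := by
      refine (Finset.sum_le_sum fun a _ => W_prod_return h hK hu hu2 y n (a, x.2)).trans ?_
      rw [Finset.sum_const, h.card, nsmul_eq_mul]
      exact mul_le_mul_of_nonneg_left (le_mul_of_one_le_left hB hu) (Nat.cast_nonneg _)
    have h2 : ∑ i, (∑ v ∈ nbK (x.2 i),
        (W (nbX nb (nbP nbK k)) n (x.1, Function.update x.2 i v) y : ℝ)) * u ^ q ≤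
        ((n : ℝ) + 1) * e * (u * (retC d e n * u ^ n)) + k * e * (retC d e n * u ^ n / u) := by
      rw [← Finset.sum_add_sum_compl (diffC x.2 y.2)]
      refine add_le_add ?_ ?_
      · refine (Finset.sum_le_sum (g := fun _ => (e : ℝ) * (u * (retC d e n * u ^ n)))
          fun i _ => ?_).trans ?_
        · rw [Finset.sum_mul]
          refine (Finset.sum_le_sum (g := fun _ => u * (retC d e n * u ^ n)) fun v _ => ?_).trans_eq
            (by rw [Finset.sum_const, hK.card, nsmul_eq_mul])
          set q' := (diffC (Function.update x.2 i v) y.2).card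
          have hq' : q ≤ q' + 1 := by
            have h1 := Finset.card_le_card (diffC_update x.2 y.2 i v)
            have h2 := Finset.pred_card_le_card_erase (a := i) (s := diffC x.2 y.2)
            omega
          refine le_trans (mul_le_mul_of_nonneg_left
            ((pow_le_pow_right₀ hu hq').trans_eq (pow_succ' u q')) (Nat.cast_nonneg _)) ?_
          rw [mul_left_comm]
          exact mul_le_mul_of_nonneg_left
            (W_prod_return h hK hu hu2 y n (x.1, Function.update x.2 i v)) hu0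
        · rw [Finset.sum_const, nsmul_eq_mul, ← mul_assoc]
          refine mul_le_mul_of_nonneg_right (mul_le_mul_of_nonneg_right ?_ (Nat.cast_nonneg _))
            (mul_nonneg hu0 hB)
          exact_mod_cast hnq
      · refine (Finset.sum_le_sum (g := fun _ => (e : ℝ) * (retC d e n * u ^ n / u))
          fun i hi => ?_).trans ?_
        · rw [Finset.sum_mul]
          refine (Finset.sum_le_sum (g := fun _ => retC d e n * u ^ n / u) fun v hv => ?_).trans_eq
            (by rw [Finset.sum_const, hK.card, nsmul_eq_mul])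
          have hxi : x.2 i = y.2 i := by simpa [diffC] using hi
          have e1 : diffC (Function.update x.2 i v) y.2 = insert i (diffC x.2 y.2) := by
            ext j
            by_cases hj : j = i
            · subst hj
              simp [diffC, ← hxi, (hK.mem.1 hv).ne.symm]
            · simp [diffC, hj]
          have hcard : (diffC (Function.update x.2 i v) y.2).card = q + 1 := by
            rw [e1, Finset.card_insert_of_notMem (by simpa [diffC] using hxi)]
          have h3 := W_prod_return h hK hu hu2 y n (x.1, Function.update x.2 i v)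
          simp only [hcard, pow_succ] at h3
          rw [le_div_iff₀ (by linarith), mul_assoc]
          exact h3
        · rw [Finset.sum_const, nsmul_eq_mul, ← mul_assoc]
          refine mul_le_mul_of_nonneg_right (mul_le_mul_of_nonneg_right ?_ (Nat.cast_nonneg _))
            (div_nonneg hB hu0)
          exact_mod_cast (Finset.card_le_univ _).trans_eq (Fintype.card_fin k)
    have h3 : (k : ℝ) * e * (retC d e n * u ^ n / u) ≤ u * (retC d e n * u ^ n) := by
      refine (mul_le_mul_of_nonneg_right hu2 (div_nonneg hB hu0)).trans_eq ?_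
      field_simp
    refine (add_le_add h1 h2).trans ?_
    rw [retC, pow_succ' u n]
    linarith

omit [DecidableEq V] [DecidableEq U] in
theorem quasiTransitive_boxProd (hG : QuasiTransitive G) (hK : QuasiTransitive K) :
    QuasiTransitive (G.boxProd K) := by
  obtain ⟨F, hF⟩ := hG
  obtain ⟨F', hF'⟩ := hK
  refine ⟨F ×ˢ F', fun x => ?_⟩
  obtain ⟨f, hf, φ, hφ⟩ := hF x.1
  obtain ⟨g, hg, ψ, hψ⟩ := hF' x.2
  refine ⟨(f, g), Finset.mem_product.2 ⟨hf, hg⟩,
    ⟨Equiv.prodCongr φ.toEquiv ψ.toEquiv, fun {a b} => ?_⟩, Prod.ext hφ hψ⟩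
  simp [SimpleGraph.boxProd_adj, φ.map_adj_iff, ψ.map_adj_iff, φ.injective.eq_iff,
    ψ.injective.eq_iff]

omit [DecidableEq V] [DecidableEq U] in
/-- A nonamenable graph times a large power of any connected regular graph has a nonuniqueness
phase. -/
theorem product_gap [Countable V] [Infinite V] [Countable U] (hd : Regular G d)
    (hc : G.Connected) (hq : QuasiTransitive G) (hn : Nonamenable G) (he : 0 < e)
    (heK : Regular K e) (hcK : K.Connected) (hqK : QuasiTransitive K) :
    ∃ N : ℕ, ∀ k ≥ N, pc (G.boxProd (powGraph K k)) < pu (G.boxProd (powGraph K k)) := by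
  classical
  have h := hd.nb
  have hK := heK.nb
  set nb := fun x => (hd x).1.toFinset
  set nbK := fun x => (heK x).1.toFinset
  obtain ⟨r, hr, hrd, hb⟩ := exists_formBound h inferInstance hn
  set δ := min ((d : ℝ) - r) 1
  have hδ : 0 < δ := lt_min (by linarith) one_pos
  have hδ1 : δ ≤ 1 := min_le_right _ _
  have hδd : δ ≤ (d : ℝ) - r := min_le_left _ _
  set B := retC d e 3 + retC d e 4 + retC d e 8
  have hB : 0 < B := by have := retC_pos d e 3; have := retC_pos d e 4; have := retC_pos d e 8; positivity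
  obtain ⟨N, hN⟩ := exists_nat_ge (max 1 ((B * 1000000 / δ ^ 3) ^ 2))
  refine ⟨N, fun k hk => ?_⟩
  have hke : (1 : ℝ) ≤ e := by exact_mod_cast he
  have hkN : (N : ℝ) ≤ k := Nat.cast_le.2 hk
  have hN1 := (le_max_left _ _).trans hN
  have hN2 := (le_max_right _ _).trans hN
  have hk0 : (0 : ℝ) ≤ k := Nat.cast_nonneg k
  have hprod : (k : ℝ) ≤ (k : ℝ) * e := le_mul_of_one_le_right hk0 hke
  set u := Real.sqrt ((k : ℝ) * e)
  have hu2 : u ^ 2 = (k : ℝ) * e := Real.sq_sqrt (by positivity)
  have hu : 1 ≤ u := Real.one_le_sqrt.2 (by linarith)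
  have hBu : B * 1000000 / δ ^ 3 ≤ u := Real.le_sqrt_of_sq_le (by linarith)
  rw [div_le_iff₀ (by positivity)] at hBu
  have hX := h.boxProd (hK.pow k)
  set D : ℝ := ((d + k * e : ℕ) : ℝ) with hDd
  have hDu : u ^ 2 ≤ D := by rw [hu2, hDd]; push_cast; linarith [Nat.cast_nonneg (α := ℝ) d]
  have hpos : ∀ n x, (W (nbX nb (nbP nbK k)) n x x : ℝ) ≤ retC d e n * u ^ n := fun n x => by
    simpa [diffC] using W_prod_return h hK hu hu2.ge x n x
  have : Nonempty U := hcK.nonempty
  refine gap_of_absolute hX.toLF (hc.boxProd (connected_pow hcK k))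
    (quasiTransitive_boxProd hq (quasiTransitive_pow hqK k)) (D := D) hδ hδ1
    (fun x => by rw [hX.card]) (fun n x y => ?_) fun x => ?_
  · have h1 := W_boxProd_le h (hK.pow k) hr.le (W_le_pow hb h.toLF hr) y n 0 x.1 x.2
    simp only [iterA, pow_zero, one_mul] at h1
    refine h1.trans (pow_le_pow_left₀ (by positivity) ?_ n)
    rw [hDd]; push_cast; linarith
  · have hu0 : 0 ≤ u := by linarith
    have hD0 : 0 ≤ D := (sq_nonneg u).trans hDu
    have hBn : ∀ n, n = 3 ∨ n = 4 ∨ n = 8 → retC d e n ≤ B := by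
      rintro n (rfl | rfl | rfl) <;>
        linarith [retC_pos d e 3, retC_pos d e 4, retC_pos d e 8]
    have hδ3 : δ ^ 3 ≤ δ := pow_le_of_le_one hδ.le hδ1 (by norm_num)
    have hBδ : B * 1000000 ≤ u * δ := hBu.trans (mul_le_mul_of_nonneg_left hδ3 hu0)
    refine ⟨?_, ?_, ?_⟩
    · calc (W (nbX nb (nbP nbK k)) 3 x x : ℝ) ≤ retC d e 3 * u ^ 3 := hpos 3 x
        _ ≤ B * u ^ 3 := mul_le_mul_of_nonneg_right (hBn 3 (Or.inl rfl)) (pow_nonneg hu0 3)
        _ ≤ u * δ / 1000000 * u ^ 3 := mul_le_mul_of_nonneg_right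
            (by rw [le_div_iff₀ (by norm_num)]; exact hBδ) (pow_nonneg hu0 3)
        _ = 1 / 1000000 * δ * (u ^ 2) ^ 2 := by ring
        _ ≤ _ := mul_le_mul_of_nonneg_left (pow_le_pow_left₀ (sq_nonneg u) hDu 2) (by positivity)
    · calc (W (nbX nb (nbP nbK k)) 4 x x : ℝ) ≤ retC d e 4 * u ^ 4 := hpos 4 x
        _ ≤ B * u ^ 4 := mul_le_mul_of_nonneg_right (hBn 4 (by simp)) (pow_nonneg hu0 4)
        _ ≤ B * u ^ 5 := mul_le_mul_of_nonneg_left (pow_le_pow_right₀ hu (by norm_num)) hB.le
        _ ≤ u * δ / 1000000 * u ^ 5 := mul_le_mul_of_nonneg_right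
            (by rw [le_div_iff₀ (by norm_num)]; exact hBδ) (pow_nonneg hu0 5)
        _ = 1 / 1000000 * δ * (u ^ 2) ^ 3 := by ring
        _ ≤ _ := mul_le_mul_of_nonneg_left (pow_le_pow_left₀ (sq_nonneg u) hDu 3) (by positivity)
    · calc (W (nbX nb (nbP nbK k)) 8 x x : ℝ) ≤ retC d e 8 * u ^ 8 := hpos 8 x
        _ ≤ B * u ^ 8 := mul_le_mul_of_nonneg_right (hBn 8 (by simp)) (pow_nonneg hu0 8)
        _ ≤ B * u ^ 9 := mul_le_mul_of_nonneg_left (pow_le_pow_right₀ hu (by norm_num)) hB.le
        _ ≤ u * δ ^ 3 / 1000000 * u ^ 9 := mul_le_mul_of_nonneg_right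
            (by rw [le_div_iff₀ (by norm_num)]; exact hBu) (pow_nonneg hu0 9)
        _ = 1 / 1000000 * δ ^ 3 * (u ^ 2) ^ 5 := by ring
        _ ≤ _ := mul_le_mul_of_nonneg_left (pow_le_pow_left₀ (sq_nonneg u) hDu 5) (by positivity)

end Vale.Agent.P165
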