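import Vale.Agent.P165.Unique

/-!
# Erasing backtracks: non-backtracking lists are outnumbered by the walks that reduce to them
-/

namespace Vale.Agent.P165

open MeasureTheory ProbabilityTheory

open scoped ENNReal

variable {V : Type*} [DecidableEq V] {G : SimpleGraph V} {nb : V → Finset V}

/-- Erase backtracks from a vertex list. -/
def red : List V → List V
  | [] => []
  | a :: l => match red l with
    | b :: c :: rest => if c = a then c :: rest else a :: b :: c :: rest
    | m => a :: m

/-- A vertex list without backtracks. -/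
def Straight : List V → Prop
  | a :: b :: c :: l => c ≠ a ∧ Straight (b :: c :: l)
  | _ => True

theorem red_cons_of_ne {a b : V} {l r : List V} (hl : red l = b :: r)
    (hr : ∀ c r', r = c :: r' → c ≠ a) : red (a :: l) = a :: b :: r := by
  rw [red, hl]
  rcases r with _ | ⟨c, r⟩
  · rfl
  · simp [hr c r rfl]

theorem red_cons_cancel {a b : V} {l r : List V} (hl : red l = b :: a :: r) :
    red (a :: l) = a :: r := by
  rw [red, hl]; simp

theorem length_red_le : ∀ l : List V, (red l).length ≤ l.length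
  | [] => le_rfl
  | a :: l => by
    have ih := length_red_le l
    rw [red]
    split <;> [split_ifs; skip] <;> simp_all <;> omega

theorem head_walksL : ∀ {k : ℕ} {x y : V} {l : List V}, l ∈ walksL nb k x y →
    ∃ r, l = x :: r ∧ r.length = k := by
  intro k x y l hl
  induction k generalizing x l with
  | zero =>
    simp only [walksL] at hl
    split_ifs at hl <;> simp_all
  | succ k ih =>
    simp only [walksL, Finset.mem_biUnion, Finset.mem_image] at hl
    obtain ⟨z, -, l', hl', rfl⟩ := hl
    obtain ⟨r, rfl, hr⟩ := ih hl'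
    exact ⟨z :: r, rfl, by simp [hr]⟩

theorem cons_mem_walksL {k : ℕ} {x y z : V} {l : List V} (hz : z ∈ nb x)
    (hl : l ∈ walksL nb k z y) : x :: l ∈ walksL nb (k + 1) x y := by
  simp only [walksL, Finset.mem_biUnion, Finset.mem_image]
  exact ⟨z, hz, l, hl, rfl⟩

/-- The number of walks of length `n` that reduce to a given list. -/
def fib (nb : V → Finset V) (n : ℕ) (x y : V) (l : List V) : ℕ :=
  ((walksL nb n x y).filter fun l' => red l' = l).card

/-- A walk reducing to `a :: b :: r` steps to `b`, or makes an excursion to another neighbour. -/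
theorem fib_step (h : LF G nb) {a b y : V} {r : List V} (hb : b ∈ nb a)
    (hs : Straight (a :: b :: r)) (n : ℕ) :
    fib nb (n + 1) b y (b :: r) + ((nb a).card - 1) * fib nb n a y (a :: b :: r) ≤
      fib nb (n + 2) a y (a :: b :: r) := by
  set A := ((walksL nb (n + 1) b y).filter fun l' => red l' = b :: r).image (List.cons a)
  set B := ((nb a).erase b).biUnion fun z =>
    ((walksL nb n a y).filter fun l' => red l' = a :: b :: r).image fun l' => a :: z :: l'
  have hA : A ⊆ (walksL nb (n + 2) a y).filter fun l' => red l' = a :: b :: r := by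
    intro l hl
    obtain ⟨l', hl', rfl⟩ := Finset.mem_image.1 hl
    obtain ⟨hm, hr⟩ := Finset.mem_filter.1 hl'
    refine Finset.mem_filter.2 ⟨cons_mem_walksL hb hm, red_cons_of_ne hr ?_⟩
    rintro c r' rfl
    exact hs.1
  have hB : B ⊆ (walksL nb (n + 2) a y).filter fun l' => red l' = a :: b :: r := by
    intro l hl
    obtain ⟨z, hz, hl⟩ := Finset.mem_biUnion.1 hl
    obtain ⟨hzb, hza⟩ := Finset.mem_erase.1 hz
    obtain ⟨l', hl', rfl⟩ := Finset.mem_image.1 hl
    obtain ⟨hm, hr⟩ := Finset.mem_filter.1 hl'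
    refine Finset.mem_filter.2 ⟨cons_mem_walksL hza (cons_mem_walksL (h.symm.1 hza) hm),
      red_cons_cancel (b := z) (red_cons_of_ne hr ?_)⟩
    rintro c r' he
    obtain ⟨rfl, -⟩ := List.cons.inj he
    exact hzb.symm
  have hAB : Disjoint A B := by
    rw [Finset.disjoint_left]
    intro l hl hl'
    obtain ⟨z, hz, hl'⟩ := Finset.mem_biUnion.1 hl'
    obtain ⟨l1, hl1, rfl⟩ := Finset.mem_image.1 hl
    obtain ⟨l2, -, he⟩ := Finset.mem_image.1 hl'
    obtain ⟨r1, rfl, -⟩ := head_walksL (Finset.mem_filter.1 hl1).1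
    exact (Finset.mem_erase.1 hz).1 (List.cons.inj (List.cons.inj he).2).1
  refine le_trans (le_of_eq ?_) (Finset.card_le_card (Finset.union_subset hA hB))
  rw [Finset.card_union_of_disjoint hAB,
    Finset.card_image_of_injective _ List.cons_injective, Finset.card_biUnion]
  · rw [Finset.sum_congr rfl fun z _ => Finset.card_image_of_injective _
      (fun l1 l2 e => (List.cons.inj (List.cons.inj e).2).2), Finset.sum_const, smul_eq_mul,
      Finset.card_erase_of_mem hb]
    rfl
  · intro z _ z' _ hne
    rw [Function.onFun, Finset.disjoint_left]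
    intro l hl hl'
    obtain ⟨l1, -, rfl⟩ := Finset.mem_image.1 hl
    obtain ⟨l2, -, he⟩ := Finset.mem_image.1 hl'
    exact hne (List.cons.inj (List.cons.inj he).2).1.symm

/-- The generating function of the walks that reduce to a list. -/
noncomputable def gen (nb : V → Finset V) (s : ℝ) (x y : V) (l : List V) : ℝ≥0∞ :=
  ∑' n, ENNReal.ofReal (s ^ n) * (fib nb n x y l : ℝ≥0∞)

/-- Every straight list of length `L + 1` has generating function at least `t ^ L`. -/
theorem pow_le_gen (h : LF G nb) {D s t : ℝ} (hD : ∀ x, D ≤ (nb x).card) (hD1 : 1 ≤ D)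
    (hs : 0 ≤ s) (ht : 0 ≤ t) (hts : t * (1 - (D - 1) * s ^ 2) ≤ s) :
    ∀ (L : ℕ) (x y : V) (l : List V), l ∈ walksL nb L x y → Straight l →
      ENNReal.ofReal (t ^ L) ≤ gen nb s x y l
  | 0, x, y, l, hl, _ => by
    refine le_trans ?_ (ENNReal.le_tsum 0)
    have hred : red l = l := by
      simp only [walksL] at hl
      split_ifs at hl with hxy
      · rw [Finset.mem_singleton.1 hl]; rfl
      · simp at hl
    have h1 : 1 ≤ fib nb 0 x y l := Finset.card_pos.2 ⟨l, Finset.mem_filter.2 ⟨hl, hred⟩⟩
    simpa using h1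
  | L + 1, x, y, l, hl, hst => by
    simp only [walksL, Finset.mem_biUnion, Finset.mem_image] at hl
    obtain ⟨b, hb, l', hl', rfl⟩ := hl
    obtain ⟨r, rfl, -⟩ := head_walksL hl'
    have hst' : Straight (b :: r) := by
      rcases r with _ | ⟨c, r⟩
      · trivial
      · exact hst.2
    have ih := pow_le_gen h hD hD1 hs ht hts L b y (b :: r) hl' hst'
    set g := gen nb s x y (x :: b :: r) with hg
    set c := ENNReal.ofReal ((D - 1) * s ^ 2)
    have hstep : ENNReal.ofReal s * gen nb s b y (b :: r) + c * g ≤ g := by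
      set u : ℕ → ℝ≥0∞ := fun n => ENNReal.ofReal (s ^ n) * (fib nb n x y (x :: b :: r) : ℝ≥0∞)
      set v : ℕ → ℝ≥0∞ := fun n => ENNReal.ofReal (s ^ n) * (fib nb n b y (b :: r) : ℝ≥0∞)
      have h0 : fib nb 0 b y (b :: r) ≤ fib nb 1 x y (x :: b :: r) := by
        refine Finset.card_le_card_of_injOn (List.cons x) ?_ List.cons_injective.injOn
        intro l0 hl0
        obtain ⟨hm, hr⟩ := Finset.mem_filter.1 hl0
        refine Finset.mem_filter.2 ⟨cons_mem_walksL hb hm, red_cons_of_ne hr ?_⟩
        rintro c r' rfl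
        exact hst.1
      have e1 : ENNReal.ofReal s * gen nb s b y (b :: r) =
          ENNReal.ofReal s * v 0 + ∑' n, ENNReal.ofReal s * v (n + 1) := by
        rw [gen, tsum_eq_zero_add' ENNReal.summable, mul_add, ← ENNReal.tsum_mul_left]
      have e2 : g = u 0 + (u 1 + ∑' n, u (n + 2)) := by
        rw [hg, gen, tsum_eq_zero_add' ENNReal.summable, tsum_eq_zero_add' ENNReal.summable]
      rw [e1, show c * g = ∑' n, c * u n by rw [ENNReal.tsum_mul_left]; rfl, add_assoc,
        ← ENNReal.tsum_add, e2]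
      refine le_add_left (add_le_add ?_ (ENNReal.tsum_le_tsum fun n => ?_))
      · simp only [u, v, pow_zero, ENNReal.ofReal_one, one_mul, pow_one]
        exact mul_le_mul' le_rfl (Nat.cast_le.2 h0)
      · simp only [u, v, c]
        have h2 := fib_step (y := y) h hb hst n
        have hcard : (D - 1) ≤ (((nb x).card - 1 : ℕ) : ℝ) := by
          have : 1 ≤ (nb x).card := Finset.card_pos.2 ⟨b, hb⟩
          push_cast [this]
          linarith [hD x]
        rw [← ENNReal.ofReal_natCast, ← ENNReal.ofReal_natCast, ← ENNReal.ofReal_natCast,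
          ← ENNReal.ofReal_mul (pow_nonneg hs (n + 1)), ← ENNReal.ofReal_mul (pow_nonneg hs n),
          ← ENNReal.ofReal_mul (pow_nonneg hs (n + 2)), ← ENNReal.ofReal_mul hs,
          ← ENNReal.ofReal_mul (mul_nonneg (by linarith) (sq_nonneg s)),
          ← ENNReal.ofReal_add (by positivity)
            (mul_nonneg (mul_nonneg (by linarith) (sq_nonneg s)) (by positivity))]
        refine ENNReal.ofReal_le_ofReal ?_
        have h3 : (fib nb (n + 1) b y (b :: r) : ℝ) +
            (((nb x).card - 1 : ℕ) : ℝ) * fib nb n x y (x :: b :: r) ≤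
              fib nb (n + 2) x y (x :: b :: r) := by exact_mod_cast h2
        have h4 := mul_le_mul_of_nonneg_right hcard
          (Nat.cast_nonneg (α := ℝ) (fib nb n x y (x :: b :: r)))
        calc _ = s ^ (n + 2) * ((fib nb (n + 1) b y (b :: r) : ℝ) +
              (D - 1) * fib nb n x y (x :: b :: r)) := by ring
          _ ≤ s ^ (n + 2) * (fib nb (n + 2) x y (x :: b :: r) : ℝ) :=
              mul_le_mul_of_nonneg_left (by linarith) (by positivity)
    rcases eq_or_ne g ⊤ with htop | htop
    · rw [htop]; exact le_top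
    have hb' : gen nb s b y (b :: r) * ENNReal.ofReal s ≠ ⊤ := by
      rw [mul_comm]
      exact ne_top_of_le_ne_top htop (le_self_add.trans hstep)
    rw [ENNReal.ofReal_le_iff_le_toReal htop]
    have h5 : ENNReal.ofReal (s * t ^ L) + c * g ≤ g := by
      refine le_trans (add_le_add ?_ le_rfl) hstep
      rw [ENNReal.ofReal_mul hs]
      exact mul_le_mul' le_rfl ih
    have h6 := ENNReal.toReal_mono htop h5
    rw [ENNReal.toReal_add ENNReal.ofReal_ne_top (ENNReal.mul_ne_top ENNReal.ofReal_ne_top htop),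
      ENNReal.toReal_mul, ENNReal.toReal_ofReal (by positivity),
      ENNReal.toReal_ofReal (mul_nonneg (by linarith) (sq_nonneg s))] at h6
    have hgp : 0 ≤ g.toReal := ENNReal.toReal_nonneg
    rw [pow_succ]
    by_cases hc1 : (D - 1) * s ^ 2 < 1
    · have h7 := mul_le_mul_of_nonneg_left hts (pow_nonneg ht L)
      nlinarith
    · have h8 : s * t ^ L ≤ 0 := by nlinarith
      rcases eq_or_lt_of_le hs with rfl | hs'
      · simp at hc1
      · have : t ^ L ≤ 0 := by nlinarith
        nlinarith [pow_nonneg ht L]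

/-- A weighted count of straight lists is bounded by the weighted count of walks. -/
theorem sum_straight_le (h : LF G nb) {D s t : ℝ} (hD : ∀ x, D ≤ (nb x).card) (hD1 : 1 ≤ D)
    (hs : 0 ≤ s) (ht : 0 ≤ t) (hts : t * (1 - (D - 1) * s ^ 2) ≤ s) {x y : V}
    {w : ℕ → ℝ≥0∞} (hw : Monotone w) (I : Finset ℕ) (T : ℕ → Finset (List V))
    (hT : ∀ L ∈ I, ∀ l ∈ T L, l ∈ walksL nb L x y ∧ Straight l) :
    ∑ L ∈ I, ((T L).card : ℝ≥0∞) * (w L * ENNReal.ofReal (t ^ L)) ≤
      ∑' n, w n * (ENNReal.ofReal (s ^ n) * (W nb n x y : ℝ≥0∞)) := by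
  calc ∑ L ∈ I, ((T L).card : ℝ≥0∞) * (w L * ENNReal.ofReal (t ^ L))
      ≤ ∑ L ∈ I, ∑ l ∈ T L, w L * gen nb s x y l := by
        refine Finset.sum_le_sum fun L hL => ?_
        rw [← nsmul_eq_mul, ← Finset.sum_const]
        exact Finset.sum_le_sum fun l hl => mul_le_mul' le_rfl
          (pow_le_gen h hD hD1 hs ht hts L x y l (hT L hL l hl).1 (hT L hL l hl).2)
    _ = ∑' n, ∑ L ∈ I, ∑ l ∈ T L,
          w L * (ENNReal.ofReal (s ^ n) * (fib nb n x y l : ℝ≥0∞)) := by
        rw [Summable.tsum_finsetSum (fun _ _ => ENNReal.summable)]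
        refine Finset.sum_congr rfl fun L _ => ?_
        rw [Summable.tsum_finsetSum (fun _ _ => ENNReal.summable)]
        exact Finset.sum_congr rfl fun l _ => ENNReal.tsum_mul_left.symm
    _ ≤ _ := by
        refine ENNReal.tsum_le_tsum fun n => ?_
        have hzero : ∀ L ∈ I, ∀ l ∈ T L, n < L → fib nb n x y l = 0 := by
          intro L hL l hl hn
          refine Finset.card_eq_zero.2 (Finset.filter_eq_empty_iff.2 fun l' hl' he => ?_)
          obtain ⟨r1, rfl, hr1⟩ := head_walksL hl'
          obtain ⟨r2, rfl, hr2⟩ := head_walksL (hT L hL l hl).1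
          have := length_red_le (x :: r1)
          rw [he] at this
          simp at this
          omega
        calc ∑ L ∈ I, ∑ l ∈ T L, w L * (ENNReal.ofReal (s ^ n) * (fib nb n x y l : ℝ≥0∞))
            ≤ ∑ L ∈ I, ∑ l ∈ T L, w n * (ENNReal.ofReal (s ^ n) * (fib nb n x y l : ℝ≥0∞)) := by
              refine Finset.sum_le_sum fun L hL => Finset.sum_le_sum fun l hl => ?_
              by_cases hn : n < L
              · simp [hzero L hL l hl hn]
              · exact mul_le_mul' (hw (not_lt.1 hn)) le_rfl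
          _ = w n * (ENNReal.ofReal (s ^ n) *
                ((∑ q ∈ I.sigma T, fib nb n x y q.2 : ℕ) : ℝ≥0∞)) := by
              rw [Nat.cast_sum, Finset.sum_sigma]
              simp only [Finset.mul_sum]
          _ ≤ _ := by
              refine mul_le_mul' le_rfl (mul_le_mul' le_rfl (Nat.cast_le.2 ?_))
              refine le_trans ?_ (card_walksL_le n x y)
              unfold fib
              rw [← Finset.card_biUnion]
              · exact Finset.card_le_card (Finset.biUnion_subset.2 fun q _ => Finset.filter_subset _ _)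
              · intro q hq q' hq' hne
                rw [Function.onFun, Finset.disjoint_left]
                intro l hl hl'
                obtain ⟨hL, hqT⟩ := Finset.mem_sigma.1 hq
                obtain ⟨hL', hqT'⟩ := Finset.mem_sigma.1 hq'
                have e : q.2 = q'.2 := (Finset.mem_filter.1 hl).2.symm.trans (Finset.mem_filter.1 hl').2
                obtain ⟨r1, h1, hr1⟩ := head_walksL (hT _ hL _ hqT).1
                obtain ⟨r2, h2, hr2⟩ := head_walksL (hT _ hL' _ hqT').1
                rw [e, h2] at h1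
                obtain ⟨-, rfl⟩ := List.cons.inj h1
                exact hne (Sigma.ext (hr1.symm.trans hr2) (heq_of_eq e))

theorem card_edgesL_le : ∀ (a : V) (l : List V), (edgesL (a :: l)).card ≤ l.length
  | a, [] => by simp [edgesL]
  | a, b :: l => by
    rw [edgesL]
    exact (Finset.card_insert_le _ _).trans (Nat.succ_le_succ (card_edgesL_le b l))

/-- A list whose edges are distinct does not backtrack. -/
theorem straight_of_card : ∀ {a : V} {l : List V}, (edgesL (a :: l)).card = l.length →
    Straight (a :: l)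
  | a, [], _ => trivial
  | a, [b], _ => trivial
  | a, b :: c :: l, h => by
    have h1 := card_edgesL_le b (c :: l)
    have hne : s(a, b) ∉ edgesL (b :: c :: l) := by
      intro hm
      rw [edgesL, Finset.insert_eq_of_mem hm] at h
      simp at h h1
      omega
    refine ⟨fun e => hne ?_, straight_of_card ?_⟩
    · subst e
      simp [edgesL, Sym2.eq_swap]
    · rw [edgesL, Finset.card_insert_of_notMem hne] at h
      simp at h ⊢
      omega

omit [DecidableEq V] in
theorem geometric_tail {a : ℝ} (ha : 0 ≤ a) (ha1 : a < 1) (m : ℕ) :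
    ∑' i, ENNReal.ofReal (a ^ (i + m)) = ENNReal.ofReal ((1 - a)⁻¹ * a ^ m) := by
  have hg : HasSum (fun i => a ^ (i + m)) ((1 - a)⁻¹ * a ^ m) := by
    simpa [pow_add] using (hasSum_geometric_of_lt_one ha ha1).mul_right (a ^ m)
  rw [← ENNReal.ofReal_tsum_of_nonneg (fun i => pow_nonneg ha _) hg.summable, hg.tsum_eq]

theorem tail_le (_h : LF G nb) {s r : ℝ} (hs : 0 ≤ s) (hr : 0 ≤ r) (hsr : s * r < 1)
    (hW : ∀ k x y, (W nb k x y : ℝ) ≤ r ^ k) (x y : V) (m : ℕ) :
    ∑' n, (if m ≤ n then 1 else 0) * (ENNReal.ofReal (s ^ n) * (W nb n x y : ℝ≥0∞)) ≤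
      ENNReal.ofReal ((1 - s * r)⁻¹ * (s * r) ^ m) := by
  have hz : ∑ n ∈ Finset.range m, (if m ≤ n then (1 : ℝ≥0∞) else 0) *
      (ENNReal.ofReal (s ^ n) * (W nb n x y : ℝ≥0∞)) = 0 :=
    Finset.sum_eq_zero fun n hn => by simp [not_le.2 (Finset.mem_range.1 hn)]
  rw [← ENNReal.summable.sum_add_tsum_nat_add' (k := m), hz, zero_add,
    ← geometric_tail (mul_nonneg hs hr) hsr m]
  refine ENNReal.tsum_le_tsum fun i => ?_
  rw [if_pos (Nat.le_add_left m i), one_mul, ← ENNReal.ofReal_natCast,
    ← ENNReal.ofReal_mul (pow_nonneg hs _), mul_pow]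
  exact ENNReal.ofReal_le_ofReal (mul_le_mul_of_nonneg_left (hW _ x y) (pow_nonneg hs _))

variable [Countable V]

/-- The connection probability decays exponentially while the reduced walk series converges. -/
theorem tau_le_straight (h : LF G nb) {D s t r : ℝ} (hD : ∀ x, D ≤ (nb x).card) (hD1 : 1 ≤ D)
    (hs : 0 ≤ s) (ht : 0 ≤ t) (hts : t * (1 - (D - 1) * s ^ 2) ≤ s) (hr : 0 ≤ r)
    (hsr : s * r < 1) (hW : ∀ k x y, (W nb k x y : ℝ) ≤ r ^ k) {p : unitInterval}
    (hpt : (p : ℝ) ≤ t) {x y : V} {m : ℕ} (hm : ∀ q : G.Walk x y, m ≤ q.length) :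
    perc G p {ω | (openGraph G ω).Reachable x y} ≤
      ENNReal.ofReal ((1 - s * r)⁻¹ * (s * r) ^ m) := by
  classical
  set T : ℕ → Finset (List V) := fun L => (walksL nb L x y).filter fun l =>
    (edgesL l).card = L ∧ ∀ e ∈ edgesL l, e ∈ G.edgeSet
  set Ev : List V → Set (Set (Sym2 V)) := fun l => {ω | ∀ e ∈ edgesL l, e ∈ ω}
  have hsub : {ω | (openGraph G ω).Reachable x y} ⊆ ⋃ j, ⋃ l ∈ T (m + j), Ev l := by
    intro ω hω
    obtain ⟨q, hq⟩ := SimpleGraph.Reachable.exists_isPath hω
    have hle : openGraph G ω ≤ G := inf_le_left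
    have hlen := hm (q.mapLe hle)
    rw [SimpleGraph.Walk.length_map] at hlen
    obtain ⟨j, hj⟩ : ∃ j, q.length = m + j := ⟨q.length - m, by omega⟩
    have hedge : ∀ e ∈ edgesL q.support, e ∈ G.edgeSet ∧ e ∈ ω := by
      intro e he
      rw [edgesL_support, List.mem_toFinset] at he
      have := q.edges_subset_edgeSet he
      induction e using Sym2.ind with
      | _ a b =>
        simp only [SimpleGraph.mem_edgeSet, openGraph, SimpleGraph.inf_adj,
          SimpleGraph.fromEdgeSet_adj] at this ⊢
        exact ⟨this.1, this.2.1⟩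
    refine Set.mem_iUnion.2 ⟨j, Set.mem_iUnion₂.2 ⟨q.support, Finset.mem_filter.2
      ⟨hj ▸ mem_walksL h hle q, ?_, fun e he => (hedge e he).1⟩, fun e he => (hedge e he).2⟩⟩
    rw [edgesL_support, List.toFinset_card_of_nodup hq.isTrail.edges_nodup, q.length_edges, hj]
  have hEv : ∀ L, ∀ l ∈ T L, perc G p (Ev l) ≤ ENNReal.ofReal (t ^ L) := by
    intro L l hl
    obtain ⟨-, hc, hG⟩ := Finset.mem_filter.1 hl
    refine le_trans (measure_mono (t := {ω | edgesL l ⊆ (edgesL l).filter (· ∈ ω)}) ?_) ?_
    · intro ω hω e he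
      exact Finset.mem_filter.2 ⟨he, hω e he⟩
    · rw [perc_finite p hG (fun t => edgesL l ⊆ t), Pr_subset_eq, hc]
      exact ENNReal.ofReal_le_ofReal (pow_le_pow_left₀ p.2.1 hpt L)
  refine (measure_mono hsub).trans ((measure_iUnion_le _).trans ?_)
  rw [ENNReal.tsum_eq_iSup_nat]
  refine iSup_le fun N => ?_
  calc ∑ j ∈ Finset.range N, perc G p (⋃ l ∈ T (m + j), Ev l)
      ≤ ∑ j ∈ Finset.range N, ((T (m + j)).card : ℝ≥0∞) * ENNReal.ofReal (t ^ (m + j)) := by
        refine Finset.sum_le_sum fun j _ => (measure_biUnion_finset_le _ _).trans ?_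
        rw [← nsmul_eq_mul, ← Finset.sum_const]
        exact Finset.sum_le_sum fun l hl => hEv _ l hl
    _ = ∑ L ∈ (Finset.range N).image (m + ·), ((T L).card : ℝ≥0∞) *
          ((if m ≤ L then 1 else 0) * ENNReal.ofReal (t ^ L)) := by
        rw [Finset.sum_image fun a _ b _ e => Nat.add_left_cancel e]
        exact Finset.sum_congr rfl fun j _ => by simp
    _ ≤ ∑' n, (if m ≤ n then 1 else 0) * (ENNReal.ofReal (s ^ n) * (W nb n x y : ℝ≥0∞)) := by
        refine sum_straight_le h hD hD1 hs ht hts (w := fun n => if m ≤ n then 1 else 0) ?_ _ T ?_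
        · intro a b hab
          simp only
          split_ifs <;> first | exact le_rfl | exact bot_le | omega
        · intro L _ l hl
          obtain ⟨hl, hc, -⟩ := Finset.mem_filter.1 hl
          obtain ⟨r', rfl, hr'⟩ := head_walksL hl
          exact ⟨hl, straight_of_card (hc.trans hr'.symm)⟩
    _ ≤ _ := tail_le h hs hr hsr hW x y m

end Vale.Agent.P165
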