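import Vale.Agent.P165.Reduce

/-!
# The differential inequality with the edge to the parent removed
-/

namespace Vale.Agent.P165

open scoped ENNReal

variable {V : Type*} [DecidableEq V] {G : SimpleGraph V} {nb : V → Finset V}

theorem append_walksL : ∀ {j k : ℕ} {w x z y : V} {l m : List V}, l ∈ walksL nb j w x → z ∈ nb x →
    m ∈ walksL nb k z y → l ++ m ∈ walksL nb (j + 1 + k) w y ∧
      edgesL (l ++ m) = insert s(x, z) (edgesL l ∪ edgesL m) := by
  intro j k w x z y l m hl hz hm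
  induction j generalizing w l with
  | zero =>
    simp only [walksL] at hl
    split_ifs at hl with hwx
    · rw [Finset.mem_singleton] at hl
      subst hwx hl
      obtain ⟨r, rfl, -⟩ := head_walksL hm
      refine ⟨?_, by simp [edgesL]⟩
      rw [Nat.zero_add, Nat.add_comm 1]
      exact cons_mem_walksL hz hm
    · simp at hl
  | succ j ih =>
    simp only [walksL, Finset.mem_biUnion, Finset.mem_image] at hl
    obtain ⟨v, hv, l', hl', rfl⟩ := hl
    obtain ⟨h1, h2⟩ := ih hl'
    obtain ⟨r, rfl, -⟩ := head_walksL hl'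
    refine ⟨?_, ?_⟩
    · rw [show j + 1 + 1 + k = j + 1 + k + 1 by omega, List.cons_append]
      exact cons_mem_walksL hv h1
    · rw [List.cons_append] at h2
      simp only [List.cons_append, edgesL, h2, Finset.insert_union]
      rw [Finset.insert_comm]

theorem reverse_walksL (h : LF G nb) : ∀ {k : ℕ} {x y : V} {l : List V},
    l ∈ walksL nb k x y → l.reverse ∈ walksL nb k y x ∧ edgesL l.reverse = edgesL l := by
  intro k x y l hl
  induction k generalizing x l with
  | zero =>
    simp only [walksL] at hl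
    split_ifs at hl with hxy
    · rw [Finset.mem_singleton] at hl
      subst hxy hl
      exact ⟨by simp [walksL], rfl⟩
    · simp at hl
  | succ k ih =>
    simp only [walksL, Finset.mem_biUnion, Finset.mem_image] at hl
    obtain ⟨v, hv, l', hl', rfl⟩ := hl
    obtain ⟨h1, h2⟩ := ih hl'
    obtain ⟨h3, h4⟩ := append_walksL h1 (h.symm.1 hv) (m := [x]) (k := 0) (y := x)
      (by simp [walksL])
    rw [List.reverse_cons]
    refine ⟨by simpa using h3, ?_⟩
    rw [h4, h2, Sym2.eq_swap]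
    obtain ⟨r, rfl, -⟩ := head_walksL hl'
    simp [edgesL]

theorem last_walksL : ∀ {k : ℕ} {w x x' : V} {l : List V}, l ∈ walksL nb k w x →
    l ∈ walksL nb k w x' → x = x' := by
  intro k w x x' l h1 h2
  induction k generalizing w l with
  | zero =>
    simp only [walksL] at h1 h2
    split_ifs at h1 h2 <;> simp_all
  | succ k ih =>
    simp only [walksL, Finset.mem_biUnion, Finset.mem_image] at h1 h2
    obtain ⟨v, -, l1, hl1, rfl⟩ := h1
    obtain ⟨v', -, l2, hl2, he⟩ := h2
    obtain ⟨-, rfl⟩ := List.cons.inj he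
    obtain ⟨r1, h1', -⟩ := head_walksL hl1
    obtain ⟨r2, h2', -⟩ := head_walksL hl2
    rw [h1'] at h2'
    obtain ⟨rfl, -⟩ := List.cons.inj h2'
    exact ih hl1 hl2

/-- The closed walks with distinct edges. -/
def trailsL (nb : V → Finset V) (n : ℕ) (w : V) : Finset (List V) :=
  (walksL nb n w w).filter fun l => (edgesL l).card = n

/-- The weighted count of closed trails. -/
noncomputable def tbubble (nb : V → Finset V) (p : ℝ) (n : ℕ) (w : V) : ℝ :=
  ∑ j ∈ Finset.range n, ∑ k ∈ Finset.range n, p ^ (j + k + 1) * ((trailsL nb (j + k + 1) w).card : ℝ)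

/-- The pairs of disjoint paths from `w` to the ends of an edge, avoiding that edge. -/
def pairs (nb : V → Finset V) (j k : ℕ) (w x z : V) : Finset (List V × List V) :=
  (walksL nb j w x ×ˢ walksL nb k w z).filter fun q =>
    (edgesL q.1 ∪ edgesL q.2).card = j + k ∧ s(x, z) ∉ edgesL q.1 ∪ edgesL q.2

theorem sum_pairs_le (h : LF G nb) (S : Finset V) (j k : ℕ) (w : V) :
    ∑ x ∈ S, ∑ z ∈ nb x ∩ S, (pairs nb j k w x z).card ≤ (trailsL nb (j + k + 1) w).card := by
  have hsig : ∀ x, ∑ z ∈ nb x ∩ S, (pairs nb j k w x z).card =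
      ((nb x ∩ S).sigma fun z => pairs nb j k w x z).card := fun x => (Finset.card_sigma _ _).symm
  rw [Finset.sum_congr rfl fun x _ => hsig x, ← Finset.card_sigma]
  refine Finset.card_le_card_of_injOn (fun q => q.2.2.1 ++ q.2.2.2.reverse) ?_ ?_
  · rintro ⟨x, z, l, m⟩ hq
    obtain ⟨-, hq⟩ := Finset.mem_sigma.1 hq
    obtain ⟨hz, hq⟩ := Finset.mem_sigma.1 hq
    obtain ⟨hlm, hc, he⟩ := Finset.mem_filter.1 hq
    obtain ⟨hl, hm⟩ := Finset.mem_product.1 hlm
    obtain ⟨hm', hme⟩ := reverse_walksL h hm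
    obtain ⟨h1, h2⟩ := append_walksL hl (Finset.mem_inter.1 hz).1 hm'
    refine Finset.mem_filter.2 ⟨?_, ?_⟩
    · rw [show j + k + 1 = j + 1 + k by omega]; exact h1
    · rw [h2, hme, Finset.card_insert_of_notMem he, hc]
  · rintro ⟨x, z, l, m⟩ hq ⟨x', z', l', m'⟩ hq' (heq : l ++ m.reverse = l' ++ m'.reverse)
    obtain ⟨-, hq⟩ := Finset.mem_sigma.1 hq
    obtain ⟨hz, hq⟩ := Finset.mem_sigma.1 hq
    obtain ⟨hl, hm⟩ := Finset.mem_product.1 (Finset.mem_filter.1 hq).1
    obtain ⟨-, hq'⟩ := Finset.mem_sigma.1 hq'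
    obtain ⟨hz', hq'⟩ := Finset.mem_sigma.1 hq'
    obtain ⟨hl', hm'⟩ := Finset.mem_product.1 (Finset.mem_filter.1 hq').1
    simp only at hl hm hl' hm'
    obtain ⟨r, hr, hrl⟩ := head_walksL hl
    obtain ⟨r', hr', hrl'⟩ := head_walksL hl'
    obtain ⟨h1, h2⟩ := List.append_inj heq (by simp [hr, hr', hrl, hrl'])
    have h3 := List.reverse_injective h2
    subst h1 h3
    obtain rfl := last_walksL hl hl'
    obtain rfl := last_walksL hm hm'
    rfl

theorem Pr_erase_le {E : Finset (Sym2 V)} {e : Sym2 V} (he : e ∈ E) {p : ℝ} (h0 : 0 ≤ p)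
    (h1 : p ≤ 1) {A : Finset (Sym2 V) → Prop} (hA : Monotone A) :
    Pr (E.erase e) p A ≤ Pr E p A := by
  conv_rhs => rw [← Finset.insert_erase he, Pr_insert (Finset.notMem_erase e E)]
  have := mul_le_mul_of_nonneg_left (Pr_mono (E := E.erase e) h0 h1 (A := A)
    (B := fun s => A (insert e s)) fun s _ hs => hA (Finset.subset_insert e s) hs) h0
  nlinarith

/-- The connection probability of the two ends of a deleted edge. -/
theorem pair_trail (h : LF G nb) {S : Finset V} {p : ℝ} (h0 : 0 ≤ p) (h1 : p ≤ 1) {o : V}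
    (ho : o ∈ S) {x z : V} (he : s(x, z) ∈ edgesIn nb S) :
    Pr ((edgesIn nb S).erase s(x, z)) p (fun s => Conn o x s ∧ Conn o z s) ≤
      ∑ w ∈ S, Pr (edgesIn nb S) p (Conn o w) * ∑ j ∈ Finset.range S.card,
        ∑ k ∈ Finset.range S.card, p ^ (j + k) * ((pairs nb j k w x z).card : ℝ) := by
  set E := edgesIn nb S
  set E' := E.erase s(x, z) with hE'
  let n := S.card
  refine (Pr_mono h0 h1 (B := fun s => ∃ w ∈ S, ∃ j ∈ Finset.range n, ∃ k ∈ Finset.range n,
    ∃ q ∈ pairs nb j k w x z, edgesL q.1 ∪ edgesL q.2 ⊆ s ∧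
      Conn o w (s \ (edgesL q.1 ∪ edgesL q.2))) fun s hs hh => ?_).trans ?_
  · obtain ⟨w, hw, j, hj, k, hk, l, hl, m, hm, hc, hsub, hcn⟩ :=
      tree_graph h (hs.trans (Finset.erase_subset _ _)) ho hh.1 hh.2
    exact ⟨w, hw, j, Finset.mem_range.2 hj, k, Finset.mem_range.2 hk, (l, m),
      Finset.mem_filter.2 ⟨Finset.mem_product.2 ⟨hl, hm⟩, hc,
        fun hmem => Finset.notMem_erase _ _ (hs (hsub hmem))⟩, hsub, hcn⟩
  refine (Pr_exists h0 h1 S _).trans (Finset.sum_le_sum fun w _ => ?_)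
  rw [Finset.mul_sum]
  refine (Pr_exists h0 h1 _ _).trans (Finset.sum_le_sum fun j _ => ?_)
  rw [Finset.mul_sum]
  refine (Pr_exists h0 h1 _ _).trans (Finset.sum_le_sum fun k _ => ?_)
  refine (Pr_exists h0 h1 _ _).trans ((Finset.sum_le_sum (g := fun _ => p ^ (j + k) *
    Pr E p (Conn o w)) fun q hq => ?_).trans_eq ?_)
  · obtain ⟨-, hc, -⟩ := Finset.mem_filter.1 hq
    set F := edgesL q.1 ∪ edgesL q.2
    by_cases hF : F ⊆ E'
    · rw [Pr_subset_and hF _ (fun s _ => by rw [Finset.sdiff_idem]), hc]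
      refine mul_le_mul_of_nonneg_left (le_trans ((Pr_congr fun s hs => ?_).trans_le
        (Pr_sdiff_le hF h0 h1 (conn_mono o w))) (Pr_erase_le he h0 h1 (conn_mono o w)))
        (pow_nonneg h0 _)
      rw [Finset.sdiff_eq_self_of_disjoint (Finset.disjoint_of_subset_left hs
        Finset.sdiff_disjoint)]
    · rw [Pr_congr (B := fun _ => False) fun s hs => ⟨fun hh => hF (hh.1.trans hs),
        False.elim⟩, Pr_false]
      exact mul_nonneg (pow_nonneg h0 _) (Pr_nonneg h0 h1 _)
  · rw [Finset.sum_const, nsmul_eq_mul]; ring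

theorem conn_insert_iff {s : Finset (Sym2 V)} {o x z : V} (hne : x ≠ z) :
    Conn o x (insert s(x, z) s) ↔ Conn o x s ∨ Conn o z s := by
  constructor
  · intro hc
    have hP := conn_closed (P := fun v => Conn o v s ∨ Conn o x s ∨ Conn o z s) ?_ hc
      (Or.inl (SimpleGraph.Reachable.refl _))
    · rcases hP with h | h | h <;> simp [h]
    intro a b ha hab
    obtain ⟨hm, hab'⟩ := edgeGraph_adj.1 hab
    rcases ha with ha | ha
    · rcases Finset.mem_insert.1 hm with he | hm
      · rcases Sym2.eq_iff.1 he with ⟨rfl, -⟩ | ⟨rfl, -⟩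
        · exact Or.inr (Or.inl ha)
        · exact Or.inr (Or.inr ha)
      · exact Or.inl (ha.trans (SimpleGraph.Adj.reachable (edgeGraph_adj.2 ⟨hm, hab'⟩)))
    · exact Or.inr ha
  · rintro (hc | hc)
    · exact conn_mono o x (Finset.subset_insert _ _) hc
    · exact (conn_mono o z (Finset.subset_insert _ _) hc).trans
        (SimpleGraph.Adj.reachable (edgeGraph_adj.2
          ⟨by rw [Sym2.eq_swap]; exact Finset.mem_insert_self _ _, hne.symm⟩))

open Classical in
/-- Above `1 / (D - 1)` every finite set has at least one expected open edge leaving. -/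
theorem le_phi_trail (h : LF G nb) {p δ D : ℝ} (h0 : 0 ≤ p) (h1 : p ≤ 1)
    (hD : ∀ x, D ≤ (nb x).card) (hb : ∀ n w, tbubble nb p n w ≤ δ)
    (hp : 1 + δ ≤ p * (D - 1)) {S : Finset V} {o : V} (ho : o ∈ S) : 1 ≤ phi nb S p o := by
  set E := edgesIn nb S with hE
  set χ := ∑ x ∈ S, Pr E p (Conn o x) with hχd
  have hχ : 0 ≤ χ := Finset.sum_nonneg fun _ _ => Pr_nonneg h0 h1 _
  set a : V → V → ℝ := fun x z => Pr (E.erase s(x, z)) p (fun s => Conn o x s ∧ ¬ Conn o z s)
  set b : V → V → ℝ := fun x z => Pr (E.erase s(x, z)) p (fun s => Conn o x s ∧ Conn o z s)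
  have heE : ∀ x ∈ S, ∀ z ∈ nb x ∩ S, s(x, z) ∈ E := fun x hx z hz =>
    (mem_edgesIn h).2 ⟨h.mem.1 (Finset.mem_inter.1 hz).1, hx, (Finset.mem_inter.1 hz).2⟩
  -- conditioning on the edge
  have hsplit : ∀ x ∈ S, ∀ z ∈ nb x ∩ S, Pr E p (Conn o x) = a x z + b x z + p * a z x := by
    intro x hx z hz
    have hne := (h.mem.1 (Finset.mem_inter.1 hz).1).ne
    simp only [a, b]
    rw [Sym2.eq_swap (a := z) (b := x)]
    set e := s(x, z)
    set E' := E.erase e
    conv_lhs => rw [← Finset.insert_erase (heE x hx z hz), Pr_insert (Finset.notMem_erase e E)]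
    have e1 : Pr E' p (fun s => Conn o x (insert e s)) =
        Pr E' p (Conn o x) + Pr E' p (fun s => Conn o z s ∧ ¬ Conn o x s) := by
      rw [Pr_congr (B := fun s => Conn o x s ∨ Conn o z s) fun s _ => conn_insert_iff hne,
        Pr_split (A := fun s => Conn o x s ∨ Conn o z s) (Conn o x)]
      congr 1 <;> exact Pr_congr fun s _ => by tauto
    have e2 := Pr_split (E := E') (p := p) (A := Conn o x) (Conn o z)
    rw [e1, e2]
    ring
  -- cut edges
  have hcut : p * ∑ x ∈ S, ∑ z ∈ nb x ∩ S, a x z ≤ χ - 1 := by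
    have hxz : ∀ x ∈ S, ∀ z ∈ nb x ∩ S, p * a x z ≤ Pr E p (CutEdge o x z) := by
      intro x hx z hz
      simp only [a]
      set e := s(x, z) with he
      set E' := E.erase e
      have hs' : ∀ s ⊆ E', e ∉ s := fun s hs hh => Finset.notMem_erase e E (hs hh)
      conv_rhs => rw [← Finset.insert_erase (heE x hx z hz), Pr_insert (Finset.notMem_erase e E)]
      have z1 : Pr E' p (fun s => CutEdge o x z s) = 0 :=
        (Pr_congr fun s hs => ⟨fun hc => hs' s hs hc.1, False.elim⟩).trans Pr_false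
      have e3 : Pr E' p (fun s => CutEdge o x z (insert e s)) =
          Pr E' p (fun s => Conn o x s ∧ ¬ Conn o z s) := Pr_congr fun s hs => by
        simp [CutEdge, ← he, Finset.erase_insert (hs' s hs)]
      rw [z1, e3]
      simp [E', E]
    refine le_trans ?_ (?_ : ∑ x ∈ S, ∑ z ∈ nb x ∩ S, Pr E p (CutEdge o x z) ≤ χ - 1)
    · simp only [Finset.mul_sum]
      exact Finset.sum_le_sum fun x hx => Finset.sum_le_sum fun z hz => hxz x hx z hz
    rw [hχd, show ((1 : ℝ)) = Pr E p (fun _ => True) by rw [Pr_true]]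
    simp only [Pr, if_true]
    rw [Finset.sum_congr rfl fun x (_ : x ∈ S) => Finset.sum_comm, Finset.sum_comm,
      Finset.sum_comm (s := S)]
    rw [← Finset.sum_sub_distrib]
    refine Finset.sum_le_sum fun s _ => ?_
    have hw : 0 ≤ p ^ s.card * (1 - p) ^ (E.card - s.card) :=
      mul_nonneg (pow_nonneg h0 _) (pow_nonneg (by linarith) _)
    have := mul_le_mul_of_nonneg_left
      (card_cut_le h (f := fun _ => (1 : ℝ)) (fun _ => zero_le_one) ho s) hw
    simp only [Finset.mul_sum, mul_sub, mul_ite, mul_zero, mul_one] at this ⊢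
    exact this
  -- both ends joined: closed trails
  have hbub : p * ∑ x ∈ S, ∑ z ∈ nb x ∩ S, b x z ≤ δ * χ := by
    set n := S.card
    calc p * ∑ x ∈ S, ∑ z ∈ nb x ∩ S, b x z
        ≤ p * ∑ x ∈ S, ∑ z ∈ nb x ∩ S, ∑ w ∈ S, Pr E p (Conn o w) * ∑ j ∈ Finset.range n,
            ∑ k ∈ Finset.range n, p ^ (j + k) * ((pairs nb j k w x z).card : ℝ) :=
          mul_le_mul_of_nonneg_left (Finset.sum_le_sum fun x hx => Finset.sum_le_sum fun z hz =>
            pair_trail h h0 h1 ho (heE x hx z hz)) h0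
      _ = ∑ w ∈ S, Pr E p (Conn o w) * ∑ j ∈ Finset.range n, ∑ k ∈ Finset.range n,
            p ^ (j + k + 1) * ∑ x ∈ S, ∑ z ∈ nb x ∩ S, ((pairs nb j k w x z).card : ℝ) := by
          simp only [Finset.mul_sum]
          rw [Finset.sum_congr rfl fun x (_ : x ∈ S) => Finset.sum_comm (s := nb x ∩ S) (t := S),
            Finset.sum_comm]
          refine Finset.sum_congr rfl fun w _ => ?_
          rw [Finset.sum_congr rfl fun x (_ : x ∈ S) => Finset.sum_comm (s := nb x ∩ S),
            Finset.sum_comm]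
          refine Finset.sum_congr rfl fun j _ => ?_
          rw [Finset.sum_congr rfl fun x (_ : x ∈ S) => Finset.sum_comm (s := nb x ∩ S),
            Finset.sum_comm]
          exact Finset.sum_congr rfl fun k _ => Finset.sum_congr rfl fun x _ =>
            Finset.sum_congr rfl fun z _ => by ring
      _ ≤ ∑ w ∈ S, Pr E p (Conn o w) * δ := by
          refine Finset.sum_le_sum fun w _ => mul_le_mul_of_nonneg_left
            (le_trans (Finset.sum_le_sum fun j _ => Finset.sum_le_sum fun k _ => ?_) (hb n w))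
            (Pr_nonneg h0 h1 _)
          exact mul_le_mul_of_nonneg_left (by exact_mod_cast sum_pairs_le h S j k w)
            (pow_nonneg h0 _)
      _ = δ * χ := by rw [← Finset.sum_mul, mul_comm]
  -- summing over the edges at `x`
  have hswap : ∑ x ∈ S, ∑ z ∈ nb x ∩ S, a z x = ∑ x ∈ S, ∑ z ∈ nb x ∩ S, a x z := by
    refine Finset.sum_comm' fun u v => ?_
    simp only [Finset.mem_inter, h.symm (x := u) (y := v)]
    tauto
  have htot : D * χ ≤ ∑ x ∈ S, ∑ z ∈ nb x ∩ S, Pr E p (Conn o x) +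
      ∑ x ∈ S, Pr E p (Conn o x) * (((nb x).filter (· ∉ S)).card : ℝ) := by
    rw [hχd, Finset.mul_sum, ← Finset.sum_add_distrib]
    refine Finset.sum_le_sum fun x _ => ?_
    rw [Finset.sum_const, nsmul_eq_mul, mul_comm ((nb x ∩ S).card : ℝ), ← mul_add, mul_comm D]
    refine mul_le_mul_of_nonneg_left ((hD x).trans (le_of_eq ?_)) (Pr_nonneg h0 h1 _)
    have e3 := Finset.card_filter_add_card_filter_not (s := nb x) (· ∈ S)
    rw [Finset.filter_mem_eq_inter] at e3
    exact_mod_cast e3.symm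
  rw [Finset.sum_congr rfl fun x hx => Finset.sum_congr rfl fun z hz => hsplit x hx z hz] at htot
  simp only [Finset.sum_add_distrib, ← Finset.mul_sum] at htot
  rw [hswap] at htot
  have hphi : phi nb S p o =
      p * ∑ x ∈ S, Pr E p (Conn o x) * (((nb x).filter (· ∉ S)).card : ℝ) := rfl
  have k1 := mul_le_mul_of_nonneg_left htot h0
  have k2 := mul_le_mul_of_nonneg_left hcut (by linarith : (0 : ℝ) ≤ 1 + p)
  have k3 : 0 ≤ (p * (D - 1) - 1 - δ) * χ := mul_nonneg (by linarith) hχ
  rw [hphi]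
  nlinarith

/-! ### Walk counts -/

theorem W_split : ∀ (j k : ℕ) (x y : V) (T : Finset V),
    (∀ z, W nb j x z ≠ 0 → z ∈ T) → W nb (j + k) x y = ∑ z ∈ T, W nb j x z * W nb k z y
  | 0, k, x, y, T, hT => by
    rw [Nat.zero_add]
    simp only [W, ite_mul, one_mul, zero_mul, Finset.sum_ite_eq]
    rw [if_pos (hT x (by simp [W]))]
  | j + 1, k, x, y, T, hT => by
    rw [Nat.add_right_comm]
    simp only [W, Finset.sum_mul]
    rw [Finset.sum_comm]
    refine Finset.sum_congr rfl fun u hu => W_split j k u y T fun z hz => hT z ?_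
    simp only [W, ne_eq, Finset.sum_eq_zero_iff, not_forall]
    exact ⟨u, hu, hz⟩

theorem W_sq_le (h : LF G nb) (i j : ℕ) (w : V) :
    (W nb (i + j) w w : ℝ) ^ 2 ≤ W nb (i + i) w w * W nb (j + j) w w := by
  have hmem : ∀ n z, W nb n w z ≠ 0 → z ∈ reach nb n w := fun n z hz => by
    by_contra hr
    exact hz ((W_comm h n w z).trans (W_eq_zero h n z w hr))
  set T := reach nb i w ∪ reach nb j w
  have hi : ∀ z, W nb i w z ≠ 0 → z ∈ T := fun z hz => Finset.mem_union_left _ (hmem i z hz)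
  have hj : ∀ z, W nb j w z ≠ 0 → z ∈ T := fun z hz => Finset.mem_union_right _ (hmem j z hz)
  rw [W_split i j w w T hi, W_split i i w w T hi, W_split j j w w T hj]
  simp only [W_comm h i _ w, W_comm h j _ w]
  push_cast
  simp only [← pow_two]
  exact Finset.sum_mul_sq_le_sq_mul_sq _ _ _

/-- Return numbers at most double their exponent by a factor `r ^ 2`. -/
theorem W_even_step (h : LF G nb) {r : ℝ} (hr : 0 < r) (hW : ∀ k x y, (W nb k x y : ℝ) ≤ r ^ k)
    (m : ℕ) (w : V) : (W nb (m + 1 + (m + 1)) w w : ℝ) ≤ r ^ 2 * W nb (m + m) w w := by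
  set u : ℕ → ℝ := fun i => (W nb (i + i) w w : ℝ)
  have h2 : ∀ i, u (i + 1) ^ 2 ≤ u i * u (i + 2) := fun i => by
    have := W_sq_le h i (i + 2) w
    rwa [show i + (i + 2) = i + 1 + (i + 1) by omega] at this
  show u (m + 1) ≤ r ^ 2 * u m
  by_contra hlt
  rw [not_le] at hlt
  have hu0 : ∀ i, 0 ≤ u i := fun i => Nat.cast_nonneg _
  rcases eq_or_lt_of_le (hu0 m) with h0 | h0
  · have := h2 m
    rw [← h0] at this hlt
    nlinarith
  set q := u (m + 1) / u m
  have hq : r ^ 2 < q := (lt_div_iff₀ h0).2 hlt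
  have hq0 : 0 < q := lt_of_le_of_lt (sq_nonneg r) hq
  have key : ∀ i, q * u (m + i) ≤ u (m + i + 1) ∧ q ^ i * u m ≤ u (m + i) := by
    intro i
    induction i with
    | zero => exact ⟨(div_mul_cancel₀ _ h0.ne').le, by simp⟩
    | succ i ih =>
      have hpos : 0 < u (m + i) := lt_of_lt_of_le (mul_pos (pow_pos hq0 i) h0) ih.2
      refine ⟨?_, ?_⟩
      · refine le_of_mul_le_mul_left ?_ hpos
        calc u (m + i) * (q * u (m + (i + 1))) = (q * u (m + i)) * u (m + i + 1) := by
              rw [← Nat.add_assoc]; ring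
          _ ≤ u (m + i + 1) * u (m + i + 1) := mul_le_mul_of_nonneg_right ih.1 (hu0 _)
          _ ≤ u (m + i) * u (m + i + 2) := by rw [← pow_two]; exact h2 _
          _ = _ := by rw [show m + (i + 1) + 1 = m + i + 2 by omega]
      · calc q ^ (i + 1) * u m = q * (q ^ i * u m) := by ring
          _ ≤ q * u (m + i) := mul_le_mul_of_nonneg_left ih.2 hq0.le
          _ ≤ u (m + i + 1) := ih.1
  obtain ⟨i, hi⟩ := pow_unbounded_of_one_lt (r ^ (m + m) / u m)
    ((one_lt_div (pow_pos hr 2)).2 hq)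
  have h3 := (key i).2.trans (hW _ w w)
  rw [div_pow, div_lt_div_iff₀ h0 (by positivity)] at hi
  rw [show m + i + (m + i) = m + m + 2 * i by omega, pow_add, pow_mul] at h3
  linarith

/-- Past an even length, return numbers grow at most like `r ^ n`. -/
theorem W_return_growth (h : LF G nb) {r : ℝ} (hr : 0 < r)
    (hW : ∀ k x y, (W nb k x y : ℝ) ≤ r ^ k) (m : ℕ) (w : V) :
    ∀ n, (W nb (m + m + n) w w : ℝ) ≤ r ^ n * W nb (m + m) w w := by
  have heven : ∀ i, (W nb (m + i + (m + i)) w w : ℝ) ≤ r ^ (i + i) * W nb (m + m) w w := by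
    intro i
    induction i with
    | zero => simp
    | succ i ih =>
      refine (W_even_step h hr hW (m + i) w).trans ?_
      calc r ^ 2 * (W nb (m + i + (m + i)) w w : ℝ)
          ≤ r ^ 2 * (r ^ (i + i) * W nb (m + m) w w) := mul_le_mul_of_nonneg_left ih (sq_nonneg r)
        _ = _ := by ring
  intro n
  obtain ⟨i, hi | hi⟩ := Nat.even_or_odd' n
  · subst hi
    have := heven i
    rw [show m + i + (m + i) = m + m + 2 * i by omega, ← two_mul i] at this
    exact this
  · subst hi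
    have h1 := heven i
    have h2 := heven (i + 1)
    have h3 := W_sq_le h (m + i) (m + (i + 1)) w
    rw [show m + i + (m + (i + 1)) = m + m + (2 * i + 1) by omega] at h3
    refine (pow_le_pow_iff_left₀ (Nat.cast_nonneg _) (by positivity) two_ne_zero).1 (h3.trans ?_)
    refine (mul_le_mul h1 h2 (Nat.cast_nonneg _) (by positivity)).trans_eq ?_
    ring

end Vale.Agent.P165
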