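import Vale.Agent.P165.Kernel
import Vale.Agent.P165.Finite

/-!
# Clusters in a finite set: few cut edges, and the tree-graph bound by fixed paths
-/

namespace Vale.Agent.P165

variable {V : Type*} [DecidableEq V] {G : SimpleGraph V} {nb : V → Finset V}

/-- The vertex lists of the walks of length `k` from `x` to `y`. -/
def walksL (nb : V → Finset V) : ℕ → V → V → Finset (List V)
  | 0, x, y => if x = y then {[x]} else ∅
  | k + 1, x, y => (nb x).biUnion fun z => (walksL nb k z y).image (List.cons x)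

/-- The set of edges along a vertex list. -/
def edgesL : List V → Finset (Sym2 V)
  | a :: b :: l => insert s(a, b) (edgesL (b :: l))
  | _ => ∅

theorem card_walksL_le : ∀ (k : ℕ) (x y : V), (walksL nb k x y).card ≤ W nb k x y
  | 0, x, y => by by_cases h : x = y <;> simp [walksL, W, h]
  | k + 1, x, y => Finset.card_biUnion_le.trans (Finset.sum_le_sum fun z _ =>
      Finset.card_image_le.trans (card_walksL_le k z y))

theorem mem_walksL (h : LF G nb) {H : SimpleGraph V} (hH : H ≤ G) {x y : V} (p : H.Walk x y) :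
    p.support ∈ walksL nb p.length x y := by
  induction p with
  | nil => simp [walksL]
  | @cons u v w hu q ih =>
    simp only [SimpleGraph.Walk.support_cons, SimpleGraph.Walk.length_cons, walksL,
      Finset.mem_biUnion, Finset.mem_image]
    exact ⟨v, h.mem.2 (hH hu), q.support, ih, rfl⟩

theorem edgesL_support {H : SimpleGraph V} {x y : V} (p : H.Walk x y) :
    edgesL p.support = p.edges.toFinset := by
  induction p with
  | nil => simp [edgesL]
  | @cons u v w hu q ih =>
    rw [SimpleGraph.Walk.support_cons, SimpleGraph.Walk.edges_cons, List.toFinset_cons, ← ih,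
      q.support_eq_cons]
    rfl

/-- The edges with both ends in `S`. -/
def edgesIn (nb : V → Finset V) (S : Finset V) : Finset (Sym2 V) :=
  S.biUnion fun x => (nb x ∩ S).image fun y => s(x, y)

/-- The graph of a finite set of edges. -/
def edgeGraph (s : Finset (Sym2 V)) : SimpleGraph V :=
  SimpleGraph.fromEdgeSet (s : Set (Sym2 V))

/-- Two vertices are joined by the edges of `s`. -/
def Conn (x y : V) (s : Finset (Sym2 V)) : Prop := (edgeGraph s).Reachable x y

theorem conn_mono (x y : V) : Monotone (Conn x y) := fun _ _ hs h =>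
  SimpleGraph.Reachable.mono (SimpleGraph.fromEdgeSet_mono (Finset.coe_subset.2 hs)) h

theorem mem_edgesIn (h : LF G nb) {S : Finset V} {x y : V} :
    s(x, y) ∈ edgesIn nb S ↔ G.Adj x y ∧ x ∈ S ∧ y ∈ S := by
  simp only [edgesIn, Finset.mem_biUnion, Finset.mem_image, Finset.mem_inter, Sym2.eq_iff, h.mem]
  constructor
  · rintro ⟨a, ha, b, ⟨hab, hb⟩, ⟨rfl, rfl⟩ | ⟨rfl, rfl⟩⟩
    exacts [⟨hab, ha, hb⟩, ⟨hab.symm, hb, ha⟩]
  · rintro ⟨hxy, hx, hy⟩
    exact ⟨x, hx, y, ⟨hxy, hy⟩, Or.inl ⟨rfl, rfl⟩⟩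

theorem edgeGraph_adj {s : Finset (Sym2 V)} {x y : V} :
    (edgeGraph s).Adj x y ↔ s(x, y) ∈ s ∧ x ≠ y := SimpleGraph.fromEdgeSet_adj _

theorem edgeGraph_le (h : LF G nb) {S : Finset V} {s : Finset (Sym2 V)}
    (hs : s ⊆ edgesIn nb S) : edgeGraph s ≤ G :=
  fun _ _ hxy => ((mem_edgesIn h).1 (hs (edgeGraph_adj.1 hxy).1)).1

theorem edgeGraph_mem (h : LF G nb) {S : Finset V} {s : Finset (Sym2 V)}
    (hs : s ⊆ edgesIn nb S) {x y : V} (p : (edgeGraph s).Walk x y) (hx : x ∈ S) :
    ∀ v ∈ p.support, v ∈ S := by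
  induction p with
  | nil => simpa using hx
  | @cons u v w hu q ih =>
    have hv := ((mem_edgesIn h).1 (hs (edgeGraph_adj.1 hu).1)).2.2
    simpa [hx] using ih hv

theorem walk_edges_subset {s : Finset (Sym2 V)} {x y : V} (p : (edgeGraph s).Walk x y) :
    p.edges.toFinset ⊆ s := fun e he => by
  have := p.edges_subset_edgeSet (List.mem_toFinset.1 he)
  simp only [edgeGraph, SimpleGraph.edgeSet_fromEdgeSet] at this
  exact this.1

theorem conn_of_edges {s t : Finset (Sym2 V)} {x y : V} (p : (edgeGraph s).Walk x y)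
    (ht : ∀ e ∈ p.edges, e ∈ t) : Conn x y t :=
  ⟨p.transfer (edgeGraph t) fun e he => by
    have h1 := p.edges_subset_edgeSet he
    simp only [edgeGraph, SimpleGraph.edgeSet_fromEdgeSet] at h1 ⊢
    exact ⟨ht e he, h1.2⟩⟩

/-- A walk can be cut when it first meets `Z`. -/
theorem exists_first_hit {H : SimpleGraph V} (Z : V → Prop) {z b : V} (q : H.Walk z b)
    (hq : q.IsPath) (hb : Z b) : ∃ (w : V) (η : H.Walk z w), Z w ∧ η.IsPath ∧
      η.support ⊆ q.support ∧ ∀ e ∈ η.edges, ∃ v, v ∈ e ∧ ¬ Z v := by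
  induction q with
  | nil => exact ⟨_, .nil, hb, by simp, by simp, by simp⟩
  | @cons u v w hu q ih =>
    by_cases hz : Z u
    · exact ⟨u, .nil, hz, by simp, by simp, by simp⟩
    · obtain ⟨hq', hu'⟩ := (SimpleGraph.Walk.cons_isPath_iff hu q).1 hq
      obtain ⟨w', η, hw, hp, hsub, he⟩ := ih hq' hb
      refine ⟨w', .cons hu η, hw, (SimpleGraph.Walk.cons_isPath_iff hu η).2
        ⟨hp, fun h => hu' (hsub h)⟩, ?_, ?_⟩
      · simp only [SimpleGraph.Walk.support_cons]
        exact List.cons_subset_cons _ hsub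
      · intro e hmem
        rcases List.mem_cons.1 (by simpa using hmem) with rfl | h'
        · exact ⟨u, Sym2.mem_mk_left _ _, hz⟩
        · exact he e h'

/-- Two vertices of the cluster of `o` give a vertex of the cluster and two disjoint paths to
them that avoid a connection to `o`. -/
theorem tree_graph (h : LF G nb) {S : Finset V} {s : Finset (Sym2 V)}
    (hs : s ⊆ edgesIn nb S) {o x z : V} (ho : o ∈ S) (hx : Conn o x s) (hz : Conn o z s) :
    ∃ w ∈ S, ∃ j < S.card, ∃ k < S.card, ∃ l ∈ walksL nb j w x, ∃ m ∈ walksL nb k w z,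
      (edgesL l ∪ edgesL m).card = j + k ∧ edgesL l ∪ edgesL m ⊆ s ∧
        Conn o w (s \ (edgesL l ∪ edgesL m)) := by
  obtain ⟨π, hπ⟩ := hx.exists_isPath
  obtain ⟨q, hq⟩ := hz.symm.exists_isPath
  obtain ⟨w, η, hw, hηp, hηs, hηe⟩ :=
    exists_first_hit (fun v => v ∈ π.support) q hq π.start_mem_support
  set π1 := π.takeUntil w hw
  set π2 := π.dropUntil w hw
  have hspec : π.edges = π1.edges ++ π2.edges := by
    rw [← SimpleGraph.Walk.edges_append, π.take_spec hw]
  have hnd := hπ.isTrail.edges_nodup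
  rw [hspec, List.nodup_append] at hnd
  have hdis : ∀ e ∈ η.edges, e ∉ π.edges := fun e he hπe => by
    obtain ⟨v, hv, hvn⟩ := hηe e he
    exact hvn (π.mem_support_of_mem_edges hπe hv)
  have hwS : w ∈ S := edgeGraph_mem h hs π ho w hw
  have hlen : ∀ {y : V} (r : (edgeGraph s).Walk w y), r.IsPath → r.length < S.card := by
    intro y r hr
    have h1 := List.toFinset_card_of_nodup hr.support_nodup
    have h2 : r.support.toFinset ⊆ S := fun v hv =>
      edgeGraph_mem h hs r hwS v (List.mem_toFinset.1 hv)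
    have h3 := Finset.card_le_card h2
    rw [h1, SimpleGraph.Walk.length_support] at h3
    omega
  have hπ2 : π2.IsPath := hπ.dropUntil hw
  refine ⟨w, hwS, π2.length, hlen π2 hπ2, η.reverse.length, hlen η.reverse hηp.reverse,
    π2.support, mem_walksL h (edgeGraph_le h hs) π2, η.reverse.support,
    mem_walksL h (edgeGraph_le h hs) η.reverse, ?_, ?_, ?_⟩
  all_goals simp only [edgesL_support, SimpleGraph.Walk.edges_reverse, List.toFinset_reverse]
  · rw [Finset.card_union_of_disjoint, List.toFinset_card_of_nodup hπ2.isTrail.edges_nodup,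
      List.toFinset_card_of_nodup hηp.isTrail.edges_nodup, SimpleGraph.Walk.length_edges,
      SimpleGraph.Walk.length_edges, SimpleGraph.Walk.length_reverse]
    rw [Finset.disjoint_left]
    intro e he he'
    exact hdis e (List.mem_toFinset.1 he') (hspec ▸ List.mem_append_right _ (List.mem_toFinset.1 he))
  · exact Finset.union_subset (walk_edges_subset π2) (walk_edges_subset η)
  · refine conn_of_edges π1 fun e he => ?_
    simp only [Finset.mem_sdiff, Finset.mem_union, List.mem_toFinset]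
    refine ⟨walk_edges_subset π1 (List.mem_toFinset.2 he), ?_⟩
    rintro (h2 | h2)
    · exact hnd.2.2 e he e h2 rfl
    · exact hdis e h2 (hspec ▸ List.mem_append_left _ he)

/-- The event that the edge `x z` joins `z` to the cluster of `o` and no other edge does. -/
def CutEdge (o x z : V) (s : Finset (Sym2 V)) : Prop :=
  s(x, z) ∈ s ∧ Conn o x (s.erase s(x, z)) ∧ ¬ Conn o z (s.erase s(x, z))

theorem CutEdge.conn {o x z : V} {s : Finset (Sym2 V)} (h : CutEdge o x z s) (hne : x ≠ z) :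
    Conn o z s :=
  (conn_mono o x (Finset.erase_subset _ _) h.2.1).trans
    (SimpleGraph.Adj.reachable (edgeGraph_adj.2 ⟨h.1, hne⟩))

theorem CutEdge.unique {o x x' z : V} {s : Finset (Sym2 V)} (h : CutEdge o x z s)
    (h' : CutEdge o x' z s) (hx' : x' ≠ z) : x = x' := by
  by_contra hne
  obtain ⟨P, hP⟩ := h'.2.1.exists_isPath
  have hPs : ∀ e ∈ P.edges, e ≠ s(x', z) ∧ e ∈ s := fun e he =>
    Finset.mem_erase.1 (walk_edges_subset P (List.mem_toFinset.2 he))
  have he' : s(x', z) ≠ s(x, z) := fun he => by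
    rcases Sym2.eq_iff.1 he with ⟨h1, -⟩ | ⟨h1, h2⟩
    exacts [hne h1.symm, hx' h1]
  by_cases hu : s(x, z) ∈ P.edges
  · have hz : z ∈ P.support := P.mem_support_of_mem_edges hu (Sym2.mem_mk_right _ _)
    refine h'.2.2 (conn_of_edges (P.takeUntil z hz) fun e he => ?_)
    exact walk_edges_subset P (List.mem_toFinset.2 (P.edges_takeUntil_subset_edges hz he))
  · refine h.2.2 ((conn_of_edges P fun e he => Finset.mem_erase.2
      ⟨fun hh => hu (by rw [← hh]; exact he), (hPs e he).2⟩).trans ?_)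
    exact SimpleGraph.Adj.reachable (edgeGraph_adj.2 ⟨Finset.mem_erase.2 ⟨he', h'.1⟩, hx'⟩)

open Classical in
/-- The weights of the far ends of the cut edges fit in the cluster without its root. -/
theorem card_cut_le (h : LF G nb) {f : V → ℝ} (hf : ∀ x, 0 ≤ f x) {S : Finset V} {o : V}
    (ho : o ∈ S) (s : Finset (Sym2 V)) :
    (∑ x ∈ S, ∑ z ∈ nb x ∩ S, if CutEdge o x z s then f z else 0) ≤
      (∑ z ∈ S, if Conn o z s then f z else 0) - f o := by
  set C := (S.sigma fun x => nb x ∩ S).filter fun q => CutEdge o q.1 q.2 s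
  set T := S.filter fun z => Conn o z s
  have hinj : Set.InjOn (fun q : Σ _ : V, V => q.2) C := by
    rintro ⟨x, z⟩ hq ⟨x', z'⟩ hq' (rfl : z = z')
    obtain ⟨-, hc⟩ := Finset.mem_filter.1 hq
    obtain ⟨hm', hc'⟩ := Finset.mem_filter.1 hq'
    have hadj := (Finset.mem_inter.1 (Finset.mem_sigma.1 hm').2).1
    have hxx : x = x' := hc.unique hc' (h.mem.1 hadj).ne
    rw [hxx]
  have hsub : C.image (fun q => q.2) ⊆ T.erase o := by
    intro y hy
    obtain ⟨q, hq, rfl⟩ := Finset.mem_image.1 hy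
    obtain ⟨hm, hc⟩ := Finset.mem_filter.1 hq
    obtain ⟨hx, hz⟩ := Finset.mem_sigma.1 hm
    obtain ⟨hadj, hzS⟩ := Finset.mem_inter.1 hz
    exact Finset.mem_erase.2 ⟨fun hh => hc.2.2 (hh.symm ▸ SimpleGraph.Reachable.refl _),
      Finset.mem_filter.2 ⟨hzS, hc.conn (h.mem.1 hadj).ne⟩⟩
  have ho' : o ∈ T := Finset.mem_filter.2 ⟨ho, SimpleGraph.Reachable.refl _⟩
  have e : ∑ q ∈ C, f q.2 ≤ ∑ z ∈ T.erase o, f z := by
    rw [← Finset.sum_image hinj]
    exact Finset.sum_le_sum_of_subset_of_nonneg hsub fun z _ _ => hf z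
  rw [Finset.sum_erase_eq_sub ho'] at e
  rw [← Finset.sum_sigma S (fun x => nb x ∩ S)
    (fun q => if CutEdge o q.1 q.2 s then f q.2 else 0), ← Finset.sum_filter, ← Finset.sum_filter]
  exact e

theorem W_mul_le (S : Finset V) : ∀ (j m : ℕ) (w y : V),
    ∑ x ∈ S, W nb j w x * W nb m x y ≤ W nb (j + m) w y
  | 0, m, w, y => by
    simp only [W, Nat.zero_add, ite_mul, one_mul, zero_mul, Finset.sum_ite_eq]
    split_ifs <;> simp
  | j + 1, m, w, y => by
    rw [Nat.add_right_comm]
    simp only [W, Finset.sum_mul]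
    rw [Finset.sum_comm]
    exact Finset.sum_le_sum fun z _ => W_mul_le S j m z y

/-- The weighted return count. -/
noncomputable def bubble (nb : V → Finset V) (p : ℝ) (n : ℕ) (w : V) : ℝ :=
  ∑ j ∈ Finset.range n, ∑ k ∈ Finset.range n, p ^ (j + k + 1) * (W nb (j + k + 1) w w : ℝ)

/-- The expected number of open edges leaving the cluster of `o` in `S`. -/
noncomputable def phi (nb : V → Finset V) (S : Finset V) (p : ℝ) (o : V) : ℝ :=
  p * ∑ x ∈ S, Pr (edgesIn nb S) p (Conn o x) * (((nb x).filter (· ∉ S)).card : ℝ)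

theorem pair_le (h : LF G nb) {S : Finset V} {p : ℝ} (h0 : 0 ≤ p) (h1 : p ≤ 1) {o : V}
    (ho : o ∈ S) (x z : V) :
    Pr (edgesIn nb S) p (fun s => Conn o x s ∧ Conn o z s) ≤
      ∑ w ∈ S, Pr (edgesIn nb S) p (Conn o w) * ∑ j ∈ Finset.range S.card,
        ∑ k ∈ Finset.range S.card, p ^ (j + k) * ((W nb j w x : ℝ) * W nb k w z) := by
  set E := edgesIn nb S
  let n := S.card
  refine (Pr_mono h0 h1 fun s hs hh => tree_graph h hs ho hh.1 hh.2).trans ?_
  refine (Pr_exists h0 h1 S _).trans (Finset.sum_le_sum fun w _ => ?_)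
  rw [Finset.mul_sum]
  refine le_trans (Pr_mono h0 h1 (B := fun s => ∃ j ∈ Finset.range n, ∃ k < n,
    ∃ l ∈ walksL nb j w x, ∃ m ∈ walksL nb k w z, (edgesL l ∪ edgesL m).card = j + k ∧
      edgesL l ∪ edgesL m ⊆ s ∧ Conn o w (s \ (edgesL l ∪ edgesL m)))
    fun s _ ⟨j, hj, hh⟩ => ⟨j, Finset.mem_range.2 hj, hh⟩) ?_
  refine (Pr_exists h0 h1 _ _).trans (Finset.sum_le_sum fun j _ => ?_)
  rw [Finset.mul_sum]
  refine le_trans (Pr_mono h0 h1 (B := fun s => ∃ k ∈ Finset.range n,
    ∃ l ∈ walksL nb j w x, ∃ m ∈ walksL nb k w z, (edgesL l ∪ edgesL m).card = j + k ∧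
      edgesL l ∪ edgesL m ⊆ s ∧ Conn o w (s \ (edgesL l ∪ edgesL m)))
    fun s _ ⟨k, hk, hh⟩ => ⟨k, Finset.mem_range.2 hk, hh⟩) ?_
  refine (Pr_exists h0 h1 _ _).trans (Finset.sum_le_sum fun k _ => ?_)
  refine (Pr_exists h0 h1 _ _).trans ((Finset.sum_le_sum fun l _ => Pr_exists h0 h1 _ _).trans ?_)
  have hτ : 0 ≤ Pr E p (Conn o w) := Pr_nonneg h0 h1 _
  have hterm : ∀ l m : List V, Pr E p (fun s => (edgesL l ∪ edgesL m).card = j + k ∧
      edgesL l ∪ edgesL m ⊆ s ∧ Conn o w (s \ (edgesL l ∪ edgesL m))) ≤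
        p ^ (j + k) * Pr E p (Conn o w) := by
    intro l m
    set F := edgesL l ∪ edgesL m
    by_cases hF : F ⊆ E ∧ F.card = j + k
    · rw [Pr_congr (B := fun s => F ⊆ s ∧ Conn o w (s \ F)) fun s _ =>
        ⟨fun hh => hh.2, fun hh => ⟨hF.2, hh⟩⟩,
        Pr_subset_and hF.1 _ (fun s _ => by rw [Finset.sdiff_idem]), hF.2]
      refine mul_le_mul_of_nonneg_left ?_ (pow_nonneg h0 _)
      refine (Pr_congr fun s hs => ?_).trans_le (Pr_sdiff_le hF.1 h0 h1 (conn_mono o w))
      rw [Finset.sdiff_eq_self_of_disjoint (Finset.disjoint_of_subset_left hs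
        Finset.sdiff_disjoint)]
    · rw [Pr_congr (B := fun _ => False) fun s hs => ⟨fun hh => hF ⟨hh.2.1.trans hs, hh.1⟩,
        False.elim⟩, Pr_false]
      positivity
  refine (Finset.sum_le_sum fun l _ => Finset.sum_le_sum fun m _ => hterm l m).trans ?_
  simp only [Finset.sum_const, nsmul_eq_mul]
  have hl : ((walksL nb j w x).card : ℝ) ≤ W nb j w x := by exact_mod_cast card_walksL_le j w x
  have hm : ((walksL nb k w z).card : ℝ) ≤ W nb k w z := by exact_mod_cast card_walksL_le k w z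
  calc ((walksL nb j w x).card : ℝ) * ((walksL nb k w z).card * (p ^ (j + k) * Pr E p (Conn o w)))
      ≤ W nb j w x * ((W nb k w z : ℝ) * (p ^ (j + k) * Pr E p (Conn o w))) := by gcongr
    _ = _ := by ring

open Classical in
/-- Above the threshold every finite set has a positive expected number of open edges leaving. -/
theorem le_phi (h : LF G nb) {p δ lam K : ℝ} (h0 : 0 ≤ p) (h1 : p ≤ 1) {f : V → ℝ}
    (hf1 : ∀ x, 1 ≤ f x) (hfK : ∀ x, f x ≤ K) (hlam : ∀ x, lam * f x ≤ ∑ z ∈ nb x, f z)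
    (hδ : 0 ≤ δ) (hb : ∀ n w, bubble nb p n w ≤ δ) (hp : 1 + K * δ ≤ p * lam) {S : Finset V}
    {o : V} (ho : o ∈ S) : 1 ≤ K * phi nb S p o := by
  have hf0 : ∀ x, 0 ≤ f x := fun x => zero_le_one.trans (hf1 x)
  have hK0 : 0 ≤ K := (hf0 o).trans (hfK o)
  set E := edgesIn nb S with hE
  set n := S.card
  set χ := ∑ x ∈ S, Pr E p (Conn o x)
  have hχ : 0 ≤ χ := Finset.sum_nonneg fun _ _ => Pr_nonneg h0 h1 _
  -- each pair in the tree-graph bound is counted by a closed walk
  have hI : p * ∑ x ∈ S, ∑ z ∈ nb x ∩ S, Pr E p (fun s => Conn o x s ∧ Conn o z s) ≤ δ * χ := by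
    have hterm : ∀ x w : V, ∀ j k : ℕ, 0 ≤ p ^ (j + k) * ((W nb j w x : ℝ) * W nb (k + 1) x w) :=
      fun _ _ _ _ => by positivity
    calc p * ∑ x ∈ S, ∑ z ∈ nb x ∩ S, Pr E p (fun s => Conn o x s ∧ Conn o z s)
        ≤ p * ∑ x ∈ S, ∑ z ∈ nb x, ∑ w ∈ S, Pr E p (Conn o w) * ∑ j ∈ Finset.range n,
            ∑ k ∈ Finset.range n, p ^ (j + k) * ((W nb j w x : ℝ) * W nb k w z) := by
          refine mul_le_mul_of_nonneg_left (Finset.sum_le_sum fun x _ => ?_) h0
          refine (Finset.sum_le_sum fun z _ => pair_le h h0 h1 ho x z).trans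
            (Finset.sum_le_sum_of_subset_of_nonneg Finset.inter_subset_left fun z _ _ => ?_)
          exact Finset.sum_nonneg fun w _ => mul_nonneg (Pr_nonneg h0 h1 _) (by positivity)
      _ = ∑ w ∈ S, Pr E p (Conn o w) * ∑ j ∈ Finset.range n, ∑ k ∈ Finset.range n,
            p ^ (j + k + 1) * ∑ x ∈ S, (W nb j w x : ℝ) * W nb (k + 1) x w := by
          have eW : ∀ k x w, (W nb (k + 1) x w : ℝ) = ∑ z ∈ nb x, (W nb k w z : ℝ) := fun k x w => by
            rw [← Nat.cast_sum]; congr 1; rw [W]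
            exact Finset.sum_congr rfl fun z _ => W_comm h k z w
          simp only [eW, Finset.mul_sum]
          rw [Finset.sum_congr rfl fun x (_ : x ∈ S) => Finset.sum_comm (s := nb x) (t := S),
            Finset.sum_comm]
          refine Finset.sum_congr rfl fun w _ => ?_
          rw [Finset.sum_congr rfl fun x (_ : x ∈ S) => Finset.sum_comm (s := nb x),
            Finset.sum_comm]
          refine Finset.sum_congr rfl fun j _ => ?_
          rw [Finset.sum_congr rfl fun x (_ : x ∈ S) => Finset.sum_comm (s := nb x),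
            Finset.sum_comm]
          exact Finset.sum_congr rfl fun k _ => Finset.sum_congr rfl fun x _ =>
            Finset.sum_congr rfl fun z _ => by ring
      _ ≤ ∑ w ∈ S, Pr E p (Conn o w) * δ := by
          refine Finset.sum_le_sum fun w _ => mul_le_mul_of_nonneg_left
            (le_trans (Finset.sum_le_sum fun j _ => Finset.sum_le_sum fun k _ => ?_) (hb n w))
            (Pr_nonneg h0 h1 _)
          refine mul_le_mul_of_nonneg_left ?_ (pow_nonneg h0 _)
          rw [Nat.add_assoc]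
          exact_mod_cast W_mul_le S j (k + 1) w w
      _ = δ * χ := by rw [← Finset.sum_mul, mul_comm]
  -- cut edges
  set ψ := ∑ x ∈ S, f x * Pr E p (Conn o x)
  have hcut : p * ∑ x ∈ S, ∑ z ∈ nb x ∩ S,
      f z * Pr E p (fun s => Conn o x s ∧ ¬ Conn o z s) ≤ ψ - f o := by
    have hxz : ∀ x ∈ S, ∀ z ∈ nb x ∩ S,
        p * Pr E p (fun s => Conn o x s ∧ ¬ Conn o z s) ≤ Pr E p (CutEdge o x z) := by
      intro x hx z hz
      obtain ⟨hadj, hzS⟩ := Finset.mem_inter.1 hz
      set e := s(x, z) with he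
      have heE : e ∈ E := (mem_edgesIn h).2 ⟨h.mem.1 hadj, hx, hzS⟩
      set E' := E.erase e
      have hs' : ∀ s ⊆ E', e ∉ s := fun s hs hh => Finset.notMem_erase e E (hs hh)
      rw [← Finset.insert_erase heE, Pr_insert (Finset.notMem_erase e E),
        Pr_insert (Finset.notMem_erase e E)]
      have z1 : Pr E' p (fun s => CutEdge o x z s) = 0 :=
        (Pr_congr fun s hs => ⟨fun hc => hs' s hs hc.1, False.elim⟩).trans Pr_false
      have z2 : Pr E' p (fun s => Conn o x (insert e s) ∧ ¬ Conn o z (insert e s)) = 0 := by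
        refine (Pr_congr fun s hs => ⟨fun hh => hh.2 (hh.1.trans ?_), False.elim⟩).trans Pr_false
        exact SimpleGraph.Adj.reachable
          (edgeGraph_adj.2 ⟨Finset.mem_insert_self _ _, (h.mem.1 hadj).ne⟩)
      have e3 : Pr E' p (fun s => CutEdge o x z (insert e s)) =
          Pr E' p (fun s => Conn o x s ∧ ¬ Conn o z s) := Pr_congr fun s hs => by
        simp [CutEdge, ← he, Finset.erase_insert (hs' s hs)]
      rw [z1, z2, e3]
      have : 0 ≤ Pr E' p (fun s => Conn o x s ∧ ¬ Conn o z s) := Pr_nonneg h0 h1 _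
      nlinarith [mul_le_of_le_one_left this (by linarith : 1 - p ≤ 1)]
    rw [Finset.mul_sum]
    refine le_trans (Finset.sum_le_sum fun x hx => ?_) (?_ : ∑ x ∈ S, ∑ z ∈ nb x ∩ S,
      f z * Pr E p (CutEdge o x z) ≤ ψ - f o)
    · rw [Finset.mul_sum]
      refine Finset.sum_le_sum fun z hz => ?_
      rw [mul_left_comm]
      exact mul_le_mul_of_nonneg_left (hxz x hx z hz) (hf0 z)
    rw [show ψ - f o = ψ - f o * Pr E p (fun _ => True) by rw [Pr_true, mul_one]]
    simp only [ψ, Pr, Finset.mul_sum, if_true]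
    rw [Finset.sum_congr rfl fun x (_ : x ∈ S) => Finset.sum_comm, Finset.sum_comm,
      Finset.sum_comm (s := S)]
    simp only [← Finset.sum_sub_distrib]
    refine Finset.sum_le_sum fun s _ => ?_
    have hw : 0 ≤ p ^ s.card * (1 - p) ^ (E.card - s.card) :=
      mul_nonneg (pow_nonneg h0 _) (pow_nonneg (by linarith) _)
    have := mul_le_mul_of_nonneg_left (card_cut_le h hf0 ho s) hw
    simp only [Finset.mul_sum, mul_sub, mul_ite, mul_zero] at this ⊢
    simpa only [mul_comm (f _)] using this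
  have hboth : ∑ x ∈ S, ∑ z ∈ nb x ∩ S, f z * Pr E p (fun s => Conn o x s ∧ Conn o z s) ≤
      K * ∑ x ∈ S, ∑ z ∈ nb x ∩ S, Pr E p (fun s => Conn o x s ∧ Conn o z s) := by
    rw [Finset.mul_sum]
    refine Finset.sum_le_sum fun x _ => ?_
    rw [Finset.mul_sum]
    exact Finset.sum_le_sum fun z _ => mul_le_mul_of_nonneg_right (hfK z) (Pr_nonneg h0 h1 _)
  have hsplit : lam * ψ ≤ ∑ x ∈ S, ∑ z ∈ nb x ∩ S,
      f z * Pr E p (fun s => Conn o x s ∧ ¬ Conn o z s) +
      ∑ x ∈ S, ∑ z ∈ nb x ∩ S, f z * Pr E p (fun s => Conn o x s ∧ Conn o z s) +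
      K * ∑ x ∈ S, Pr E p (Conn o x) * (((nb x).filter (· ∉ S)).card : ℝ) := by
    simp only [ψ, Finset.mul_sum, ← Finset.sum_add_distrib]
    refine Finset.sum_le_sum fun x _ => ?_
    have hP := Pr_nonneg (E := E) h0 h1 (Conn o x)
    have e1 : ∑ z ∈ nb x ∩ S, (f z * Pr E p (fun s => Conn o x s ∧ ¬ Conn o z s) +
        f z * Pr E p (fun s => Conn o x s ∧ Conn o z s)) =
        (∑ z ∈ nb x ∩ S, f z) * Pr E p (Conn o x) := by
      rw [Finset.sum_mul]
      refine Finset.sum_congr rfl fun z _ => ?_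
      rw [Pr_split (A := Conn o x) (Conn o z)]; ring
    rw [e1]
    have e2 : ∑ z ∈ (nb x).filter (· ∉ S), f z ≤ K * (((nb x).filter (· ∉ S)).card : ℝ) := by
      refine (Finset.sum_le_sum fun z _ => hfK z).trans_eq ?_
      rw [Finset.sum_const, nsmul_eq_mul, mul_comm]
    have e3 := Finset.sum_filter_add_sum_filter_not (nb x) (· ∈ S) f
    rw [Finset.filter_mem_eq_inter] at e3
    nlinarith [hlam x]
  have hψ : χ ≤ ψ := Finset.sum_le_sum fun x _ =>
    le_mul_of_one_le_left (Pr_nonneg h0 h1 _) (hf1 x)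
  have hphi : phi nb S p o =
      p * ∑ x ∈ S, Pr E p (Conn o x) * (((nb x).filter (· ∉ S)).card : ℝ) := rfl
  have k1 := mul_le_mul_of_nonneg_left hsplit h0
  have k2 := mul_le_mul_of_nonneg_left hboth h0
  have k3 := mul_le_mul_of_nonneg_left hI hK0
  have k4 : K * (δ * χ) ≤ K * (δ * ψ) :=
    mul_le_mul_of_nonneg_left (mul_le_mul_of_nonneg_left hψ hδ) hK0
  have k5 : 0 ≤ (p * lam - 1 - K * δ) * ψ := mul_nonneg (by linarith) (hχ.trans hψ)
  have := hf1 o
  rw [hphi]
  nlinarith

end Vale.Agent.P165
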