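import Vale.Agent.P165.Critical

/-!
# No uniqueness while the walk series converges
-/

namespace Vale.Agent.P165

open MeasureTheory ProbabilityTheory

variable {V : Type*} {G : SimpleGraph V}

/-- An automorphism acting on edges. -/
def edgeEquiv (φ : G ≃g G) : Sym2 V ≃ Sym2 V where
  toFun := Sym2.map φ
  invFun := Sym2.map φ.symm
  left_inv e := by induction e using Sym2.ind; simp
  right_inv e := by induction e using Sym2.ind; simp

theorem edgeEquiv_mem (φ : G ≃g G) (e : Sym2 V) :
    edgeEquiv φ e ∈ G.edgeSet ↔ e ∈ G.edgeSet := by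
  induction e using Sym2.ind with
  | _ a b => exact φ.map_adj_iff

theorem perc_map (φ : G ≃g G) (p : unitInterval) :
    (perc G p).map (fun ω => {e | (edgeEquiv φ).symm e ∈ ω}) = perc G p := by
  rw [perc, setBernoulli_eq_map, Measure.map_map (by fun_prop) (by fun_prop)]
  have : ∀ e : Sym2 V, IsProbabilityMeasure (unitInterval.toNNReal p • Measure.dirac (e ∈ G.edgeSet) +
      unitInterval.toNNReal (unitInterval.symm p) • Measure.dirac False) := fun e => ⟨by
    simp⟩
  have h := Measure.infinitePi_map_piCongrLeft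
    (μ := fun e : Sym2 V => unitInterval.toNNReal p • Measure.dirac (e ∈ G.edgeSet) +
      unitInterval.toNNReal (unitInterval.symm p) • Measure.dirac False) (edgeEquiv φ)
  simp only [edgeEquiv_mem φ] at h
  conv_rhs => rw [← h]
  rw [Measure.map_map (by fun_prop) (by fun_prop)]
  congr 1
  funext q
  ext e
  simp [MeasurableEquiv.coe_piCongrLeft, Equiv.piCongrLeft_apply]

theorem openGraph_image (φ : G ≃g G) (ω : Set (Sym2 V)) (a b : V) :
    (openGraph G {e | (edgeEquiv φ).symm e ∈ ω}).Adj (φ a) (φ b) ↔ (openGraph G ω).Adj a b := by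
  have e1 : (edgeEquiv φ).symm s(φ a, φ b) = s(a, b) := by
    rw [Equiv.symm_apply_eq]; rfl
  simp only [openGraph, SimpleGraph.inf_adj, SimpleGraph.fromEdgeSet_adj, Set.mem_ofPred_eq, e1,
    φ.map_adj_iff, ne_eq, φ.injective.eq_iff]

theorem cluster_infinite_image (φ : G ≃g G) (ω : Set (Sym2 V)) (a : V) :
    {y | (openGraph G ω).Reachable a y}.Infinite ↔
      {y | (openGraph G {e | (edgeEquiv φ).symm e ∈ ω}).Reachable (φ a) y}.Infinite := by
  let ψ : openGraph G ω ≃g openGraph G {e | (edgeEquiv φ).symm e ∈ ω} :=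
    { toEquiv := φ.toEquiv, map_rel_iff' := fun {a b} => openGraph_image φ ω a b }
  have e : {y | (openGraph G {e | (edgeEquiv φ).symm e ∈ ω}).Reachable (φ a) y} =
      φ '' {y | (openGraph G ω).Reachable a y} := by
    ext y
    obtain ⟨z, rfl⟩ := φ.surjective y
    rw [φ.injective.mem_set_image, Set.mem_ofPred_eq, Set.mem_ofPred_eq]
    exact ψ.reachable_iff (u := a) (v := z)
  rw [e, Set.infinite_image_iff φ.injective.injOn]

variable [Countable V]

theorem measure_meets_image (φ : G ≃g G) (p : unitInterval) (S : Finset V) :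
    perc G p {ω | ∃ a ∈ S, {y | (openGraph G ω).Reachable a y}.Infinite} ≤
      perc G p {ω | ∃ a ∈ S, {y | (openGraph G ω).Reachable (φ a) y}.Infinite} := by
  conv_rhs => rw [← perc_map φ p]
  refine le_trans (measure_mono ?_) (Measure.le_map_apply (by fun_prop) _)
  rintro ω ⟨a, ha, hi⟩
  exact ⟨a, ha, (cluster_infinite_image φ ω a).1 hi⟩

theorem measurableSet_reachable (a b : V) :
    MeasurableSet {ω | (openGraph G ω).Reachable a b} := by
  classical
  have hadj : ∀ u v : V, MeasurableSet {ω | (openGraph G ω).Adj u v} := by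
    intro u v
    simp only [openGraph, SimpleGraph.inf_adj, SimpleGraph.fromEdgeSet_adj, Set.ofPred_and]
    exact (MeasurableSet.const _).inter ((measurableSet_mem _).inter (MeasurableSet.const _))
  have hM : ∀ (n : ℕ) (u v : V),
      MeasurableSet {ω | ∃ w : (openGraph G ω).Walk u v, w.length = n} := by
    intro n
    induction n with
    | zero =>
      intro u v
      convert MeasurableSet.const (α := Set (Sym2 V)) (u = v) using 1
      ext ω
      exact ⟨fun ⟨w, hw⟩ => SimpleGraph.Walk.eq_of_length_eq_zero hw,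
        fun e => by subst e; exact ⟨.nil, rfl⟩⟩
    | succ n ih =>
      intro u v
      have e : {ω | ∃ w : (openGraph G ω).Walk u v, w.length = n + 1} =
          ⋃ c, {ω | (openGraph G ω).Adj u c} ∩
            {ω | ∃ w : (openGraph G ω).Walk c v, w.length = n} := by
        ext ω
        simp only [Set.mem_iUnion, Set.mem_inter_iff, Set.mem_ofPred_eq]
        constructor
        · rintro ⟨w, hw⟩
          cases w with
          | nil => simp at hw
          | cons hu q => exact ⟨_, hu, q, by simpa using hw⟩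
        · rintro ⟨c, hu, q, hq⟩
          exact ⟨.cons hu q, by simp [hq]⟩
      rw [e]
      exact MeasurableSet.iUnion fun c => (hadj u c).inter (ih c v)
  convert MeasurableSet.iUnion fun n => hM n a b using 1
  ext ω
  simp only [Set.mem_iUnion, Set.mem_ofPred_eq]
  exact ⟨fun ⟨w⟩ => ⟨_, w, rfl⟩, fun ⟨_, w, _⟩ => w.reachable⟩

theorem measurableSet_meets (S : Finset V) (g : V → V) :
    MeasurableSet {ω | ∃ a ∈ S, {y | (openGraph G ω).Reachable (g a) y}.Infinite} := by
  classical
  have e : {ω | ∃ a ∈ S, {y | (openGraph G ω).Reachable (g a) y}.Infinite} =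
      ⋃ a ∈ S, ⋂ T : Finset V, ⋃ y ∈ {y | y ∉ T}, {ω | (openGraph G ω).Reachable (g a) y} := by
    ext ω
    simp only [Set.mem_iUnion, Set.mem_iInter, Set.mem_ofPred_eq, exists_prop]
    refine exists_congr fun a => and_congr_right fun _ => ⟨fun hi T => ?_, fun hT hfin => ?_⟩
    · obtain ⟨y, hy, hy'⟩ := hi.exists_notMem_finset T
      exact ⟨y, hy', hy⟩
    · obtain ⟨y, hy, hr⟩ := hT hfin.toFinset
      exact hy (hfin.mem_toFinset.2 hr)
  rw [e]
  exact Finset.measurableSet_biUnion _ fun a _ => MeasurableSet.iInter fun T =>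
    MeasurableSet.biUnion (Set.to_countable _) fun y _ => measurableSet_reachable (g a) y

instance (p : unitInterval) : IsProbabilityMeasure (perc G p) := by unfold perc; infer_instance

variable [DecidableEq V] {nb : V → Finset V}

theorem tau_le (h : LF G nb) {r : ℝ} (hr : 0 ≤ r) (hW : ∀ k x y, (W nb k x y : ℝ) ≤ r ^ k)
    {p : unitInterval} (hpr : (p : ℝ) * r < 1) {x y : V} {m : ℕ}
    (hm : ∀ q : G.Walk x y, m ≤ q.length) :
    perc G p {ω | (openGraph G ω).Reachable x y} ≤
      ENNReal.ofReal (((p : ℝ) * r) ^ m / (1 - p * r)) := by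
  classical
  set a := (p : ℝ) * r
  have ha : 0 ≤ a := mul_nonneg p.2.1 hr
  set Ev : ℕ → List V → Set (Set (Sym2 V)) := fun k l =>
    {ω | (edgesL l).card = k ∧ (∀ e ∈ edgesL l, e ∈ G.edgeSet) ∧ ∀ e ∈ edgesL l, e ∈ ω}
  have hsub : {ω | (openGraph G ω).Reachable x y} ⊆
      ⋃ j, ⋃ l ∈ walksL nb (m + j) x y, Ev (m + j) l := by
    intro ω hω
    obtain ⟨q, hq⟩ := SimpleGraph.Reachable.exists_isPath hω
    have hle : openGraph G ω ≤ G := inf_le_left
    have hlen := hm (q.mapLe hle)
    rw [SimpleGraph.Walk.length_map] at hlen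
    obtain ⟨j, hj⟩ : ∃ j, q.length = m + j := ⟨q.length - m, by omega⟩
    refine Set.mem_iUnion.2 ⟨j, Set.mem_iUnion₂.2 ⟨q.support, hj ▸ mem_walksL h hle q, ?_⟩⟩
    simp only [Ev, Set.mem_ofPred_eq, edgesL_support, List.mem_toFinset]
    refine ⟨by rw [List.toFinset_card_of_nodup hq.isTrail.edges_nodup, q.length_edges, hj],
      fun e he => ?_, fun e he => ?_⟩ <;> have := q.edges_subset_edgeSet he <;>
      induction e using Sym2.ind with
      | _ a b =>
        simp only [SimpleGraph.mem_edgeSet, openGraph, SimpleGraph.inf_adj,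
          SimpleGraph.fromEdgeSet_adj] at this ⊢
        first | exact this.1 | exact this.2.1
  have hEv : ∀ k l, perc G p (Ev k l) ≤ ENNReal.ofReal ((p : ℝ) ^ k) := by
    intro k l
    by_cases hh : (edgesL l).card = k ∧ ∀ e ∈ edgesL l, e ∈ G.edgeSet
    · refine le_trans (measure_mono
        (t := {ω | edgesL l ⊆ (edgesL l).filter (· ∈ ω)}) ?_) (le_of_eq ?_)
      · intro ω hω e he
        exact Finset.mem_filter.2 ⟨he, hω.2.2 e he⟩
      · rw [perc_finite p hh.2 (fun t => edgesL l ⊆ t), Pr_subset_eq, hh.1]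
    · have : Ev k l = ∅ := Set.eq_empty_of_forall_notMem fun ω hω => hh ⟨hω.1, hω.2.1⟩
      simp [this]
  refine (measure_mono hsub).trans ((measure_iUnion_le _).trans ?_)
  refine le_trans (ENNReal.tsum_le_tsum (g := fun j => ENNReal.ofReal (a ^ (m + j))) fun j => ?_) ?_
  · refine (measure_biUnion_finset_le _ _).trans
      ((Finset.sum_le_sum fun l _ => hEv (m + j) l).trans ?_)
    rw [Finset.sum_const, nsmul_eq_mul, ← ENNReal.ofReal_natCast,
      ← ENNReal.ofReal_mul (Nat.cast_nonneg _)]
    refine ENNReal.ofReal_le_ofReal ?_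
    calc ((walksL nb (m + j) x y).card : ℝ) * (p : ℝ) ^ (m + j)
        ≤ r ^ (m + j) * (p : ℝ) ^ (m + j) := mul_le_mul_of_nonneg_right
          ((Nat.cast_le.2 (card_walksL_le _ x y)).trans (hW _ x y)) (pow_nonneg p.2.1 _)
      _ = a ^ (m + j) := by simp only [a]; ring
  · rw [← ENNReal.ofReal_tsum_of_nonneg (fun j => pow_nonneg ha _)
      ((summable_geometric_of_lt_one ha hpr).mul_left (a ^ m) |>.congr fun j => (pow_add a m j).symm)]
    refine ENNReal.ofReal_le_ofReal (le_of_eq ?_)
    simp only [pow_add, tsum_mul_left, tsum_geometric_of_lt_one ha hpr, div_eq_mul_inv]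

/-- In a connected infinite quasi-transitive graph whose connection probabilities decay
exponentially in the distance, there is no unique infinite cluster. -/
theorem not_unique_of_decay (h : LF G nb) (hc : G.Connected) [Infinite V] (hq : QuasiTransitive G)
    {p : unitInterval} {C c : ℝ} (hc0 : 0 ≤ c) (hc1 : c < 1)
    (hτ : ∀ x y (m : ℕ), (∀ q : G.Walk x y, m ≤ q.length) →
      perc G p {ω | (openGraph G ω).Reachable x y} ≤ ENNReal.ofReal (C * c ^ m)) :
    perc G p {ω | UniqueInfinite G ω} ≠ 1 := by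
  classical
  intro h1
  obtain ⟨f, hf⟩ := exists_surjective_nat (Option V)
  set B : ℕ → Finset V := fun n => ((Finset.range n).image f).eraseNone
  -- a finite set meeting the infinite cluster with probability above three quarters
  set U : ℕ → Set (Set (Sym2 V)) := fun n =>
    {ω | ∃ a ∈ B n, {y | (openGraph G ω).Reachable a y}.Infinite}
  have hUm : Monotone U := fun i j hij ω ⟨a, ha, hi⟩ => by
    refine ⟨a, ?_, hi⟩
    simp only [B, Finset.mem_eraseNone, Finset.mem_image, Finset.mem_range] at ha ⊢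
    obtain ⟨k, hk, hka⟩ := ha
    exact ⟨k, by omega, hka⟩
  have hU : (3 / 4 : ENNReal) < ⨆ n, perc G p (U n) := by
    rw [← hUm.measure_iUnion]
    refine lt_of_lt_of_le ?_ (h1.symm.le.trans (measure_mono ?_))
    · rw [ENNReal.div_lt_iff (by norm_num) (by norm_num)]; norm_num
    · rintro ω ⟨⟨x, hx⟩, -⟩
      obtain ⟨k, hk⟩ := hf (some x)
      refine Set.mem_iUnion.2 ⟨k + 1, x, ?_, hx⟩
      simp only [B, Finset.mem_eraseNone, Finset.mem_image, Finset.mem_range]
      exact ⟨k, Nat.lt_succ_self k, hk⟩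
  obtain ⟨n, hn⟩ := lt_iSup_iff.1 hU
  set S := B n
  -- automorphisms moving `S` arbitrarily far
  obtain ⟨F, hF⟩ := hq
  obtain ⟨f0, hf0⟩ : ∃ f0, {v | ∃ φ : G ≃g G, φ f0 = v}.Infinite := by
    by_contra hcon
    simp only [not_exists, Set.not_infinite] at hcon
    refine Set.infinite_univ (((F.finite_toSet).biUnion fun f0 _ => hcon f0).subset ?_)
    intro v _
    obtain ⟨f, hf', φ, hφ⟩ := hF v
    exact Set.mem_biUnion (Finset.mem_coe.2 hf') ⟨φ, hφ⟩
  have hball : ∀ L v, v ∉ reach nb L f0 → ∀ q : G.Walk f0 v, L < q.length := by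
    intro L v hv q
    by_contra hle
    refine hv ?_
    have key : ∀ {a b : V} (w : G.Walk a b), b ∈ reach nb w.length a := by
      intro a b w
      induction w using SimpleGraph.Walk.concatRec with
      | Hnil => simp [reach]
      | @Hconcat a c b w hcb ih =>
        rw [SimpleGraph.Walk.length_concat]
        exact Finset.mem_union_right _ (Finset.mem_biUnion.2 ⟨c, ih, h.mem.2 hcb⟩)
    have mono : Monotone fun L => reach nb L f0 :=
      monotone_nat_of_le_succ fun L => Finset.subset_union_left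
    exact mono (not_lt.1 hle) (key q)
  have hfar : ∀ m : ℕ, ∃ φ : G ≃g G, ∀ a ∈ S, ∀ b ∈ S, ∀ q : G.Walk a (φ b), m ≤ q.length := by
    intro m
    have hP' : ∀ a : V, Nonempty (G.Walk f0 a) := fun a => hc.preconnected f0 a
    set w : (a : V) → G.Walk f0 a := fun a => (hP' a).some
    set L := m + 2 * S.sup fun a => (w a).length
    obtain ⟨v, ⟨φ, hφ⟩, hv⟩ := hf0.exists_notMem_finset (reach nb L f0)
    refine ⟨φ, fun a ha b hb q => ?_⟩
    have h2 := hball L v hv (((w a).append (q.append ((w b).map φ.toHom).reverse)).copy rfl hφ)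
    simp only [SimpleGraph.Walk.length_copy, SimpleGraph.Walk.length_append,
      SimpleGraph.Walk.length_reverse, SimpleGraph.Walk.length_map] at h2
    have := Finset.le_sup (f := fun a => (w a).length) ha
    have := Finset.le_sup (f := fun a => (w a).length) hb
    omega
  -- both sets meet the unique infinite cluster with probability at least one half
  have key : ∀ m : ℕ, (1 / 4 : ENNReal) ≤
      ENNReal.ofReal ((S.card : ℝ) * S.card * (C * c ^ m)) := by
    intro m
    obtain ⟨φ, hφ⟩ := hfar m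
    set U' : Set (Set (Sym2 V)) := {ω | ∃ a ∈ S, {y | (openGraph G ω).Reachable (φ a) y}.Infinite}
    set T : Set (Set (Sym2 V)) := ⋃ a ∈ S, ⋃ b ∈ S, {ω | (openGraph G ω).Reachable a (φ b)}
    have hcov : U n ∩ U' ∩ {ω | UniqueInfinite G ω} ⊆ T := by
      rintro ω ⟨⟨⟨a, ha, hia⟩, ⟨b, hb, hib⟩⟩, -, hu⟩
      exact Set.mem_biUnion ha (Set.mem_biUnion hb (hu a (φ b) hia hib))
    have hT : perc G p T ≤ ENNReal.ofReal ((S.card : ℝ) * S.card * (C * c ^ m)) := by
      refine (measure_biUnion_finset_le _ _).trans ((Finset.sum_le_sum fun a ha =>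
        (measure_biUnion_finset_le _ _).trans
          (Finset.sum_le_sum fun b hb => hτ a (φ b) m (hφ a ha b hb))).trans (le_of_eq ?_))
      simp only [Finset.sum_const, nsmul_eq_mul]
      rw [ENNReal.ofReal_mul (p := (S.card : ℝ) * S.card) (by positivity),
        ENNReal.ofReal_mul (p := (S.card : ℝ)) (by positivity), ENNReal.ofReal_natCast, mul_assoc]
    have hU' : (3 / 4 : ENNReal) ≤ perc G p U' := hn.le.trans (measure_meets_image φ p S)
    -- no measurability of the uniqueness event is needed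
    have h3 : perc G p {ω | UniqueInfinite G ω} ≤ perc G p ({ω | UniqueInfinite G ω} ∩ T) +
        (perc G p (U n)ᶜ + perc G p U'ᶜ) := by
      refine (measure_mono ?_).trans ((measure_union_le _ _).trans
        (add_le_add le_rfl (measure_union_le _ _)))
      intro ω hω
      by_cases h2 : ω ∈ U n <;> by_cases h3 : ω ∈ U'
      · exact Or.inl ⟨hω, hcov ⟨⟨h2, h3⟩, hω⟩⟩
      · exact Or.inr (Or.inr h3)
      · exact Or.inr (Or.inl h2)
      · exact Or.inr (Or.inl h2)
    have c1 : perc G p (U n)ᶜ = 1 - perc G p (U n) :=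
      prob_compl_eq_one_sub (measurableSet_meets S id)
    have c2 : perc G p U'ᶜ = 1 - perc G p U' := prob_compl_eq_one_sub (measurableSet_meets S φ)
    rw [h1, c1, c2] at h3
    have b1 : 1 - perc G p (U n) ≤ 1 / 4 := by
      refine (tsub_le_tsub_left hn.le 1).trans (le_of_eq ?_)
      exact ENNReal.sub_eq_of_eq_add (ENNReal.div_ne_top (by norm_num) (by norm_num))
        (by rw [ENNReal.div_add_div_same]; norm_num [ENNReal.div_self])
    have b2 : 1 - perc G p U' ≤ 1 / 4 := by
      refine (tsub_le_tsub_left hU' 1).trans (le_of_eq ?_)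
      exact ENNReal.sub_eq_of_eq_add (ENNReal.div_ne_top (by norm_num) (by norm_num))
        (by rw [ENNReal.div_add_div_same]; norm_num [ENNReal.div_self])
    by_contra hlt
    have h4 : (1 : ENNReal) < 1 / 4 + (1 / 4 + 1 / 4) :=
      lt_of_le_of_lt (h3.trans (add_le_add ((measure_mono Set.inter_subset_right).trans hT)
        (add_le_add b1 b2))) (ENNReal.add_lt_add_right
          (by simp) (not_le.1 hlt))
    rw [ENNReal.div_add_div_same, ENNReal.div_add_div_same,
      ENNReal.lt_div_iff_mul_lt (by norm_num) (by norm_num)] at h4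
    norm_num at h4
  have hlim : Filter.Tendsto (fun m : ℕ => (S.card : ℝ) * S.card * (C * c ^ m)) Filter.atTop
      (nhds 0) := by
    simpa using ((tendsto_pow_atTop_nhds_zero_of_lt_one hc0 hc1).const_mul C).const_mul
      ((S.card : ℝ) * S.card)
  obtain ⟨m, hm⟩ := (hlim.eventually (gt_mem_nhds (show (0 : ℝ) < 1 / 8 by norm_num))).exists
  have := (key m).trans (ENNReal.ofReal_le_ofReal hm.le)
  rw [show (1 / 4 : ENNReal) = ENNReal.ofReal (1 / 4) by
    rw [ENNReal.ofReal_div_of_pos (by norm_num)]; norm_num,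
    ENNReal.ofReal_le_ofReal_iff (by norm_num)] at this
  norm_num at this

/-- In a connected infinite quasi-transitive graph whose walk series converges, there is no unique
infinite cluster. -/
theorem not_unique (h : LF G nb) (hc : G.Connected) [Infinite V] (hq : QuasiTransitive G)
    {r : ℝ} (hr : 0 ≤ r) (hW : ∀ k x y, (W nb k x y : ℝ) ≤ r ^ k) {p : unitInterval}
    (hpr : (p : ℝ) * r < 1) : perc G p {ω | UniqueInfinite G ω} ≠ 1 := by
  refine not_unique_of_decay h hc hq (C := (1 - p * r)⁻¹) (mul_nonneg p.2.1 hr) hpr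
    fun x y m hm => (tau_le h hr hW hpr hm).trans_eq ?_
  rw [div_eq_inv_mul]

end Vale.Agent.P165
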